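import Vale.Agent.P157.Full.Sphere.Statements
import Vale.Agent.P157.Parisi.Sphere.Upper.Cells

/-!
Discretisations of the sphere at the fine tolerance.
-/

noncomputable section

open MeasureTheory ProbabilityTheory Filter
open scoped BigOperators Topology

namespace Vale.Agent.P157.Parisi.Full.Spherical

open Sphere (Pts netTol)
open Sphere.Up (Cells exists_cells isProb_sphere)

lemma fineTol_pos (N : ℕ) : 0 < fineTol N := by unfold fineTol; positivity

lemma fineTol_le_netTol (N : ℕ) : fineTol N ≤ netTol N :=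
  one_div_le_one_div_of_le (by positivity)
    (pow_le_pow_right₀ (by linarith [Nat.cast_nonneg (α := ℝ) N]) (by omega))

lemma fineTol_le_half {N : ℕ} (hN : 0 < N) : fineTol N ≤ 1 / 2 := by
  have h : (1 : ℝ) ≤ N := by exact_mod_cast hN
  refine one_div_le_one_div_of_le two_pos ?_
  exact (by linarith : (2 : ℝ) ≤ (N : ℝ) + 1).trans (le_self_pow₀ (by linarith) (by omega))

/-- Families at the fine tolerance are discretisations. -/
lemma isNets_of_isFine {P : ∀ N, Pts N} (hP : IsFine P) : Sphere.IsNets P := fun N hN => by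
  obtain ⟨π, hm, hnear, h⟩ := hP N hN
  refine ⟨π, hm, hnear.mono fun x hx => ⟨hx.1.trans (fineTol_le_netTol N), hx.2⟩, fun φ hφ hφ0 => ?_⟩
  have h0 : 0 ≤ ∫ x, φ (π x) ∂sphereLaw N := integral_nonneg fun x => hφ0 _
  obtain ⟨h1, h2⟩ := h φ hφ hφ0
  have := mul_le_mul_of_nonneg_right (fineTol_le_netTol N) h0
  constructor <;> linarith

/-- Module R0. -/
theorem fine : FineStmt := by
  classical
  have key : ∀ N : ℕ, ∃ P : Pts N, 0 < N → ∃ π : (Fin N → ℝ) → Fin N → ℝ, Measurable π ∧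
      (∀ᵐ x ∂sphereLaw N,
        Real.sqrt (∑ i, (π x i - x i / Real.sqrt N) ^ 2) ≤ fineTol N ∧ ∃ σ, π x = P.u σ) ∧
      ∀ φ : (Fin N → ℝ) → ℝ, Measurable φ → (∀ v, 0 ≤ φ v) →
        (1 - fineTol N) * ∫ x, φ (π x) ∂sphereLaw N ≤ (∑ σ, φ (P.u σ)) / P.K ∧
          (∑ σ, φ (P.u σ)) / P.K ≤ (1 + fineTol N) * ∫ x, φ (π x) ∂sphereLaw N := by
    intro N
    rcases Nat.eq_zero_or_pos N with hN | hN
    · subst hN
      exact ⟨⟨1, one_pos, fun _ _ => 0, fun h => absurd h (lt_irrefl 0)⟩,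
        fun h => absurd h (lt_irrefl 0)⟩
    have ht : 0 < fineTol N := fineTol_pos N
    obtain ⟨c⟩ := exists_cells hN ht
    set t := fineTol N
    obtain ⟨M, hM⟩ := exists_nat_ge (∑ σ, 1 / (t * c.p σ))
    have hp := c.p_pos
    have hM' : ∀ σ, 1 ≤ (M : ℝ) * (t * c.p σ) := fun σ => by
      rw [← div_le_iff₀ (mul_pos ht (hp σ))]
      exact (Finset.single_le_sum (f := fun σ => 1 / (t * c.p σ))
        (fun τ _ => (one_div_pos.2 (mul_pos ht (hp τ))).le) (Finset.mem_univ σ)).trans hM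
    have hM0 : (0 : ℝ) < M := by
      obtain ⟨σ⟩ : Nonempty (Fin c.K) := ⟨⟨0, c.pos⟩⟩
      by_contra h
      have : (M : ℝ) = 0 := le_antisymm (not_lt.1 h) (Nat.cast_nonneg M)
      have h2 := hM' σ
      rw [this, zero_mul] at h2
      linarith
    let n : Fin c.K → ℕ := fun σ => ⌈(M : ℝ) * c.p σ⌉₊
    let I := (σ : Fin c.K) × Fin (n σ)
    let e := Fintype.equivFin I
    have hn : ∀ σ, (M : ℝ) * c.p σ ≤ n σ := fun σ => Nat.le_ceil _
    have hn' : ∀ σ, (n σ : ℝ) ≤ M * c.p σ + 1 := fun σ =>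
      (Nat.ceil_lt_add_one (mul_pos hM0 (hp σ)).le).le
    have hsum : (Fintype.card I : ℝ) = ∑ σ, (n σ : ℝ) := by simp [I]
    have hp1 := c.sum_p hN
    have hlow : (M : ℝ) ≤ Fintype.card I := by
      rw [hsum]
      calc (M : ℝ) = ∑ σ, (M : ℝ) * c.p σ := by rw [← Finset.mul_sum, hp1, mul_one]
        _ ≤ _ := Finset.sum_le_sum fun σ _ => hn σ
    have hhigh : (Fintype.card I : ℝ) ≤ M * (1 + t) := by
      rw [hsum]
      calc ∑ σ, (n σ : ℝ) ≤ ∑ σ, ((M : ℝ) * c.p σ + M * (t * c.p σ)) :=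
            Finset.sum_le_sum fun σ _ => (hn' σ).trans (by linarith [hM' σ])
        _ = M * (1 + t) := by
            rw [Finset.sum_add_distrib, ← Finset.mul_sum, ← Finset.mul_sum, ← Finset.mul_sum, hp1]
            ring
    have hI : 0 < Fintype.card I := by
      have := hM0.trans_le hlow
      exact_mod_cast this
    refine ⟨⟨Fintype.card I, hI, fun j => c.u (e.symm j).1, fun _ j => c.norm_one _⟩,
      fun _ => ⟨c.π, c.meas, ?_, fun φ _ hφ => ?_⟩⟩
    · filter_upwards [c.near] with x hx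
      obtain ⟨h1, σ, hσ⟩ := hx
      have hnpos : 0 < n σ := Nat.ceil_pos.2 (mul_pos hM0 (hp σ))
      exact ⟨h1, e ⟨σ, ⟨0, hnpos⟩⟩, by simp [hσ]⟩
    · have hs : ∑ j : Fin (Fintype.card I), φ (c.u (e.symm j).1) = ∑ σ, (n σ : ℝ) * φ (c.u σ) := by
        rw [e.symm.sum_comp fun i : I => φ (c.u i.1), Fintype.sum_sigma]
        simp
      rw [c.integral_eq φ]
      show (1 - t) * _ ≤ (∑ j : Fin (Fintype.card I), φ (c.u (e.symm j).1)) / _ ∧ _
      rw [hs, le_div_iff₀ (Nat.cast_pos.2 hI), div_le_iff₀ (Nat.cast_pos.2 hI)]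
      constructor
      · rcases le_or_gt 1 t with h1 | h1
        · refine le_trans (mul_nonpos_of_nonpos_of_nonneg (mul_nonpos_of_nonpos_of_nonneg
            (by linarith) (Finset.sum_nonneg fun σ _ => mul_nonneg (hp σ).le (hφ _)))
            (Nat.cast_nonneg _)) (Finset.sum_nonneg fun σ _ => mul_nonneg (Nat.cast_nonneg _) (hφ _))
        · calc (1 - t) * (∑ σ, c.p σ * φ (c.u σ)) * Fintype.card I
              ≤ (1 - t) * (∑ σ, c.p σ * φ (c.u σ)) * (M * (1 + t)) := by
                refine mul_le_mul_of_nonneg_left hhigh (mul_nonneg (by linarith)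
                  (Finset.sum_nonneg fun σ _ => mul_nonneg (hp σ).le (hφ _)))
            _ = (1 - t * t) * ∑ σ, (M : ℝ) * c.p σ * φ (c.u σ) := by
                simp only [mul_assoc, ← Finset.mul_sum]; ring
            _ ≤ 1 * ∑ σ, (M : ℝ) * c.p σ * φ (c.u σ) :=
                mul_le_mul_of_nonneg_right (by nlinarith)
                  (Finset.sum_nonneg fun σ _ => mul_nonneg (mul_pos hM0 (hp σ)).le (hφ _))
            _ ≤ _ := by
                rw [one_mul]
                exact Finset.sum_le_sum fun σ _ => mul_le_mul_of_nonneg_right (hn σ) (hφ _)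
      · calc ∑ σ, (n σ : ℝ) * φ (c.u σ) ≤ ∑ σ, (M : ℝ) * (1 + t) * (c.p σ * φ (c.u σ)) :=
              Finset.sum_le_sum fun σ _ => by
                rw [← mul_assoc]
                refine mul_le_mul_of_nonneg_right ((hn' σ).trans ?_) (hφ _)
                linarith [hM' σ]
          _ = (1 + t) * (∑ σ, c.p σ * φ (c.u σ)) * M := by rw [← Finset.mul_sum]; ring
          _ ≤ _ := mul_le_mul_of_nonneg_left hlow (mul_nonneg (by linarith)
              (Finset.sum_nonneg fun σ _ => mul_nonneg (hp σ).le (hφ _)))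
  choose P hP using key
  exact ⟨P, fun N hN => hP N hN, isNets_of_isFine fun N hN => hP N hN⟩

end Vale.Agent.P157.Parisi.Full.Spherical
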