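import Vale.Agent.P157.Full.Sphere.ByParts.Point
import Vale.Agent.P157.Full.Sphere.Fine
import Vale.Agent.P168.Limit.ToolkitPoisson

/-!
Integration by parts on the sphere, on fine discretisations.
-/

noncomputable section

open MeasureTheory ProbabilityTheory Filter
open scoped BigOperators NNReal Topology

namespace Vale.Agent.P157.Parisi.Full.Spherical

open Sphere (Pts Conf)
open Sphere.Perturb (measurable_totalH measurable_gw_fixed abs_overlap_pow_le)
open Parisi.Perturb (absJ)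
open Vale.Agent.P168.Toolkit (integrable_count_sq integral_count_sq)

variable {N L : ℕ} {f : ℝ → ℝ} {A s : ℝ} {x : Fin L → ℝ}

lemma integrable_integral_sq :
    Integrable (fun t : ℝ => t ^ 2) (gaussianReal 0 1) ∧ ∫ t, t ^ 2 ∂gaussianReal 0 1 = 1 := by
  refine ⟨IsGaussian.memLp_two_id.integrable_sq, ?_⟩
  have h := variance_eq_sub (μ := gaussianReal 0 1) (X := id) IsGaussian.memLp_two_id
  rw [variance_id_gaussianReal] at h
  simpa using h.symm

lemma card_pertIdx_le (N : ℕ) : (Fintype.card (PertIdx N N) : ℝ) ≤ ((N : ℝ) + 1) ^ (N + 1) := by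
  have h : Fintype.card (PertIdx N N) ≤ (N + 1) ^ (N + 1) := by
    simp only [PertIdx, Fintype.card_sigma, Fintype.card_fun, Fintype.card_fin]
    refine (Finset.sum_le_sum (g := fun _ => (N + 1) ^ N) fun p _ =>
      (Nat.pow_le_pow_left N.le_succ _).trans (Nat.pow_le_pow_right N.succ_pos (by omega))).trans ?_
    simp only [Finset.sum_const, Finset.card_univ, Fintype.card_fin, smul_eq_mul]
    rw [pow_succ']
    exact Nat.mul_le_mul_right _ N.le_succ
  exact_mod_cast h

/-- A quadratic bound for `absS ^ 2` and `absJ ^ 2`. -/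
def sqBd (d : Dis N L) : ℝ :=
  (d.1 : ℝ) * N * (∑ a ∈ Finset.range d.1, ∑ i, d.2.1 a i ^ 2) +
    Fintype.card (PertIdx N L) * ∑ c, d.2.2 c ^ 2

lemma sq_le_sqBd (d : Dis N L) : absS d ^ 2 + absJ d.2.2 ^ 2 ≤ sqBd d := by
  refine add_le_add ?_ ((sq_sum_le_card_mul_sum_sq (s := Finset.univ)).trans_eq (by simp [sq_abs]))
  rw [absS, ← Finset.sum_product', ← Finset.sum_product']
  refine sq_sum_le_card_mul_sum_sq.trans_eq ?_
  simp [sq_abs]

lemma sqBd_moment (μ : ℝ) : Integrable (sqBd (N := N) (L := L)) (disLaw N L μ) ∧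
    ∫ d, sqBd d ∂disLaw N L μ =
      (N : ℝ) ^ 2 * ((μ.toNNReal : ℝ) ^ 2 + μ.toNNReal) + (Fintype.card (PertIdx N L) : ℝ) ^ 2 := by
  obtain ⟨hi, h1⟩ := integrable_integral_sq
  set π := (Measure.infinitePi fun _ : ℕ => gam (Fin N)).prod (gam (PertIdx N L))
  set card : ℝ := (Fintype.card (PertIdx N L) : ℝ)
  have hg : ∀ (a : ℕ) (i : Fin N), MeasurePreserving
      (fun z : (ℕ → Fin N → ℝ) × (PertIdx N L → ℝ) => z.1 a i) π (gaussianReal 0 1) := fun a i =>
    ((measurePreserving_eval (fun _ : Fin N => gaussianReal 0 1) i).comp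
      (measurePreserving_eval_infinitePi (fun _ : ℕ => gam (Fin N)) a)).comp measurePreserving_fst
  have hJ : ∀ c : PertIdx N L, MeasurePreserving
      (fun z : (ℕ → Fin N → ℝ) × (PertIdx N L → ℝ) => z.2 c) π (gaussianReal 0 1) := fun c =>
    (measurePreserving_eval (fun _ : PertIdx N L => gaussianReal 0 1) c).comp measurePreserving_snd
  have hgi : ∀ a i, Integrable (fun z : (ℕ → Fin N → ℝ) × (PertIdx N L → ℝ) => z.1 a i ^ 2) π :=
    fun a i => (hg a i).integrable_comp_of_integrable hi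
  have hJi : ∀ c, Integrable (fun z : (ℕ → Fin N → ℝ) × (PertIdx N L → ℝ) => z.2 c ^ 2) π :=
    fun c => (hJ c).integrable_comp_of_integrable hi
  have hga : ∀ n : ℕ, Integrable (fun z : (ℕ → Fin N → ℝ) × (PertIdx N L → ℝ) =>
      ∑ a ∈ Finset.range n, ∑ i, z.1 a i ^ 2) π := fun n =>
    integrable_finsetSum _ fun a _ => integrable_finsetSum _ fun i _ => hgi a i
  have hJa := integrable_finsetSum Finset.univ fun c _ => hJi c
  have hn : ∀ n : ℕ, Integrable (fun z => sqBd (N := N) (L := L) (n, z)) π ∧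
      ∫ z, sqBd (N := N) (L := L) (n, z) ∂π = (N : ℝ) ^ 2 * (n : ℝ) ^ 2 + card ^ 2 := fun n => by
    refine ⟨((hga n).const_mul ((n : ℝ) * N)).add (hJa.const_mul card), ?_⟩
    simp only [sqBd]
    rw [integral_add ((hga n).const_mul _) (hJa.const_mul _), integral_const_mul, integral_const_mul,
      integral_finsetSum _ fun a _ => integrable_finsetSum _ fun i _ => hgi a i,
      integral_finsetSum _ fun c _ => hJi c]
    have eg : ∀ a i, ∫ z : (ℕ → Fin N → ℝ) × (PertIdx N L → ℝ), z.1 a i ^ 2 ∂π = 1 := fun a i =>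
      ((Vale.Agent.P168.Upper.integral_mp (hg a i) (continuous_pow 2).measurable)).trans h1
    have eJ : ∀ c, ∫ z : (ℕ → Fin N → ℝ) × (PertIdx N L → ℝ), z.2 c ^ 2 ∂π = 1 := fun c =>
      ((Vale.Agent.P168.Upper.integral_mp (hJ c) (continuous_pow 2).measurable)).trans h1
    simp only [integral_finsetSum _ fun i _ => hgi _ i, eg, eJ]
    simp [card]
    ring
  have hm : Measurable (sqBd (N := N) (L := L)) :=
    measurable_from_prod_countable_right fun n => by
      simp only [sqBd]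
      fun_prop
  have hq : Integrable (fun n : ℕ => (N : ℝ) ^ 2 * (n : ℝ) ^ 2 + card ^ 2)
      (poissonMeasure μ.toNNReal) :=
    ((integrable_count_sq _).const_mul _).add (integrable_const _)
  have hint : Integrable (sqBd (N := N) (L := L)) (disLaw N L μ) := by
    refine (integrable_prod_iff hm.aestronglyMeasurable).2 ⟨Eventually.of_forall fun n => (hn n).1, ?_⟩
    refine hq.congr (Eventually.of_forall fun n => ?_)
    show (N : ℝ) ^ 2 * (n : ℝ) ^ 2 + card ^ 2 = ∫ z, ‖sqBd (N := N) (L := L) (n, z)‖ ∂π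
    rw [← (hn n).2]
    refine integral_congr_ae (Eventually.of_forall fun z => (Real.norm_of_nonneg ?_).symm)
    exact le_trans (by positivity) (sq_le_sqBd _)
  refine ⟨hint, ?_⟩
  rw [disLaw, integral_prod _ hint, integral_congr_ae (Eventually.of_forall fun n => (hn n).2),
    integral_add ((integrable_count_sq _).const_mul _) (integrable_const _), integral_const_mul,
    integral_count_sq]
  simp

/-- The constant in front of the tolerance. -/
def errConst (A : ℝ) (k : ℕ) : ℝ := 20 * ((k : ℝ) + 2) * (4 * A ^ 2 + A + 20)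

variable (hs : Smooth f A)

include hs in
lemma pointBd_le (hN : 0 < N) {tol : ℝ} (ht : 0 ≤ tol) (d : Dis N L) (k : ℕ) :
    pointBd A s tol d k ≤ 6 * ((k : ℝ) + 1) +
      tol * (errConst A k * (N : ℝ) ^ 2 * (1 + |s|) ^ 2) * (1 + sqBd d) := by
  have hA : 0 ≤ A := (abs_nonneg _).trans (hs.b0 0)
  have hG := gradBd_nonneg (s := s) hs d
  have hK := hessBd_nonneg (s := s) hs d
  have hN1 : (1 : ℝ) ≤ N := by exact_mod_cast hN
  have hk := Nat.cast_nonneg (α := ℝ) k
  set G := gradBd A s d with hGdef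
  set K := hessBd A s d with hKdef
  set q := 1 + |s| with hq
  have hq1 : 1 ≤ q := le_add_of_nonneg_right (abs_nonneg s)
  have hsq := sq_le_sqBd d
  set S := absS d
  set J := absJ d.2.2
  have hX : 0 ≤ sqBd d := le_trans (by positivity) hsq
  have hGq : 1 + G + G ^ 2 + K ≤ (4 * A ^ 2 + A + 20) * q ^ 2 * (1 + sqBd d) := by
    have hX' : 1 + S ^ 2 + J ^ 2 ≤ 1 + sqBd d := by linarith
    have h0 : 0 ≤ (4 * A ^ 2 + A + 20) * q ^ 2 := by positivity
    have hJ0 : 0 ≤ J := Finset.sum_nonneg fun c _ => abs_nonneg _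
    refine le_trans ?_ (mul_le_mul_of_nonneg_left hX' h0)
    have e1 : 1 + G + G ^ 2 + K ≤ 2 + 2 * G ^ 2 + K := by nlinarith [sq_nonneg (G - 1)]
    have e2 : G ^ 2 ≤ 2 * A ^ 2 * S ^ 2 + 8 * |s| ^ 2 * J ^ 2 := by
      rw [hGdef, gradBd]; nlinarith [sq_nonneg (A * S - 2 * |s| * J)]
    have e3 : K ≤ A * S ^ 2 + 4 * |s| * (1 + J ^ 2) := by
      rw [hKdef, hessBd]
      nlinarith [mul_nonneg (abs_nonneg s) (sq_nonneg (J - 1)), mul_nonneg (abs_nonneg s) hJ0,
        abs_nonneg s]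
    have a1 : |s| ≤ q ^ 2 := by nlinarith [abs_nonneg s]
    have a2 : |s| ^ 2 ≤ q ^ 2 := pow_le_pow_left₀ (abs_nonneg _) (by linarith) 2
    have a3 : 1 ≤ q ^ 2 := one_le_pow₀ hq1
    nlinarith [mul_le_mul_of_nonneg_right a1 (by positivity : 0 ≤ 1 + J ^ 2),
      mul_le_mul_of_nonneg_right a2 (sq_nonneg J),
      mul_le_mul_of_nonneg_left a3 (by positivity : 0 ≤ (4 * A ^ 2 + A) * (1 + S ^ 2 + J ^ 2))]
  have hN2 : (N : ℝ) ≤ (N : ℝ) ^ 2 := by nlinarith
  have hE : ellLip A s d k ≤ 3 * ((k : ℝ) + 1) * (N : ℝ) ^ 2 * (1 + G + G ^ 2 + K) := by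
    rw [ellLip, ← hGdef, ← hKdef]
    nlinarith [mul_le_mul_of_nonneg_left hN2 (mul_nonneg hk hG), mul_le_mul_of_nonneg_left hN2 hG,
      mul_le_mul_of_nonneg_left (hN1.trans hN2) hG, mul_le_mul_of_nonneg_left (hN1.trans hN2) hK,
      mul_nonneg (mul_nonneg hk hK) (sq_nonneg (N : ℝ)),
      mul_nonneg (mul_nonneg hk (sq_nonneg G)) (sq_nonneg (N : ℝ)),
      mul_nonneg (sq_nonneg G) (sq_nonneg (N : ℝ))]
  have hB : 2 * ellBd A s d * G + ellBd A s d ≤ 7 * (N : ℝ) ^ 2 * (1 + G + G ^ 2 + K) := by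
    rw [ellBd, ← hGdef]
    nlinarith [mul_le_mul_of_nonneg_left hN2 hG, mul_le_mul_of_nonneg_left (hN1.trans hN2) hG,
      mul_le_mul_of_nonneg_left (hN1.trans hN2) (sq_nonneg G),
      mul_nonneg hK (sq_nonneg (N : ℝ))]
  rw [pointBd, ← hGdef, errConst]
  have hN0 : 0 ≤ (N : ℝ) ^ 2 := sq_nonneg _
  have hsum : 2 * (3 * ellLip A s d k + 2 * ellBd A s d * G + ellBd A s d) ≤
      20 * ((k : ℝ) + 2) * (N : ℝ) ^ 2 * (1 + G + G ^ 2 + K) := by
    nlinarith [mul_nonneg hN0 (by positivity : 0 ≤ 1 + G + G ^ 2 + K),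
      mul_nonneg (mul_nonneg hN0 (by positivity : 0 ≤ 1 + G + G ^ 2 + K)) hk]
  nlinarith [mul_le_mul_of_nonneg_left hsum ht,
    mul_le_mul_of_nonneg_left hGq (by positivity : 0 ≤ tol * (20 * ((k : ℝ) + 2) * (N : ℝ) ^ 2))]

/-- The sums of the two replicas. -/
lemma sum_fin_two {P : Pts N} (F : Conf P → Conf P → ℝ) (w : Conf P → ℝ) :
    ∑ σ : Fin 2 → Conf P, (∏ l, w (σ l)) * F (σ 0) (σ 1) = ∑ σ, ∑ τ, w σ * w τ * F σ τ := by
  rw [← (finTwoArrowEquiv (Conf P)).symm.sum_comp, Fintype.sum_prod_type]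
  simp [Fin.prod_univ_two]

include hs in
lemma tangGrad_eq {P : Pts N} (d : Dis N L) (σ τ : Conf P) :
    tangGrad f s x d σ τ = fderiv ℝ (ham f s x d) (Sphere.unitVec σ) (Sphere.unitVec τ) -
      Sphere.overlap σ τ * fderiv ℝ (ham f s x d) (Sphere.unitVec σ) (Sphere.unitVec σ) := by
  rw [fderiv_ham hs, fderiv_ham hs, tangGrad, mul_add, Finset.mul_sum, Finset.mul_sum,
    add_sub_add_comm, ← Finset.sum_sub_distrib, ← Finset.sum_sub_distrib]
  refine congrArg₂ _ (Finset.sum_congr rfl fun a _ => by ring) (Finset.sum_congr rfl fun c _ => ?_)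
  simp only [pertCoef, sub_mul, Finset.sum_sub_distrib, mul_assoc, ← Finset.mul_sum]
  ring

lemma measurable_tangGrad (hf : Smooth f A) {P : Pts N} (σ τ : Conf P) :
    Measurable fun d : Dis N L => tangGrad f s x d σ τ := by
  have hd : Measurable (deriv f) := hf.d1.continuous.measurable
  refine measurable_from_prod_countable_right fun n => ?_
  simp only [tangGrad, dot]
  fun_prop

/-- Module R2. -/
theorem byParts : ByPartsStmt := by
  intro α A C f hα hs P hP k ε hε
  have hA : 0 ≤ A := (abs_nonneg _).trans (hs.b0 0)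
  set M := α + |C| + 1
  have hM : 1 ≤ M := by simp only [M]; linarith [abs_nonneg C]
  set T := 6 * ((k : ℝ) + 1) + errConst A k * (4 * M ^ 2)
  obtain ⟨n₀, hn₀⟩ := exists_nat_ge (T / ε)
  filter_upwards [eventually_ge_atTop n₀, eventually_gt_atTop 0] with N hn hN μ hμ0 hμ x hx
  have hN0 : (0 : ℝ) < N := by exact_mod_cast hN
  obtain ⟨π, hπ, hnear, hcmp⟩ := hP N hN
  set s := scale N
  set tol := fineTol N
  have ht0 : 0 ≤ tol := (fineTol_pos N).le
  have hx2 : ∀ i, |x i| ≤ 2 := fun i => abs_le.2 ⟨by linarith [(hx i).1], (hx i).2⟩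
  set Q := P N
  set S := Sphere.sysState Q f s x μ
  set w : Dis N N → Conf Q → ℝ := fun d σ =>
    Real.exp (Sphere.totalH f s x d σ) / ∑ τ : Conf Q, Real.exp (Sphere.totalH f s x d τ)
  have hw0 : ∀ d σ, 0 ≤ w d σ := fun d σ =>
    div_nonneg (Real.exp_pos _).le (Finset.sum_nonneg fun _ _ => (Real.exp_pos _).le)
  have hw1 : ∀ d, ∑ σ, w d σ = 1 := fun d => by
    simp only [w]
    rw [← Finset.sum_div, div_self
      (Finset.sum_pos (fun σ _ => Real.exp_pos _) Finset.univ_nonempty).ne']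
  have hwm : ∀ σ, Measurable fun d : Dis N N => w d σ := fun σ =>
    measurable_gw_fixed hs.d0.continuous s x σ
  set R : Dis N N → ℝ := fun d => ∑ σ, ∑ τ, w d σ * w d τ * Sphere.overlap σ τ ^ (k + 1)
  set Γ : Dis N N → ℝ := fun d =>
    ∑ σ, ∑ τ, w d σ * w d τ * (Sphere.overlap σ τ ^ k * tangGrad f s x d σ τ)
  have hΓR : ∀ d, |N * R d - Γ d| ≤ pointBd A s tol d k := fun d => by
    set E : Conf Q → ℝ := fun σ => Real.exp (ham f s x d (Sphere.unitVec σ))
    have hZ : 0 < ∑ σ, E σ := Finset.sum_pos (fun σ _ => Real.exp_pos _) Finset.univ_nonempty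
    have hw : ∀ σ, w d σ = E σ / ∑ τ, E τ := fun σ => by
      simp only [E, w, ham_unitVec]
    have e : N * R d - Γ d = ∑ τ, w d τ * ((∑ σ, ell f s x d k (Sphere.unitVec τ)
        (Sphere.unitVec σ) * E σ) / ∑ σ, E σ) := by
      simp only [R, Γ, tangGrad_eq hs, Finset.mul_sum, ← Finset.sum_sub_distrib, Finset.sum_div]
      rw [Finset.sum_comm]
      refine Finset.sum_congr rfl fun τ _ => Finset.sum_congr rfl fun σ _ => ?_
      simp only [ell, hw σ]
      show (N : ℝ) * _ - _ = _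
      simp only [Sphere.overlap]
      ring
    rw [e]
    refine (Finset.abs_sum_le_sum_abs _ _).trans ((Finset.sum_le_sum
      (g := fun τ => w d τ * pointBd A s tol d k) fun τ _ => ?_).trans_eq
        (by rw [← Finset.sum_mul, hw1, one_mul]))
    rw [abs_mul, abs_of_nonneg (hw0 d τ), abs_div, abs_of_pos hZ]
    exact mul_le_mul_of_nonneg_left ((div_le_iff₀ hZ).2
      (abs_sum_ell_le (P := Q) hs hx2 hN hπ ht0 (fineTol_le_half hN) hnear hcmp d k
        (Q.norm_one hN τ))) (hw0 d τ)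
  have hR1 : ∀ d, |R d| ≤ 1 := fun d => by
    refine (Finset.abs_sum_le_sum_abs _ _).trans ((Finset.sum_le_sum (g := fun σ => w d σ)
      fun σ _ => (Finset.abs_sum_le_sum_abs _ _).trans ?_).trans_eq (hw1 d))
    refine (Finset.sum_le_sum (g := fun τ => w d σ * w d τ) fun τ _ => ?_).trans_eq
      (by rw [← Finset.mul_sum, hw1, mul_one])
    rw [abs_mul, abs_of_nonneg (mul_nonneg (hw0 d σ) (hw0 d τ))]
    exact mul_le_of_le_one_right (mul_nonneg (hw0 d σ) (hw0 d τ)) (abs_overlap_pow_le σ τ _)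
  obtain ⟨hqi, hq⟩ := sqBd_moment (N := N) (L := N) μ
  set B := errConst A k * (N : ℝ) ^ 2 * (1 + |s|) ^ 2
  set bd : Dis N N → ℝ := fun d => 6 * ((k : ℝ) + 1) + tol * B * (1 + sqBd d)
  have hbd : Integrable bd (disLaw N N μ) :=
    (integrable_const _).add (((integrable_const _).add hqi).const_mul _)
  have hb : ∀ d, |N * R d - Γ d| ≤ bd d := fun d => (hΓR d).trans (pointBd_le hs hN ht0 d k)
  have hRi : Integrable R (disLaw N N μ) :=
    Integrable.of_bound (Finset.measurable_sum _ fun σ _ => Finset.measurable_sum _ fun τ _ =>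
      ((hwm σ).mul (hwm τ)).mul_const _).aestronglyMeasurable 1
      (Eventually.of_forall fun d => hR1 d)
  have hΔ : Integrable (fun d => N * R d - Γ d) (disLaw N N μ) :=
    hbd.mono' (((Finset.measurable_sum _ fun σ _ => Finset.measurable_sum _ fun τ _ =>
      ((hwm σ).mul (hwm τ)).mul_const _).const_mul _).sub
      (Finset.measurable_sum _ fun σ _ => Finset.measurable_sum _ fun τ _ =>
      ((hwm σ).mul (hwm τ)).mul ((measurable_tangGrad hs σ τ).const_mul _))).aestronglyMeasurable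
      (Eventually.of_forall fun d => hb d)
  have hΓi : Integrable Γ (disLaw N N μ) :=
    ((hRi.const_mul (N : ℝ)).sub hΔ).congr (Eventually.of_forall fun d => by simp)
  have hrep : S.repMean 2 (fun σ => Sphere.overlap (σ 0) (σ 1) ^ (k + 1)) =
      ∫ d, R d ∂disLaw N N μ :=
    integral_congr_ae (Eventually.of_forall fun d =>
      sum_fin_two (fun σ τ => Sphere.overlap σ τ ^ (k + 1)) (w d))
  have hmain : |∫ d, (N * R d - Γ d) ∂disLaw N N μ| ≤ T := by
    refine (norm_integral_le_of_norm_le (f := fun d => (N : ℝ) * R d - Γ d) hbd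
      (Eventually.of_forall hb)).trans ?_
    simp only [bd]
    rw [integral_add (integrable_const _) (((integrable_const (1 : ℝ)).fun_add hqi).const_mul (tol * B)),
      integral_const, integral_const_mul, integral_add (integrable_const (1 : ℝ)) hqi, hq]
    simp only [integral_const, probReal_univ, one_smul, T, B]
    refine add_le_add le_rfl ?_
    set b := (N : ℝ) + 1
    have hb1 : 1 ≤ b := le_add_of_nonneg_left (Nat.cast_nonneg N)
    have hNb : (N : ℝ) ≤ b := le_add_of_nonneg_right zero_le_one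
    have hsb : 1 + |s| ≤ b := by
      have hN1 : (1 : ℝ) ≤ N := by exact_mod_cast hN
      have : s ≤ N := (Real.rpow_le_rpow_of_exponent_le hN1
        (by norm_num : (3 / 8 : ℝ) ≤ 1)).trans_eq (Real.rpow_one _)
      have h0 : 0 ≤ s := Real.rpow_nonneg (Nat.cast_nonneg N) _
      rw [abs_of_nonneg h0]
      simp only [b]; linarith
    have hμb : (μ.toNNReal : ℝ) ≤ M * b := by
      rw [Real.coe_toNNReal μ hμ0]
      have := abs_le.1 hμ
      simp only [M, b]
      nlinarith [le_abs_self C, mul_nonneg (abs_nonneg C) (Nat.cast_nonneg (α := ℝ) N)]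
    set e := 2 * N + 4
    have hcard : (Fintype.card (PertIdx N N) : ℝ) ^ 2 ≤ b ^ e := by
      refine (pow_le_pow_left₀ (Nat.cast_nonneg _) (card_pertIdx_le N) 2).trans ?_
      rw [← pow_mul]
      exact pow_le_pow_right₀ hb1 (by omega)
    have hpois : (N : ℝ) ^ 2 * ((μ.toNNReal : ℝ) ^ 2 + μ.toNNReal) ≤ 2 * M ^ 2 * b ^ e := by
      have h1 : (μ.toNNReal : ℝ) ^ 2 + μ.toNNReal ≤ 2 * M ^ 2 * b ^ 2 := by
        have h2 := pow_le_pow_left₀ (NNReal.coe_nonneg μ.toNNReal) hμb 2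
        have h3 : M * b ≤ (M * b) ^ 2 := le_self_pow₀ (one_le_mul_of_one_le_of_one_le hM hb1) two_ne_zero
        nlinarith
      calc (N : ℝ) ^ 2 * ((μ.toNNReal : ℝ) ^ 2 + μ.toNNReal)
          ≤ b ^ 2 * (2 * M ^ 2 * b ^ 2) :=
            mul_le_mul (pow_le_pow_left₀ hN0.le hNb 2) h1 (by positivity) (by positivity)
        _ = 2 * M ^ 2 * b ^ 4 := by ring
        _ ≤ _ := mul_le_mul_of_nonneg_left (pow_le_pow_right₀ hb1 (by omega)) (by positivity)
    have hmom : 1 + ((N : ℝ) ^ 2 * ((μ.toNNReal : ℝ) ^ 2 + μ.toNNReal) +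
        (Fintype.card (PertIdx N N) : ℝ) ^ 2) ≤ 4 * M ^ 2 * b ^ e := by
      have : 1 ≤ b ^ e := one_le_pow₀ hb1
      have hM2 : 1 ≤ M ^ 2 := one_le_pow₀ hM
      nlinarith [mul_le_mul_of_nonneg_right hM2 (by positivity : 0 ≤ b ^ e)]
    have hc : 0 ≤ errConst A k := by unfold errConst; positivity
    have htol : tol * b ^ (4 * N + 12) = 1 := one_div_mul_cancel (by positivity)
    calc _ ≤ tol * (errConst A k * b ^ 2 * b ^ 2) * (4 * M ^ 2 * b ^ e) := by
            gcongr
      _ = errConst A k * (4 * M ^ 2) * (tol * b ^ (e + 4)) := by ring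
      _ ≤ errConst A k * (4 * M ^ 2) * (tol * b ^ (4 * N + 12)) := by
            refine mul_le_mul_of_nonneg_left (mul_le_mul_of_nonneg_left
              (pow_le_pow_right₀ hb1 (by omega)) ht0) (by positivity)
      _ = _ := by rw [htol, mul_one]
  rw [integral_sub (hRi.const_mul _) hΓi, integral_const_mul] at hmain
  rw [hrep, show gradMean Q f s x μ k = ∫ d, Γ d ∂disLaw N N μ from rfl,
    show ∫ d, R d ∂disLaw N N μ - (∫ d, Γ d ∂disLaw N N μ) / N =
      (N * ∫ d, R d ∂disLaw N N μ - ∫ d, Γ d ∂disLaw N N μ) / N by field_simp,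
    abs_div, Nat.abs_cast, div_le_iff₀ hN0]
  refine hmain.trans ?_
  rw [div_le_iff₀ hε] at hn₀
  nlinarith [show (n₀ : ℝ) ≤ N from Nat.cast_le.2 hn]

end Vale.Agent.P157.Parisi.Full.Spherical
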