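import Vale.Agent.P157.Full.Sphere.Statements
import Vale.Agent.P157.Parisi.Sphere.Upper.Cells

/-!
The uniform law of the sphere is invariant under plane rotations; the derivative of this
invariance at the identity.
-/

noncomputable section

open MeasureTheory ProbabilityTheory Filter
open scoped BigOperators Topology

namespace Vale.Agent.P157.Parisi.Full.Spherical

open Sphere.Up (isProb_sphere ae_sphere)

variable {N : ℕ}

/-- The uniform law of the unit sphere. -/
def unitLaw (N : ℕ) : Measure (Fin N → ℝ) :=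
  (sphereLaw N).map fun x i => x i / Real.sqrt N

lemma measurable_scaleMap : Measurable fun (x : Fin N → ℝ) i => x i / Real.sqrt N :=
  measurable_pi_lambda _ fun i => (measurable_pi_apply i).div_const _

lemma isProb_unitLaw (hN : 0 < N) : IsProbabilityMeasure (unitLaw N) := by
  have := isProb_sphere hN
  exact Measure.isProbabilityMeasure_map measurable_scaleMap.aemeasurable

lemma integral_unitLaw {F : (Fin N → ℝ) → ℝ} (hF : Measurable F) :
    ∫ u, F u ∂unitLaw N = ∫ x, F (fun i => x i / Real.sqrt N) ∂sphereLaw N :=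
  integral_map measurable_scaleMap.aemeasurable hF.aestronglyMeasurable

lemma ae_unitLaw (hN : 0 < N) : ∀ᵐ u ∂unitLaw N, ∑ i, u i ^ 2 = 1 :=
  (ae_map_iff measurable_scaleMap.aemeasurable
    (measurableSet_eq_fun (by fun_prop) measurable_const)).2 ((ae_sphere hN).mono fun _ h => h.2)

/-- The rotation by the angle `t` in the plane of the coordinates `i` and `j`. -/
def rot (i j : Fin N) (t : ℝ) (u : Fin N → ℝ) : Fin N → ℝ :=
  u + ((Real.cos t - 1) * u i - Real.sin t * u j) • Pi.single i 1 +
    (Real.sin t * u i + (Real.cos t - 1) * u j) • Pi.single j 1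

lemma sum_rot_sq {i j : Fin N} (hij : i ≠ j) (t : ℝ) (u : Fin N → ℝ) :
    ∑ k, rot i j t u k ^ 2 = ∑ k, u k ^ 2 := by
  set a := (Real.cos t - 1) * u i - Real.sin t * u j with ha
  set b := Real.sin t * u i + (Real.cos t - 1) * u j with hb
  have e : ∀ k, rot i j t u k ^ 2 = u k ^ 2 + (if k = i then 2 * a * u i + a ^ 2 else 0) +
      (if k = j then 2 * b * u j + b ^ 2 else 0) := fun k => by
    simp only [rot, Pi.add_apply, Pi.smul_apply, Pi.single_apply, smul_eq_mul, ← ha, ← hb]
    rcases eq_or_ne k i with rfl | hi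
    · simp [hij]; ring
    rcases eq_or_ne k j with rfl | hj
    · simp [hi]; ring
    simp [hi, hj]
  rw [Finset.sum_congr rfl fun k _ => e k, Finset.sum_add_distrib, Finset.sum_add_distrib,
    Finset.sum_ite_eq', Finset.sum_ite_eq']
  simp only [Finset.mem_univ, if_true]
  rw [ha, hb]
  linear_combination (u i ^ 2 + u j ^ 2) * Real.sin_sq_add_cos_sq t

/-- The same rotation as a linear map of the Euclidean space. -/
def rotLin (i j : Fin N) (t : ℝ) : EuclideanSpace ℝ (Fin N) →ₗ[ℝ] EuclideanSpace ℝ (Fin N) where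
  toFun z := WithLp.toLp 2 (rot i j t fun k => z k)
  map_add' z w := by ext k; simp [rot, Pi.single_apply]; split_ifs <;> ring
  map_smul' c z := by ext k; simp [rot, Pi.single_apply]; split_ifs <;> ring

lemma map_rot (hN : 0 < N) {i j : Fin N} (hij : i ≠ j) (t : ℝ) :
    (unitLaw N).map (rot i j t) = unitLaw N := by
  have : Nonempty (Fin N) := ⟨⟨0, hN⟩⟩
  let li : EuclideanSpace ℝ (Fin N) →ₗᵢ[ℝ] EuclideanSpace ℝ (Fin N) :=
    ⟨rotLin i j t, fun z => by
      rw [EuclideanSpace.norm_eq, EuclideanSpace.norm_eq]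
      simp only [Real.norm_eq_abs, sq_abs]
      exact congrArg Real.sqrt (sum_rot_sq hij t fun k => z k)⟩
  let e := li.toLinearIsometryEquiv rfl
  set m := (((volume : Measure (EuclideanSpace ℝ (Fin N))).toSphere Set.univ)⁻¹ •
      (volume : Measure (EuclideanSpace ℝ (Fin N))).toSphere).map Subtype.val with hm
  have hinv : m.map e = m := by rw [hm, Measure.map_smul, Measure.map_smul, volume_toSphere_rotInv e]
  have ho : Measurable (fun (z : EuclideanSpace ℝ (Fin N)) k => z k) := by fun_prop
  have hu : unitLaw N = m.map fun z k => z k := by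
    have hs : Measurable (fun (u : Metric.sphere (0 : EuclideanSpace ℝ (Fin N)) 1) (k : Fin N) =>
        Real.sqrt N * (u : EuclideanSpace ℝ (Fin N)) k) := by fun_prop
    rw [unitLaw, sphereLaw, Measure.map_map measurable_scaleMap hs, hm,
      Measure.map_map ho measurable_subtype_coe]
    congr 1
    ext u k
    have : Real.sqrt (N : ℝ) ≠ 0 := by positivity
    simp only [Function.comp_apply]
    field_simp
  rw [hu, Measure.map_map (by unfold rot; fun_prop) ho]
  conv_rhs => rw [← hinv, Measure.map_map ho e.continuous.measurable]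
  rfl

lemma integral_rot (hN : 0 < N) {i j : Fin N} (hij : i ≠ j) {φ : (Fin N → ℝ) → ℝ}
    (hφ : Continuous φ) (t : ℝ) :
    ∫ u, φ (rot i j t u) ∂unitLaw N = ∫ u, φ u ∂unitLaw N := by
  conv_rhs => rw [← map_rot hN hij t]
  rw [integral_map (by unfold rot; fun_prop : Measurable (rot i j t)).aemeasurable
    hφ.aestronglyMeasurable]

lemma abs_le_one_of_sum_sq {u : Fin N → ℝ} (h : ∑ k, u k ^ 2 ≤ 1) (i : Fin N) : |u i| ≤ 1 :=
  (sq_le_one_iff_abs_le_one _).1 ((Finset.single_le_sum (f := fun k => u k ^ 2)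
    (fun _ _ => sq_nonneg _) (Finset.mem_univ i)).trans h)

lemma norm_le_one_of_sum_sq {u : Fin N → ℝ} (h : ∑ k, u k ^ 2 ≤ 1) : ‖u‖ ≤ 1 :=
  (pi_norm_le_iff_of_nonneg zero_le_one).2 (abs_le_one_of_sum_sq h)

lemma integrable_unitLaw (hN : 0 < N) {φ : (Fin N → ℝ) → ℝ} (hφ : Continuous φ) :
    Integrable φ (unitLaw N) := by
  have := isProb_unitLaw hN
  obtain ⟨C, hC⟩ := (isCompact_closedBall (0 : Fin N → ℝ) 1).exists_bound_of_continuousOn
    hφ.continuousOn
  exact Integrable.of_bound hφ.aestronglyMeasurable C ((ae_unitLaw hN).mono fun u hu => hC u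
    (by simpa using norm_le_one_of_sum_sq hu.le))

/-- The differentiated invariance. -/
theorem integral_rot_deriv (hN : 0 < N) (i j : Fin N) {φ : (Fin N → ℝ) → ℝ}
    (hφ : ContDiff ℝ 1 φ) :
    ∫ u, fderiv ℝ φ u (u i • Pi.single j 1 - u j • Pi.single i 1) ∂unitLaw N = 0 := by
  rcases eq_or_ne i j with rfl | hij
  · simp
  have := isProb_unitLaw hN
  have hc : Continuous (fderiv ℝ φ) := hφ.continuous_fderiv one_ne_zero
  set V : ℝ → (Fin N → ℝ) → Fin N → ℝ := fun t u =>
    (-Real.sin t * u i - Real.cos t * u j) • Pi.single i 1 +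
      (Real.cos t * u i + -Real.sin t * u j) • Pi.single j 1
  set D : ℝ → (Fin N → ℝ) → ℝ := fun t u => fderiv ℝ φ (rot i j t u) (V t u)
  have hD : Continuous (Function.uncurry D) := by
    simp only [D, V, Function.uncurry_def, rot]
    fun_prop
  obtain ⟨C, hC⟩ := ((isCompact_Icc (a := (-1 : ℝ)) (b := 1)).prod
    (isCompact_closedBall (0 : Fin N → ℝ) 1)).exists_bound_of_continuousOn hD.continuousOn
  have hd : ∀ u t, HasDerivAt (fun t => φ (rot i j t u)) (D t u) t := fun u t => by
    refine ((hφ.differentiable one_ne_zero _).hasFDerivAt).comp_hasDerivAt t ?_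
    have h1 := (((Real.hasDerivAt_cos t).sub_const 1).mul_const (u i)).sub
      ((Real.hasDerivAt_sin t).mul_const (u j))
    have h2 := ((Real.hasDerivAt_sin t).mul_const (u i)).add
      (((Real.hasDerivAt_cos t).sub_const 1).mul_const (u j))
    exact ((h1.smul_const (Pi.single i (1 : ℝ))).const_add u).add
      (h2.smul_const (Pi.single j (1 : ℝ)))
  have h := (hasDerivAt_integral_of_dominated_loc_of_deriv_le (μ := unitLaw N) (bound := fun _ => C)
    (F := fun t u => φ (rot i j t u)) (F' := D) (x₀ := (0 : ℝ))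
    (Icc_mem_nhds (by norm_num : (-1 : ℝ) < 0) (by norm_num : (0 : ℝ) < 1))
    (Eventually.of_forall fun t => (hφ.continuous.comp (by unfold rot; fun_prop)).aestronglyMeasurable)
    (integrable_unitLaw hN (hφ.continuous.comp (by unfold rot; fun_prop)))
    (hD.comp (Continuous.prodMk_right 0)).aestronglyMeasurable
    ((ae_unitLaw hN).mono fun u hu t ht => hC (t, u)
      ⟨ht, by simpa using norm_le_one_of_sum_sq hu.le⟩)
    (integrable_const C) (Eventually.of_forall fun u t _ => hd u t)).2
  have h0 : ∫ u, D 0 u ∂unitLaw N = 0 := by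
    refine h.unique ?_
    simp only [integral_rot hN hij hφ.continuous]
    exact hasDerivAt_const _ _
  refine (integral_congr_ae (Eventually.of_forall fun u => ?_)).trans h0
  simp [D, V, rot, sub_eq_add_neg, add_comm]

/-- Module R1 on the unit sphere. -/
theorem rot_identity (hN : 0 < N) {ψ : (Fin N → ℝ) → ℝ} (hψ : ContDiff ℝ 1 ψ)
    (y : Fin N → ℝ) :
    ((N : ℝ) - 1) * ∫ u, dot u y * ψ u ∂unitLaw N =
      ∫ u, (fderiv ℝ ψ u y - dot u y * fderiv ℝ ψ u u) ∂unitLaw N := by
  have := isProb_unitLaw hN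
  have hc : Continuous (fderiv ℝ ψ) := hψ.continuous_fderiv one_ne_zero
  have hψc := hψ.continuous
  set T : Fin N → Fin N → (Fin N → ℝ) → ℝ := fun i j u =>
    y j * (((u i * if i = j then 1 else 0) - u j) * ψ u +
      u i * fderiv ℝ ψ u (u i • Pi.single j 1 - u j • Pi.single i 1))
  have hT : ∀ i j, ∫ u, T i j u ∂unitLaw N = 0 := fun i j => by
    have hφ : ContDiff ℝ 1 fun u : Fin N → ℝ => y j * (u i * ψ u) :=
      contDiff_const.mul ((contDiff_apply ℝ ℝ i).mul hψ)
    refine (integral_congr_ae (Eventually.of_forall fun u => ?_)).trans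
      (integral_rot_deriv hN i j hφ)
    have hd : HasFDerivAt (fun u : Fin N → ℝ => y j * (u i * ψ u))
        (y j • (u i • fderiv ℝ ψ u + ψ u • ContinuousLinearMap.proj (R := ℝ) i)) u :=
      ((hasFDerivAt_apply i u).mul (hψ.differentiable one_ne_zero u).hasFDerivAt).const_mul _
    rw [hd.fderiv]
    simp only [T]
    rcases eq_or_ne i j with rfl | hij
    · simp
    · simp [hij]
      ring
  have hi : ∀ i j, Integrable (T i j) (unitLaw N) := fun i j =>
    integrable_unitLaw hN (by simp only [T]; fun_prop)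
  have h := Finset.sum_eq_zero (s := Finset.univ) fun i _ =>
    Finset.sum_eq_zero (s := Finset.univ) fun j _ => hT i j
  simp only [← integral_finsetSum _ fun j _ => hi _ j] at h
  rw [← integral_finsetSum _ fun i _ => integrable_finsetSum _ fun j _ => hi i j] at h
  have e : ∀ u : Fin N → ℝ, ∑ i, u i ^ 2 = 1 → ∑ i, ∑ j, T i j u =
      (fderiv ℝ ψ u y - dot u y * fderiv ℝ ψ u u) - ((N : ℝ) - 1) * (dot u y * ψ u) := by
    intro u hu
    have hy : ∀ v : Fin N → ℝ, fderiv ℝ ψ u v = ∑ j, v j * fderiv ℝ ψ u (Pi.single j 1) := fun v => by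
      conv_lhs => rw [pi_eq_sum_univ' v]
      simp [map_sum]
    set D : Fin N → ℝ := fun j => fderiv ℝ ψ u (Pi.single j 1)
    have eT : ∀ i j, T i j u = ψ u * (u i * y j * if i = j then 1 else 0) - ψ u * (u j * y j) +
        u i ^ 2 * (y j * D j) - (u i * D i) * (u j * y j) := fun i j => by
      simp only [T, D, map_sub, map_smul, smul_eq_mul]
      ring
    simp only [eT, hy y, hy u, dot]
    simp only [Finset.sum_add_distrib, Finset.sum_sub_distrib, mul_ite, mul_one, mul_zero,
      Finset.sum_ite_eq, Finset.mem_univ, if_true, ← Finset.mul_sum, ← Finset.sum_mul, hu,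
      Finset.sum_const, Finset.card_univ, Fintype.card_fin, nsmul_eq_mul]
    ring
  rw [integral_congr_ae ((ae_unitLaw hN).mono e), integral_sub
    ((integrable_unitLaw hN (by unfold dot; fun_prop)))
    ((integrable_unitLaw hN (by unfold dot; fun_prop)).const_mul _), integral_const_mul] at h
  linarith

/-- Module R1. -/
theorem rotIdentity : RotStmt := fun N ψ hN hψ y _ => by
  have hc : Continuous (fderiv ℝ ψ) := hψ.continuous_fderiv one_ne_zero
  have hψc := hψ.continuous
  have hd : Continuous fun u : Fin N → ℝ => fderiv ℝ ψ u y - dot u y * fderiv ℝ ψ u u := by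
    unfold dot; fun_prop
  rw [← integral_unitLaw (F := fun u => dot u y * ψ u) (by unfold dot; fun_prop),
    ← integral_unitLaw (F := fun u => fderiv ℝ ψ u y - dot u y * fderiv ℝ ψ u u)
      hd.measurable]
  exact rot_identity hN hψ y

end Vale.Agent.P157.Parisi.Full.Spherical
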