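import Vale.Agent.P157.Full.Sphere.Gap
import Vale.Agent.P157.Full.Deriv
import Vale.Agent.P157.Parisi.ModA.Slope

/-!
Near a stationary path the functional of the quadratic recursion and the entropy functional agree:
the exact stationary overlap path of the same precisions is close.
-/

noncomputable section

open MeasureTheory ProbabilityTheory
open scoped BigOperators

namespace Vale.Agent.P157.Parisi.Full.Spherical

open Sphere.Main (sum_weight_mul)
open Vale.Agent.P157.Parisi.Main (weight_nonneg)

variable {r : ℕ}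

/-- Discrete Gronwall inequality. -/
lemma gronwall {L : ℝ} (hL : 0 ≤ L) : ∀ {n : ℕ} (w a b : Fin n → ℝ), (∀ p, 0 ≤ w p) →
    (∀ p, 0 ≤ b p) → (∀ p, a p ≤ b p + L * ∑ l, if p < l then w l * a l else 0) →
    ∑ p, w p * a p ≤ (∑ p, w p * b p) * Real.exp (L * ∑ p, w p)
  | 0, _, _, _, _, _, _ => by simp
  | n + 1, w, a, b, hw, hb, h => by
    have ih := gronwall hL (Fin.tail w) (Fin.tail a) (Fin.tail b) (fun p => hw _) (fun p => hb _)
      fun p => by
        have hp := h p.succ
        simp only [Fin.sum_univ_succ, Fin.succ_lt_succ_iff, Fin.not_lt_zero, if_false, zero_add] at hp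
        exact hp
    simp only [Fin.tail] at ih
    have h0 := h 0
    simp only [Fin.sum_univ_succ, lt_irrefl, if_false, zero_add, Fin.succ_pos, if_true] at h0
    rw [Fin.sum_univ_succ, Fin.sum_univ_succ, Fin.sum_univ_succ]
    set X := ∑ i : Fin n, w i.succ * a i.succ
    set B := ∑ i : Fin n, w i.succ * b i.succ
    set W := ∑ i : Fin n, w i.succ
    have hB : 0 ≤ B := Finset.sum_nonneg fun i _ => mul_nonneg (hw _) (hb _)
    have hW : 0 ≤ W := Finset.sum_nonneg fun i _ => hw _
    have h1 := mul_le_mul_of_nonneg_left h0 (hw 0)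
    have h2 := mul_le_mul_of_nonneg_left ih
      (add_nonneg zero_le_one (mul_nonneg hL (hw 0)))
    have h3 : 1 + L * w 0 ≤ Real.exp (L * w 0) := by linarith [Real.add_one_le_exp (L * w 0)]
    have h4 := mul_le_mul_of_nonneg_right h3 (mul_nonneg hB (Real.exp_pos (L * W)).le)
    rw [mul_add L, Real.exp_add]
    have h5 : w 0 * b 0 ≤ w 0 * b 0 * (Real.exp (L * w 0) * Real.exp (L * W)) := by
      refine le_mul_of_one_le_right (mul_nonneg (hw 0) (hb 0))
        (one_le_mul_of_one_le_of_one_le (Real.one_le_exp (mul_nonneg hL (hw 0)))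
          (Real.one_le_exp (mul_nonneg hL hW)))
    linarith

/-- The right side of the stationarity equation for prescribed slopes and pairing, up to `q D`. -/
def statRhs (m : Fin r → ℝ) (ρ q : Fin (r + 1) → ℝ) (S : ℝ) (p : Fin (r + 1)) : ℝ :=
  ρ p - S - ∑ l, if p < l then weight m l * q l * (ρ p - ρ l) else 0

/-- The overlap path with gaps `1 / D`. -/
def starPath (ρ D : Fin (r + 1) → ℝ) (p : Fin (r + 1)) : ℝ :=
  1 - 1 / D (Fin.last r) - ∑ i : Fin r, if p.val ≤ i.val then
    (ρ i.succ - ρ i.castSucc) / (D i.castSucc * D i.succ) else 0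

lemma starPath_step (ρ D : Fin (r + 1) → ℝ) (i : Fin r) :
    starPath ρ D i.succ - starPath ρ D i.castSucc =
      (ρ i.succ - ρ i.castSucc) / (D i.castSucc * D i.succ) := by
  simp only [starPath, sub_sub_sub_cancel_left, ← Finset.sum_sub_distrib]
  rw [Finset.sum_eq_single i (fun j _ hj => ?_) (fun h => absurd (Finset.mem_univ i) h)]
  · simp
  · have : j.val ≠ i.val := fun e => hj (Fin.ext e)
    simp only [Fin.val_succ, Fin.val_castSucc]
    split_ifs <;> first | (exfalso; omega) | simp

lemma starPath_last (ρ D : Fin (r + 1) → ℝ) :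
    starPath ρ D (Fin.last r) = 1 - 1 / D (Fin.last r) := by
  rw [starPath, Finset.sum_eq_zero fun i _ => if_neg (by simp [i.isLt]), sub_zero]

variable {m : Fin r → ℝ} {ρ D : Fin (r + 1) → ℝ} {S : ℝ}

lemma gap_star (hD : ∀ p, 0 < D p)
    (hs : ∀ i : Fin r, D i.succ - D i.castSucc = m i * (ρ i.succ - ρ i.castSucc)) (p : Fin (r + 1)) :
    gap m (starPath ρ D) p = 1 / D p := by
  induction p using Fin.reverseInduction with
  | last => rw [gap_last, starPath_last]; ring
  | cast i ih =>
    rw [gap_step, ih, starPath_step]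
    have := (hD i.castSucc).ne'
    have := (hD i.succ).ne'
    field_simp
    linarith [hs i]

/-- The stationarity equation at the path with gaps `1 / D`. -/
lemma starPath_eq (hD : ∀ p, 0 < D p)
    (hs : ∀ i : Fin r, D i.succ - D i.castSucc = m i * (ρ i.succ - ρ i.castSucc))
    (hS : D (Fin.last r) = 1 + ρ (Fin.last r) - S) (p : Fin (r + 1)) :
    starPath ρ D p * D p = statRhs m ρ (starPath ρ D) S p := by
  induction p using Fin.reverseInduction with
  | last =>
    rw [statRhs, Finset.sum_eq_zero fun l _ => if_neg (not_lt.2 (Fin.le_last l)), sub_zero,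
      starPath_last]
    have := (hD (Fin.last r)).ne'
    field_simp
    linarith
  | cast i ih =>
    set s := starPath ρ D
    have hmp : Vale.Agent.P168.padded m (i.castSucc.val + 1) = m i :=
      Vale.Agent.P168.Cascade.padded_succ m i
    have hsplit : ∀ l : Fin (r + 1),
        (if i.castSucc < l then weight m l * s l * (ρ i.castSucc - ρ l) else 0) =
          (if i.succ < l then weight m l * s l * (ρ i.succ - ρ l) else 0) -
            (ρ i.succ - ρ i.castSucc) * ((if i.castSucc < l then weight m l * (s l - s i.castSucc) else 0)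
              + s i.castSucc * if i.castSucc < l then weight m l else 0) := fun l => by
      simp only [Fin.lt_def, Fin.val_succ, Fin.val_castSucc]
      rcases lt_trichotomy l.val (i.val + 1) with h | h | h
      · simp [show ¬ i.val < l.val by omega, show ¬ i.val + 1 < l.val by omega]
      · rw [if_pos (by omega), if_neg (by omega), if_pos (by omega), if_pos (by omega),
          show l = i.succ from Fin.ext h]
        ring
      · rw [if_pos (by omega), if_pos h, if_pos (by omega), if_pos (by omega)]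
        ring
    have hgap := gap_eq m s i.castSucc
    rw [gap_star hD hs] at hgap
    rw [statRhs, Finset.sum_congr rfl fun l _ => hsplit l, Finset.sum_sub_distrib, ← Finset.mul_sum,
      Finset.sum_add_distrib, ← Finset.mul_sum, tail_weight, hmp,
      show (∑ l, if i.castSucc < l then weight m l * (s l - s i.castSucc) else 0) =
        1 - s i.castSucc - 1 / D i.castSucc by linarith]
    rw [statRhs] at ih
    set T := ∑ l, if i.succ < l then weight m l * s l * (ρ i.succ - ρ l) else 0
    have hst : s i.succ = s i.castSucc + (ρ i.succ - ρ i.castSucc) / (D i.castSucc * D i.succ) := by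
      linarith [starPath_step ρ D i]
    rw [hst] at ih
    have h0 := (hD i.castSucc).ne'
    have h1 := (hD i.succ).ne'
    have e1 : (ρ i.succ - ρ i.castSucc) / (D i.castSucc * D i.succ) * D i.succ =
        (ρ i.succ - ρ i.castSucc) * (1 / D i.castSucc) := by field_simp
    linear_combination ih - e1 - s i.castSucc * hs i

/-- The entropy of the shifted stationary path. -/
lemma entropy_shift {s : Fin (r + 1) → ℝ} {K L X sh : ℝ} (hm : ∀ i, 0 < m i) (hρm : Monotone ρ)
    (hD1 : ∀ p, 1 ≤ D p) (hDK : ∀ p, D p ≤ K) (hgs : ∀ p, gap m s p = 1 / D p)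
    (hsmono : Monotone s)
    (hstep : ∀ i : Fin r,
      s i.succ - s i.castSucc = (ρ i.succ - ρ i.castSucc) / (D i.castSucc * D i.succ))
    (hsh0 : 0 ≤ sh) (hshL : sh ≤ L * X) (hshK : sh ≤ 1 / (2 * K))
    (hfirst : (s 0 + sh) / gap m (fun p => s p + sh) 0 ≤ ρ 0 / D 0 + L * X)
    (hρL : ∀ p, 0 ≤ ρ p ∧ ρ p ≤ L) :
    entropy m (fun p => s p + sh) ≤ ρ 0 / D 0 / 2 - Real.log (D (Fin.last r)) / 2 +
      ∑ i : Fin r, Real.log (D i.succ / D i.castSucc) / (2 * m i) +
        L * X / 2 + K ^ 2 * (L * X) * L := by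
  have hDpos : ∀ p, 0 < D p := fun p => zero_lt_one.trans_le (hD1 p)
  have hK : 0 < K := (hDpos 0).trans_le (hDK 0)
  have hinv : ∀ p, 1 / K ≤ 1 / D p := fun p => one_div_le_one_div_of_le (hDpos p) (hDK p)
  have hK2 : 1 / (2 * K) * 2 = 1 / K := by field_simp
  set qh : Fin (r + 1) → ℝ := fun p => s p + sh with hqh
  have hgh : ∀ p, gap m qh p = 1 / D p - sh := fun p => by
    rw [← hgs p, gap_eq, gap_eq]
    simp only [hqh, add_sub_add_right_eq_sub]
    ring
  have hgl : ∀ p, 1 / (2 * K) ≤ gap m qh p := fun p => by rw [hgh]; linarith [hinv p]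
  have hgpos : ∀ p, 0 < gap m qh p := fun p => lt_of_lt_of_le (by positivity) (hgl p)
  have hlog : Real.log (gap m qh (Fin.last r)) ≤ -Real.log (D (Fin.last r)) := by
    rw [← Real.log_inv]
    exact Real.log_le_log (hgpos _) (by rw [hgh, one_div]; linarith)
  have hterm : ∀ i : Fin r, Real.log (gap m qh i.castSucc / gap m qh i.succ) / m i ≤
      2 * (Real.log (D i.succ / D i.castSucc) / (2 * m i)) +
        2 * K ^ 2 * sh * (ρ i.succ - ρ i.castSucc) := fun i => by
    have hdρ : 0 ≤ ρ i.succ - ρ i.castSucc :=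
      sub_nonneg.2 (hρm (Fin.castSucc_lt_succ (i := i)).le)
    set a := 1 / D i.castSucc with ha
    set b := 1 / D i.succ with hb
    have ha0 : 0 < a := one_div_pos.2 (hDpos _)
    have hb0 : 0 < b := one_div_pos.2 (hDpos _)
    have hab : a - b = m i * (s i.succ - s i.castSucc) := by
      simp only [ha, hb, ← hgs]; linarith [gap_step m s i]
    have hds : s i.succ - s i.castSucc ≤ ρ i.succ - ρ i.castSucc := by
      rw [hstep]
      exact div_le_self hdρ (one_le_mul_of_one_le_of_one_le (hD1 _) (hD1 _))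
    have hab0 : 0 ≤ a - b := by
      rw [hab]
      exact mul_nonneg (hm i).le (sub_nonneg.2 (hsmono (Fin.castSucc_lt_succ (i := i)).le))
    have hpa : 0 < a - sh := hgh i.castSucc ▸ hgpos i.castSucc
    have hlb : 1 / (2 * K) ≤ b - sh := hgh i.succ ▸ hgl i.succ
    have hpb : 0 < b - sh := hgh i.succ ▸ hgpos i.succ
    have hba : b / a = D i.castSucc / D i.succ := by simp only [ha, hb]; field_simp
    have h1 := Real.log_le_sub_one_of_pos (show 0 < (a - sh) / (b - sh) * (b / a) by positivity)
    rw [Real.log_mul (div_pos hpa hpb).ne' (div_pos hb0 ha0).ne', hba,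
      show Real.log (D i.castSucc / D i.succ) = -Real.log (D i.succ / D i.castSucc) by
        rw [← Real.log_inv, inv_div], ← hba] at h1
    have h3 : (a - sh) / (b - sh) * (b / a) - 1 ≤ 2 * K ^ 2 * sh * (a - b) := by
      have e : (a - sh) / (b - sh) * (b / a) - 1 = sh * (a - b) / ((b - sh) * a) := by
        field_simp; ring
      rw [e, div_le_iff₀ (mul_pos hpb ha0)]
      have hden : 1 / (2 * K) * (1 / K) ≤ (b - sh) * a :=
        mul_le_mul hlb (hinv _) (by positivity) hpb.le
      have h4 := mul_le_mul_of_nonneg_left hden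
        (mul_nonneg (show (0 : ℝ) ≤ 2 * K ^ 2 by positivity) (mul_nonneg hsh0 hab0))
      have e5 : 2 * K ^ 2 * (sh * (a - b)) * (1 / (2 * K) * (1 / K)) = sh * (a - b) := by
        field_simp
      linarith
    rw [hgh, hgh, ← ha, ← hb, show 2 * (Real.log (D i.succ / D i.castSucc) / (2 * m i)) =
      Real.log (D i.succ / D i.castSucc) / m i by ring, div_le_iff₀ (hm i), add_mul,
      div_mul_cancel₀ _ (hm i).ne']
    rw [hab] at h3
    have h6 := mul_le_mul_of_nonneg_left (mul_le_mul_of_nonneg_left hds (hm i).le)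
      (mul_nonneg (show (0 : ℝ) ≤ 2 * K ^ 2 by positivity) hsh0)
    linarith
  have hsum := Finset.sum_le_sum fun i (_ : i ∈ Finset.univ) => hterm i
  rw [Finset.sum_add_distrib, ← Finset.mul_sum, ← Finset.mul_sum] at hsum
  have htel : ∑ i : Fin r, (ρ i.succ - ρ i.castSucc) ≤ L := by
    rw [Finset.sum_sub_distrib]
    linarith [Fin.sum_univ_castSucc ρ, Fin.sum_univ_succ ρ, (hρL 0).1, (hρL (Fin.last r)).2]
  have hsum2 : 2 * K ^ 2 * sh * ∑ i : Fin r, (ρ i.succ - ρ i.castSucc) ≤ 2 * K ^ 2 * (L * X) * L :=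
    mul_le_mul (mul_le_mul_of_nonneg_left hshL (by positivity)) htel
      (Finset.sum_nonneg fun i _ => sub_nonneg.2 (hρm (Fin.castSucc_lt_succ (i := i)).le))
      (mul_nonneg (by positivity) (hsh0.trans hshL))
  simp only [entropy]
  linarith

theorem compare_spec : CompareStmt := by
  intro α A f hα hf ε hε
  have hA : 0 ≤ A := (abs_nonneg _).trans (hf.b0 0)
  set L := α * A ^ 2 with hLdef
  have hL : 0 ≤ L := by positivity
  set K := 1 + L with hKdef
  have hK : 0 < K := by positivity
  set C := (α * A ^ 2 * (1 + L) + L + 2 * K ^ 2 * L * L) * Real.exp L + 1 with hC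
  have hC0 : 0 < C := by positivity
  refine ⟨min (1 / (2 * K * (L * Real.exp L + 1))) (ε / C),
    lt_min (by positivity) (by positivity), fun ξ hdef => ?_⟩
  obtain ⟨r, m, q, hP⟩ := ξ
  have hw : ∀ p, 0 ≤ weight m p := weight_nonneg hP
  obtain ⟨hcm, hc⟩ := slope_spec f A hf ⟨r, m, q, hP⟩
  simp only at hcm hc
  set c := slope f m q with hcdef
  have hc0 : ∀ p, 0 ≤ c p := fun p => (hc p).1
  have hcA : ∀ p, c p ≤ A ^ 2 := fun p => (hc p).2.2.1.trans (hc p).2.2.2
  set ρ : Fin (r + 1) → ℝ := fun p => α * c p with hρ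
  set S := ∑ l, weight m l * ρ l * q l with hS
  set D := Sphere.precision α f m q with hDdef
  have hρm : Monotone ρ := fun a b h => mul_le_mul_of_nonneg_left (hcm h) hα.le
  have hρ0 : ∀ p, 0 ≤ ρ p := fun p => mul_nonneg hα.le (hc0 p)
  have hρL : ∀ p, ρ p ≤ L := fun p => mul_le_mul_of_nonneg_left (hcA p) hα.le
  have hq1 : ∀ p, q p ≤ 1 := fun p => (hP.mono (Fin.le_last p)).trans hP.le_one
  have hq0 : ∀ p, 0 ≤ q p := fun p => hP.nonneg.trans (hP.mono (Fin.zero_le p))
  have hD : ∀ p, D p = 1 + ρ (Fin.last r) - S -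
      ∑ i : Fin r, if p.val ≤ i.val then m i * (ρ i.succ - ρ i.castSucc) else 0 := by
    intro p
    simp only [hDdef, Sphere.precision, hρ, hS, ← hcdef, Finset.mul_sum, mul_sub]
    congr 1
    · rw [add_sub_assoc]
      congr 2
      exact Finset.sum_congr rfl fun l _ => by ring
    · refine Finset.sum_congr rfl fun i _ => ?_
      split_ifs <;> ring
  have hDlast : D (Fin.last r) = 1 + ρ (Fin.last r) - S := by
    rw [hD, Finset.sum_eq_zero fun i _ => if_neg (by simp [i.isLt]), sub_zero]
  have hstep : ∀ i : Fin r, D i.succ - D i.castSucc = m i * (ρ i.succ - ρ i.castSucc) := fun i => by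
    rw [hD, hD, sub_sub_sub_cancel_left, ← Finset.sum_sub_distrib,
      Finset.sum_eq_single i (fun j _ hj => ?_) (fun h => absurd (Finset.mem_univ i) h)]
    · simp
    · have : j.val ≠ i.val := fun e => hj (Fin.ext e)
      simp only [Fin.val_succ, Fin.val_castSucc]
      split_ifs <;> first | (exfalso; omega) | simp
  have hDp : ∀ p, D p = 1 + ρ p - S + ∑ l, if p < l then weight m l * (ρ l - ρ p) else 0 := by
    intro p
    rw [hD, tail_inc]
    ring
  have hS0 : 0 ≤ S := Finset.sum_nonneg fun l _ => mul_nonneg (mul_nonneg (hw l) (hρ0 l)) (hq0 l)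
  have hSρ : ∀ p, S ≤ ρ p + ∑ l, if p < l then weight m l * (ρ l - ρ p) else 0 := fun p => by
    refine (Finset.sum_le_sum (g := fun l => weight m l * ρ l) fun l _ =>
      mul_le_of_le_one_right (mul_nonneg (hw l) (hρ0 l)) (hq1 l)).trans ?_
    have e : ρ p = ∑ l, weight m l * ρ p := by rw [← Finset.sum_mul, sum_weight_one, one_mul]
    refine le_trans ?_ (le_of_eq (congrArg (· + _) e.symm))
    rw [← Finset.sum_add_distrib]
    refine Finset.sum_le_sum fun l _ => ?_
    split_ifs with h
    · linarith
    · rw [add_zero]; exact mul_le_mul_of_nonneg_left (hρm (not_lt.1 h)) (hw l)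
  have hD1 : ∀ p, 1 ≤ D p := fun p => by rw [hDp]; linarith [hSρ p]
  have hDK : ∀ p, D p ≤ K := fun p => by
    rw [hD]
    have : (0 : ℝ) ≤ ∑ i : Fin r, if p.val ≤ i.val then m i * (ρ i.succ - ρ i.castSucc) else 0 :=
      Finset.sum_nonneg fun i _ => by
        split_ifs
        · exact mul_nonneg (hP.pos i).le (sub_nonneg.2 (hρm (Fin.castSucc_lt_succ (i := i)).le))
        · exact le_rfl
    linarith [hρL (Fin.last r)]
  have hDpos : ∀ p, 0 < D p := fun p => zero_lt_one.trans_le (hD1 p)
  set s := starPath ρ D with hs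
  have hgs : ∀ p, gap m s p = 1 / D p := gap_star hDpos hstep
  have hse := starPath_eq hDpos hstep hDlast
  -- the defect is the residual of the linear equation
  have hres : ∀ p, q p * D p - statRhs m ρ q S p = q p - α * statG f ⟨r, m, q, hP⟩ p := fun p => by
    simp only [statG, ← hcdef]
    rw [gap_eq, hDp, statRhs]
    have e1 : α * (∑ l, weight m l * c l * q l) = S := by
      rw [hS, Finset.mul_sum]
      exact Finset.sum_congr rfl fun l _ => by simp only [hρ]; ring
    have e2 : q p * (∑ l, if p < l then weight m l * (ρ l - ρ p) else 0) +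
        (∑ l, if p < l then weight m l * q l * (ρ p - ρ l) else 0) =
        α * c p * (∑ l, if p < l then weight m l * (q l - q p) else 0) -
          α * ∑ l, if p < l then weight m l * c l * (q l - q p) else 0 := by
      rw [Finset.mul_sum, Finset.mul_sum, Finset.mul_sum, ← Finset.sum_add_distrib,
        ← Finset.sum_sub_distrib]
      refine Finset.sum_congr rfl fun l _ => ?_
      simp only [hρ]
      split_ifs <;> ring
    simp only [hρ] at e2 ⊢
    linear_combination e2 + (q p - 1) * e1
  set X := ∑ p, weight m p * |q p - s p| with hX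
  have hXb : X ≤ defect α f ⟨r, m, q, hP⟩ * Real.exp L := by
    have h := gronwall hL (weight m) (fun p => |q p - s p|)
      (fun p => |q p - α * statG f ⟨r, m, q, hP⟩ p|) hw (fun p => abs_nonneg _) fun p => ?_
    · rw [sum_weight_one, mul_one] at h
      exact h
    have e : (q p - s p) * D p = (q p - α * statG f ⟨r, m, q, hP⟩ p) -
        ∑ l, if p < l then weight m l * (q l - s l) * (ρ p - ρ l) else 0 := by
      have h1 : statRhs m ρ q S p - statRhs m ρ s S p =
          -∑ l, if p < l then weight m l * (q l - s l) * (ρ p - ρ l) else 0 := by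
        rw [statRhs, statRhs, sub_sub_sub_cancel_left, ← Finset.sum_sub_distrib,
          ← Finset.sum_neg_distrib]
        refine Finset.sum_congr rfl fun l _ => ?_
        split_ifs <;> ring
      linear_combination hres p - hse p + h1
    have h2 : |q p - s p| ≤ |(q p - s p) * D p| := by
      rw [abs_mul, abs_of_pos (hDpos p)]
      exact le_mul_of_one_le_right (abs_nonneg _) (hD1 p)
    rw [e] at h2
    refine h2.trans ((abs_sub _ _).trans (add_le_add le_rfl ?_))
    rw [Finset.mul_sum]
    refine (Finset.abs_sum_le_sum_abs _ _).trans (Finset.sum_le_sum fun l _ => ?_)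
    split_ifs
    · rw [abs_mul, abs_mul, abs_of_nonneg (hw l), mul_comm L]
      refine mul_le_mul_of_nonneg_left (abs_le.2 ⟨?_, ?_⟩)
        (mul_nonneg (hw l) (abs_nonneg _)) <;> linarith [hρ0 p, hρ0 l, hρL p, hρL l]
    · simp
  -- the first coordinate
  have hs0 : |s 0 * D 0 - ρ 0 / D 0| ≤ L * X := by
    have h := hse 0
    rw [statRhs] at h
    have hg := hgs 0
    rw [gap_eq] at hg
    have e : ρ 0 - S - (∑ l, if 0 < l then weight m l * s l * (ρ 0 - ρ l) else 0) =
        ρ 0 * (1 - ∑ l, weight m l * s l) + ∑ l, weight m l * ρ l * (s l - q l) := by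
      rw [hS, mul_sub, Finset.mul_sum, mul_one, sub_sub, sub_add, ← Finset.sum_sub_distrib,
        ← Finset.sum_add_distrib]
      congr 1
      refine Finset.sum_congr rfl fun l _ => ?_
      split_ifs with hl
      · ring
      · rw [le_antisymm (not_lt.1 hl) (Fin.zero_le l)]; ring
    have e' : 1 - ∑ l, weight m l * s l = 1 / D 0 := by
      rw [← hg]
      have : ∑ l, weight m l * s l = s 0 + ∑ l, if 0 < l then weight m l * (s l - s 0) else 0 := by
        have hone : s 0 = ∑ l, weight m l * s 0 := by rw [← Finset.sum_mul, sum_weight_one, one_mul]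
        refine Eq.trans ?_ (congrArg (· + _) hone).symm
        rw [← Finset.sum_add_distrib]
        refine Finset.sum_congr rfl fun l _ => ?_
        split_ifs with hl
        · ring
        · rw [le_antisymm (not_lt.1 hl) (Fin.zero_le l)]; ring
      linarith
    rw [← hs] at h
    rw [h, e, e', mul_one_div, add_sub_cancel_left, Finset.mul_sum]
    refine (Finset.abs_sum_le_sum_abs _ _).trans (Finset.sum_le_sum fun l _ => ?_)
    rw [abs_mul, abs_mul, abs_of_nonneg (hw l), abs_of_nonneg (hρ0 l), abs_sub_comm]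
    linarith [mul_le_mul_of_nonneg_right (hρL l) (mul_nonneg (hw l) (abs_nonneg (q l - s l)))]
  set η := defect α f ⟨r, m, q, hP⟩ with hη
  have hη0 : 0 ≤ η := Finset.sum_nonneg fun p _ => mul_nonneg (hw p) (abs_nonneg _)
  have hX0 : 0 ≤ X := Finset.sum_nonneg fun p _ => mul_nonneg (hw p) (abs_nonneg _)
  set sh := max 0 (-s 0) with hsh
  have hshL : sh ≤ L * X := by
    refine max_le (mul_nonneg hL hX0) ?_
    rcases le_total 0 (s 0) with h | h
    · linarith [mul_nonneg hL hX0]
    · have h1 := (abs_le.1 hs0).1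
      have h2 : 0 ≤ ρ 0 / D 0 := div_nonneg (hρ0 0) (hDpos 0).le
      have h3 := mul_le_mul_of_nonpos_left (hD1 0) h
      linarith
  have hshK : sh ≤ 1 / (2 * K) := by
    have h1 : η ≤ 1 / (2 * K * (L * Real.exp L + 1)) := hdef.trans (min_le_left _ _)
    have h2 : L * X ≤ η * (L * Real.exp L + 1) := by
      nlinarith [mul_le_mul_of_nonneg_left hXb hL]
    have h3 := mul_le_mul_of_nonneg_right h1 (show 0 ≤ L * Real.exp L + 1 by positivity)
    have e : 1 / (2 * K * (L * Real.exp L + 1)) * (L * Real.exp L + 1) = 1 / (2 * K) := by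
      have : L * Real.exp L + 1 ≠ 0 := by positivity
      field_simp
    linarith
  set qh : Fin (r + 1) → ℝ := fun p => s p + sh with hqh
  have hinv : ∀ p, 1 / K ≤ 1 / D p := fun p => one_div_le_one_div_of_le (hDpos p) (hDK p)
  have hK2 : 1 / (2 * K) * 2 = 1 / K := by field_simp
  have hgh : ∀ p, gap m qh p = 1 / D p - sh := fun p => by
    rw [← hgs p, gap_eq, gap_eq]
    simp only [hqh, add_sub_add_right_eq_sub]
    ring
  have hgl : ∀ p, 1 / (2 * K) ≤ gap m qh p := fun p => by rw [hgh]; linarith [hinv p]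
  have hgpos : ∀ p, 0 < gap m qh p := fun p => lt_of_lt_of_le (by positivity) (hgl p)
  have hsmono : Monotone s := Fin.monotone_iff_le_succ.2 fun i => by
    have := starPath_step ρ D i
    have : 0 ≤ (ρ i.succ - ρ i.castSucc) / (D i.castSucc * D i.succ) :=
      div_nonneg (sub_nonneg.2 (hρm (Fin.castSucc_lt_succ (i := i)).le))
        (mul_pos (hDpos _) (hDpos _)).le
    linarith
  have hlt : qh (Fin.last r) < 1 := by
    have h1 := hgpos (Fin.last r)
    rw [gap_last] at h1
    linarith
  have hqP : IsPath m qh := ⟨hP.pos, hP.lt_one, hP.strictMono, fun a b h => by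
    simp only [hqh]; linarith [hsmono h], by
    simp only [hqh]; linarith [le_max_right 0 (-s 0)], hlt.le⟩
  refine ⟨sphereVal α f m qh, ⟨r, m, qh, hqP, hlt, rfl⟩, ?_⟩
  -- the pattern part
  have hdiff : ∑ p, weight m p * |qh p - q p| ≤ X + sh := by
    have : ∀ p, weight m p * |qh p - q p| ≤ weight m p * |q p - s p| + weight m p * sh := fun p => by
      rw [← mul_add]
      refine mul_le_mul_of_nonneg_left ?_ (hw p)
      simp only [hqh]
      rw [abs_sub_comm (q p)]
      calc |s p + sh - q p| = |(s p - q p) + sh| := by ring_nf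
        _ ≤ |s p - q p| + |sh| := abs_add_le _ _
        _ = |s p - q p| + sh := by rw [abs_of_nonneg (show 0 ≤ sh from le_max_left _ _)]
    refine (Finset.sum_le_sum fun p _ => this p).trans_eq ?_
    rw [Finset.sum_add_distrib, ← Finset.sum_mul, sum_weight_one, one_mul]
  have hpat : patValue f m qh - patValue f m q ≤ A ^ 2 / 2 * (X + sh) := by
    refine patDeriv_spec f A hf r m q qh hP hqP _ fun t ht => ?_
    have hseg : IsPath m (seg q qh t) := by
      obtain ⟨ht0, ht1⟩ := ht
      refine ⟨hP.pos, hP.lt_one, hP.strictMono, fun a b hab => ?_, ?_, ?_⟩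
      · exact add_le_add (mul_le_mul_of_nonneg_left (hP.mono hab) (by linarith))
          (mul_le_mul_of_nonneg_left (hqP.mono hab) ht0.le)
      · exact add_nonneg (mul_nonneg (by linarith) hP.nonneg) (mul_nonneg ht0.le hqP.nonneg)
      · simp only [seg]
        linarith [mul_le_mul_of_nonneg_left hP.le_one (show (0 : ℝ) ≤ 1 - t by linarith),
          mul_le_mul_of_nonneg_left hqP.le_one ht0.le]
    refine le_trans ?_ (mul_le_mul_of_nonneg_left hdiff (by positivity))
    rw [Finset.mul_sum, Finset.mul_sum]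
    refine Finset.sum_le_sum fun p _ => ?_
    obtain ⟨g0, -, g1, g2⟩ := (slope_spec f A hf ⟨r, m, seg q qh t, hseg⟩).2 p
    simp only at g0 g1 g2
    have k1 := mul_le_mul_of_nonneg_left (neg_abs_le (qh p - q p)) (mul_nonneg (hw p) g0)
    have k2 := mul_le_mul_of_nonneg_right (g1.trans g2) (mul_nonneg (hw p) (abs_nonneg (qh p - q p)))
    nlinarith
  -- the entropy part
  have hfirst : qh 0 / gap m qh 0 ≤ ρ 0 / D 0 + L * X := by
    have hnn : 0 ≤ ρ 0 / D 0 := div_nonneg (hρ0 0) (hDpos 0).le
    rcases le_total 0 (s 0) with h | h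
    · have : sh = 0 := max_eq_left (by linarith)
      rw [hgh, this, sub_zero, div_div_eq_mul_div, div_one]
      simp only [hqh, this, add_zero]
      linarith [(abs_le.1 hs0).2]
    · have : qh 0 = 0 := by simp only [hqh, hsh]; rw [max_eq_right (by linarith)]; ring
      rw [this, zero_div]
      linarith [mul_nonneg hL hX0]
  have hent := entropy_shift hP.pos hρm hD1 hDK hgs hsmono (fun i => starPath_step ρ D i)
    (le_max_left 0 (-s 0)) hshL hshK hfirst (fun p => ⟨hρ0 p, hρL p⟩)
  have hfinal : C * η ≤ ε := by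
    have h1 : η ≤ ε / C := hdef.trans (min_le_right _ _)
    rw [le_div_iff₀ hC0] at h1
    linarith
  have hsite : Sphere.siteSphere α f m q = ρ 0 / D 0 / 2 - Real.log (D (Fin.last r)) / 2 +
      ∑ i : Fin r, Real.log (D i.succ / D i.castSucc) / (2 * m i) := by
    simp only [Sphere.siteSphere, ← hDdef, ← hcdef, hρ]
    ring
  simp only [sphereVal, Sphere.parisiSphere, hsite]
  have hp2 := mul_le_mul_of_nonneg_left hpat hα.le
  have hp3 : X + sh ≤ (1 + L) * X := by linarith
  have hp4 := mul_le_mul_of_nonneg_left hp3 (show 0 ≤ α * (A ^ 2 / 2) by positivity)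
  have hp5 := mul_le_mul_of_nonneg_left hXb
    (show 0 ≤ α * A ^ 2 * (1 + L) + L + 2 * K ^ 2 * L * L by positivity)
  have hp6 : 0 ≤ (α * A ^ 2 * (1 + L) + L + 2 * K ^ 2 * L * L) * X := by positivity
  simp only [hC] at hfinal
  linarith

end Vale.Agent.P157.Parisi.Full.Spherical
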