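import Vale.Agent.P157.Parisi.Defs

/-!
The variational formula on the sphere: the pattern part plus the entropy of an overlap path.
-/

noncomputable section

open MeasureTheory ProbabilityTheory
open scoped BigOperators

namespace Vale.Agent.P157.Parisi.Full.Spherical

/-- The mass `∫_{q p}^1 x(t) dt` above depth `p` of the distribution function `x` of the path. -/
def gap {r : ℕ} (m : Fin r → ℝ) (q : Fin (r + 1) → ℝ) (p : Fin (r + 1)) : ℝ :=
  1 - q (Fin.last r) + ∑ i : Fin r, if p.val ≤ i.val then m i * (q i.succ - q i.castSucc) else 0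

/-- The entropy of an overlap path on the sphere. -/
def entropy {r : ℕ} (m : Fin r → ℝ) (q : Fin (r + 1) → ℝ) : ℝ :=
  (q 0 / gap m q 0 + Real.log (gap m q (Fin.last r)) +
    ∑ i : Fin r, Real.log (gap m q i.castSucc / gap m q i.succ) / m i) / 2

/-- The functional on the sphere. -/
def sphereVal {r : ℕ} (α : ℝ) (f : ℝ → ℝ) (m : Fin r → ℝ) (q : Fin (r + 1) → ℝ) : ℝ :=
  α * patValue f m q + entropy m q

/-- Its values over the paths below `1`. -/
def sphereValues (α : ℝ) (f : ℝ → ℝ) : Set ℝ :=
  {v | ∃ (r : ℕ) (m : Fin r → ℝ) (q : Fin (r + 1) → ℝ),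
    IsPath m q ∧ q (Fin.last r) < 1 ∧ v = sphereVal α f m q}

end Vale.Agent.P157.Parisi.Full.Spherical
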