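import Vale.Agent.P157.Full.Sphere.Gap

/-!
The entropy of an overlap path dominates the quadratic recursion of every field path.
-/

noncomputable section

open MeasureTheory ProbabilityTheory
open scoped BigOperators

namespace Vale.Agent.P157.Parisi.Full.Spherical

open Sphere.Main (sum_weight_mul)

/-- Abel summation with nonpositive values and increasing exponents. -/
lemma abel_nonpos : ∀ {r : ℕ} (m : Fin r → ℝ) (h : Fin (r + 1) → ℝ), (∀ i, 0 < m i) →
    (∀ i, m i ≤ 1) → Monotone m → (∀ p, h p ≤ 0) → ∀ a : ℝ, (∀ i, 1 / m i ≤ a) → 1 ≤ a →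
    ∑ i : Fin r, (h i.succ - h i.castSucc) / m i - h (Fin.last r) ≤ -a * h 0
  | 0, _, h, _, _, _, hh, a, _, ha => by
    simp only [Finset.univ_eq_empty, Finset.sum_empty, Fin.last_zero, zero_sub, neg_mul]
    linarith [mul_le_mul_of_nonpos_right ha (hh 0)]
  | r + 1, m, h, hp, h1, hm, hh, a, hma, ha => by
    have hle : 1 ≤ 1 / m 0 := (one_le_div (hp 0)).2 (h1 0)
    have ih := abel_nonpos (Fin.tail m) (Fin.tail h) (fun i => hp _) (fun i => h1 _)
      (hm.comp Fin.strictMono_succ.monotone) (fun p => hh _) (1 / m 0)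
      (fun i => one_div_le_one_div_of_le (hp 0) (hm (Fin.zero_le _))) hle
    simp only [Fin.tail, Fin.succ_last, Fin.succ_castSucc, Fin.succ_zero_eq_one] at ih
    rw [Fin.sum_univ_succ]
    simp only [Fin.succ_zero_eq_one, Fin.castSucc_zero]
    have h2 := mul_le_mul_of_nonpos_right (hma 0) (hh 0)
    have e : (h 1 - h 0) / m 0 + -(1 / m 0) * h 1 = -(1 / m 0 * h 0) := by ring
    linarith

lemma h_nonpos {v : ℝ} (hv : 0 < v) : Real.log v - v + 1 ≤ 0 := by
  linarith [Real.log_le_sub_one_of_pos hv]

theorem entropy_spec : EntropyStmt := by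
  intro r m q hq hlt ρ hρ
  have hG := gap_pos_of_lt hq hlt
  set D : Fin (r + 1) → ℝ := fun p =>
    1 / gap m q 0 + ∑ i : Fin r, if i.val < p.val then m i * (ρ i.succ - ρ i.castSucc) else 0
    with hD
  have hΔ : ∀ i : Fin r, 0 ≤ m i * (ρ i.succ - ρ i.castSucc) := fun i =>
    mul_nonneg (hρ.pos i).le (sub_nonneg.2 (hρ.mono (Fin.castSucc_lt_succ (i := i)).le))
  have hD0 : D 0 = 1 / gap m q 0 := by simp [hD]
  have hDpos : ∀ p, 0 < D p := fun p =>
    add_pos_of_pos_of_nonneg (one_div_pos.2 (hG 0)) (Finset.sum_nonneg fun i _ => by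
      split_ifs
      · exact hΔ i
      · exact le_rfl)
  have hstep : ∀ i : Fin r, D i.succ - D i.castSucc = m i * (ρ i.succ - ρ i.castSucc) := fun i => by
    simp only [hD, add_sub_add_left_eq_sub, ← Finset.sum_sub_distrib]
    rw [Finset.sum_eq_single i (fun j _ hj => ?_) (fun h => absurd (Finset.mem_univ i) h)]
    · simp
    · have : j.val ≠ i.val := fun e => hj (Fin.ext e)
      simp only [Fin.val_succ, Fin.val_castSucc]
      split_ifs <;> first | (exfalso; omega) | simp
  refine ⟨D, hDpos, ?_, hstep, ?_⟩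
  · simp only [hD, add_le_add_iff_left]
    have h1 : ∀ i : Fin r, (if i.val < (Fin.last r).val then m i * (ρ i.succ - ρ i.castSucc) else 0)
        ≤ ρ i.succ - ρ i.castSucc := fun i => by
      rw [if_pos (by simp [i.isLt])]
      exact mul_le_of_le_one_left (sub_nonneg.2 (hρ.mono (Fin.castSucc_lt_succ (i := i)).le))
        (hρ.lt_one i).le
    refine (Finset.sum_le_sum fun i _ => h1 i).trans ?_
    have h2 := Fin.sum_univ_castSucc ρ
    have h3 := Fin.sum_univ_succ ρ
    rw [Finset.sum_sub_distrib]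
    linarith [hρ.nonneg]
  set v : Fin (r + 1) → ℝ := fun p => D p * gap m q p with hv
  have hv0 : v 0 = 1 := by simp only [hv, hD0]; field_simp [(hG 0).ne']
  set h : Fin (r + 1) → ℝ := fun p => Real.log (v p) - v p + 1 with hh
  have hvp : ∀ p, 0 < v p := fun p => mul_pos (hDpos p) (hG p)
  have hab := abel_nonpos m h hq.pos (fun i => (hq.lt_one i).le) hq.strictMono.monotone
    (fun p => h_nonpos (hvp p)) (1 + ∑ i, 1 / m i)
    (fun i => le_add_of_nonneg_of_le zero_le_one (Finset.single_le_sum
      (f := fun i => 1 / m i) (fun j _ => (one_div_pos.2 (hq.pos j)).le) (Finset.mem_univ i)))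
    (le_add_of_nonneg_right (Finset.sum_nonneg fun j _ => (one_div_pos.2 (hq.pos j)).le))
  have hh0 : h 0 = 0 := by simp [hh, hv0]
  rw [hh0, mul_zero] at hab
  have hterm : ∀ i : Fin r, (h i.succ - h i.castSucc) / m i =
      2 * (Real.log (D i.succ / D i.castSucc) / (2 * m i)) -
        Real.log (gap m q i.castSucc / gap m q i.succ) / m i -
        ((ρ i.succ - ρ i.castSucc) * gap m q i.succ - D i.castSucc * (q i.succ - q i.castSucc)) := by
    intro i
    have hm0 := (hq.pos i).ne'
    have e1 : v i.succ - v i.castSucc = m i * ((ρ i.succ - ρ i.castSucc) * gap m q i.succ -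
        D i.castSucc * (q i.succ - q i.castSucc)) := by
      simp only [hv]
      linear_combination gap m q i.succ * hstep i - D i.castSucc * gap_step m q i
    have e2 : h i.succ - h i.castSucc = Real.log (D i.succ / D i.castSucc) -
        Real.log (gap m q i.castSucc / gap m q i.succ) - (v i.succ - v i.castSucc) := by
      simp only [hh, hv]
      rw [Real.log_mul (hDpos _).ne' (hG _).ne', Real.log_mul (hDpos _).ne' (hG _).ne',
        Real.log_div (hDpos _).ne' (hDpos _).ne', Real.log_div (hG _).ne' (hG _).ne']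
      ring
    rw [e2, e1]
    field_simp
  rw [Finset.sum_congr rfl fun i _ => hterm i, Finset.sum_sub_distrib, Finset.sum_sub_distrib,
    ← Finset.mul_sum] at hab
  have hlast : h (Fin.last r) = Real.log (D (Fin.last r)) + Real.log (gap m q (Fin.last r)) -
      D (Fin.last r) * (1 - q (Fin.last r)) + 1 := by
    simp only [hh, hv]
    rw [Real.log_mul (hDpos _).ne' (hG _).ne', gap_last]
  have htel : ∀ a : Fin (r + 1) → ℝ,
      ∑ i : Fin r, (a i.succ - a i.castSucc) = a (Fin.last r) - a 0 := fun a => by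
    rw [Finset.sum_sub_distrib]
    linarith [Fin.sum_univ_castSucc a, Fin.sum_univ_succ a]
  have hw : ∑ p, weight m p * ρ p * q p = ρ (Fin.last r) * q (Fin.last r) -
      ∑ i, m i * (ρ i.succ * q i.succ - ρ i.castSucc * q i.castSucc) := by
    rw [← sum_weight_mul m fun p => ρ p * q p]
    exact Finset.sum_congr rfl fun p _ => by ring
  have hid : ∑ i : Fin r, ((ρ i.succ - ρ i.castSucc) * gap m q i.succ -
      D i.castSucc * (q i.succ - q i.castSucc)) =
      ∑ i : Fin r, m i * (ρ i.succ * q i.succ - ρ i.castSucc * q i.castSucc) -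
        (D (Fin.last r) * q (Fin.last r) - D 0 * q 0) +
        (ρ (Fin.last r) * gap m q (Fin.last r) - ρ 0 * gap m q 0) := by
    rw [← htel fun p => D p * q p, ← htel fun p => ρ p * gap m q p, ← Finset.sum_sub_distrib,
      ← Finset.sum_add_distrib]
    refine Finset.sum_congr rfl fun i _ => ?_
    linear_combination q i.succ * hstep i + ρ i.castSucc * gap_step m q i
  rw [hid, hlast] at hab
  rw [hw, entropy, Sphere.Up.quadConst]
  have e0 : D 0 * q 0 = q 0 / gap m q 0 := by rw [hD0]; ring
  have e0' : ρ 0 / (2 * D 0) = ρ 0 * gap m q 0 / 2 := by rw [hD0]; field_simp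
  rw [gap_last] at hab ⊢
  rw [e0'] at *
  linarith

end Vale.Agent.P157.Parisi.Full.Spherical
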