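import Vale.Agent.P157.Full.Sphere.Statements
import Vale.Agent.P157.Full.Extend.Main

/-!
From smooth potentials to bounded Borel ones on the sphere.
-/

noncomputable section

open MeasureTheory ProbabilityTheory Filter
open scoped BigOperators Topology

namespace Vale.Agent.P157.Parisi.Full.Spherical

open Extend (Bd patTerm nice_patTerm lint_sub_le)

variable {α A : ℝ} {f g : ℝ → ℝ}

lemma meanPressure_sphere_eq_Phi (α : ℝ) (f : ℝ → ℝ) (N : ℕ) :
    meanPressure sphereLaw α f N =
      1 / (N : ℝ) * Phi (gam (Fin N)) (patTerm f) (sphereLaw N) ⌊α * N⌋₊ := by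
  rw [meanPressure, integral_const_mul]
  rfl

lemma meanPressure_sphere_sub_le {α : ℝ} (hα : 0 ≤ α) (hf : Bd A f) (hg : Bd A g) (N : ℕ) :
    meanPressure sphereLaw α f N - meanPressure sphereLaw α g N ≤
      α * (Real.exp (2 * A) * ∫ x, |f x - g x| ∂gaussianReal 0 1) := by
  set e := Real.exp (2 * A) * ∫ x, |f x - g x| ∂gaussianReal 0 1 with hedef
  have he : 0 ≤ e := mul_nonneg (Real.exp_pos _).le (integral_nonneg fun x => abs_nonneg _)
  rcases Nat.eq_zero_or_pos N with rfl | hN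
  · simpa [meanPressure_sphere_eq_Phi] using mul_nonneg hα he
  have hN' : (0 : ℝ) < N := Nat.cast_pos.2 hN
  have hp : IsProbabilityMeasure (sphereLaw N) := Sphere.Up.isProb_sphere hN
  have key : Phi (gam (Fin N)) (patTerm f) (sphereLaw N) ⌊α * N⌋₊ - ⌊α * N⌋₊ * e ≤
      Phi (gam (Fin N)) (patTerm g) (sphereLaw N) ⌊α * N⌋₊ := by
    refine Phi_swap_of_ae (fun y : Fin N → ℝ => ∑ i, (y i / Real.sqrt N) ^ 2 = 1) (nice_patTerm hg)
      (nice_patTerm hf) (fun ρ _ hQ => ?_) _ _ hp ((Sphere.Up.ae_sphere hN).mono fun _ h => h.2)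
    have hF := nice_patTerm (N := N) hf
    have hG := nice_patTerm (N := N) hg
    have hiF := hF.integrable_lint (gam (Fin N)) ρ
    have hiG := hG.integrable_lint (gam (Fin N)) ρ
    have hm : Measurable fun p : (Fin N → ℝ) × (Fin N → ℝ) =>
        |patTerm f p.1 p.2 - patTerm g p.1 p.2| := (hF.meas.sub hG.meas).abs
    have hi : Integrable (fun p : (Fin N → ℝ) × (Fin N → ℝ) =>
        |patTerm f p.1 p.2 - patTerm g p.1 p.2|) ((gam (Fin N)).prod ρ) :=
      integrable_of_abs_le (K := A + A) hm fun p => by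
        rw [abs_abs]; exact (abs_sub _ _).trans (add_le_add (hF.bound _ _) (hG.bound _ _))
    have h1 : ∫ w, lint ρ (patTerm f w) ∂gam (Fin N) - ∫ w, lint ρ (patTerm g w) ∂gam (Fin N) ≤
        Real.exp (2 * A) * ∫ w, ∫ y, |patTerm f w y - patTerm g w y| ∂ρ ∂gam (Fin N) := by
      rw [← integral_sub hiF hiG, ← integral_const_mul]
      exact integral_mono (hiF.sub hiG) (hi.integral_prod_left.const_mul _) fun w =>
        lint_sub_le (hF.meas_left w) (hG.meas_left w) (hF.bound w) (hG.bound w)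
    have h2 : ∫ w, ∫ y, |patTerm f w y - patTerm g w y| ∂ρ ∂gam (Fin N) =
        ∫ x, |f x - g x| ∂gaussianReal 0 1 := by
      have hae : ∀ᵐ y ∂ρ, ∫ w, |patTerm f w y - patTerm g w y| ∂gam (Fin N) =
          ∫ x, |f x - g x| ∂gaussianReal 0 1 := by
        filter_upwards [hQ] with y hy
        have hu : ∑ i, (y i / Real.sqrt N) ^ 2 = 1 := hy
        have e1 : ∀ w : Fin N → ℝ, (∑ i, w i * y i) / Real.sqrt N =
            dot w fun i => y i / Real.sqrt N := fun w => by
          simp [dot, Finset.sum_div, mul_div_assoc]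
        have e2 := integral_map (μ := gam (Fin N)) (φ := fun w => dot w fun i => y i / Real.sqrt N)
          (f := fun x => |f x - g x|) (by unfold dot; exact Measurable.aemeasurable (by fun_prop))
          (hf.meas.sub hg.meas).abs.aestronglyMeasurable
        rw [map_dot_unit hu] at e2
        simp only [patTerm, e1]
        exact e2.symm
      rw [integral_integral_swap hi, integral_congr_ae hae]
      simp
    rw [h2, ← hedef] at h1
    linarith
  rw [meanPressure_sphere_eq_Phi, meanPressure_sphere_eq_Phi, ← mul_sub, one_div_mul_eq_div, div_le_iff₀ hN']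
  have hM := mul_le_mul_of_nonneg_right (Nat.floor_le (mul_nonneg hα hN'.le)) he
  linarith

lemma abs_meanPressure_sphere_sub_le {α : ℝ} (hα : 0 ≤ α) (hf : Bd A f) (hg : Bd A g) (N : ℕ) :
    |meanPressure sphereLaw α f N - meanPressure sphereLaw α g N| ≤
      α * (Real.exp (2 * A) * ∫ x, |f x - g x| ∂gaussianReal 0 1) := by
  have h1 := meanPressure_sphere_sub_le hα hf hg N
  have h2 := meanPressure_sphere_sub_le hα hg hf N
  simp only [abs_sub_comm (g _) (f _)] at h2
  exact abs_le.2 ⟨by linarith, h1⟩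

/-- The formula for smooth potentials. -/
def SmoothSphereStmt : Prop :=
  ∀ (α A : ℝ) (f : ℝ → ℝ), 0 < α → Smooth f A →
    BddBelow (sphereValues α f) ∧
      Tendsto (meanPressure sphereLaw α f) atTop (𝓝 (sInf (sphereValues α f)))

lemma sphereValues_nonempty (α : ℝ) (f : ℝ → ℝ) : (sphereValues α f).Nonempty :=
  ⟨_, 0, Fin.elim0, fun _ => 0, ⟨fun i => i.elim0, fun i => i.elim0, fun i => i.elim0,
    monotone_const, le_rfl, zero_le_one⟩, zero_lt_one, rfl⟩

/-- A value moves at most like the potential in `L¹`. -/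
lemma sphereVal_sub_le (hα : 0 ≤ α) (hf : Bd A f) (hg : Bd A g) {r : ℕ} {m : Fin r → ℝ}
    {q : Fin (r + 1) → ℝ} (hq : IsPath m q) :
    sphereVal α g m q - sphereVal α f m q ≤
      α * (Real.exp (2 * A) * ∫ x, |f x - g x| ∂gaussianReal 0 1) := by
  have h := mul_le_mul_of_nonneg_left (abs_le.1 (Extend.abs_patValue_sub_le hq hf hg)).1 hα
  simp only [sphereVal]
  linarith

/-- The formula passes from smooth potentials to bounded Borel ones. -/
theorem extend_sphere (hSm : SmoothSphereStmt) : SphereFormulaStmt := by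
  intro α f hα hfm ⟨A, hA⟩
  have hA0 : 0 ≤ A := (abs_nonneg _).trans (hA 0)
  have hf : Bd A f := ⟨hfm, hA⟩
  set B := 2 * (A + 1) with hB
  have hfB : Bd B f := ⟨hfm, fun x => (hA x).trans (by linarith)⟩
  set K := α * Real.exp (2 * B) with hK
  have hK0 : 0 < K := mul_pos hα (Real.exp_pos _)
  have key : ∀ ε > 0, ∃ g A', Smooth g A' ∧ Bd B g ∧
      α * (Real.exp (2 * B) * ∫ x, |f x - g x| ∂gaussianReal 0 1) ≤ ε ∧
      α * (Real.exp (2 * B) * ∫ x, |g x - f x| ∂gaussianReal 0 1) ≤ ε := by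
    intro ε hε
    obtain ⟨g, A', hgS, hg, hd⟩ := Extend.exists_smooth_near hf (show 0 < ε / K by positivity)
    have h : α * (Real.exp (2 * B) * ∫ x, |f x - g x| ∂gaussianReal 0 1) ≤ ε := by
      rw [← mul_assoc, ← hK]
      refine (mul_le_mul_of_nonneg_left hd hK0.le).trans_eq ?_
      field_simp
    exact ⟨g, A', hgS, hg, h, by simpa only [abs_sub_comm (g _) (f _)] using h⟩
  have hb : BddBelow (sphereValues α f) := by
    obtain ⟨g, A', hgS, hg, h1, -⟩ := key 1 one_pos
    obtain ⟨c, hc⟩ := (hSm α A' g hα hgS).1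
    refine ⟨c - 1, ?_⟩
    rintro v ⟨r, m, q, hq, hq1, rfl⟩
    linarith [hc ⟨r, m, q, hq, hq1, rfl⟩, (sphereVal_sub_le hα.le hfB hg hq).trans h1]
  refine ⟨hb, ?_⟩
  rw [Metric.tendsto_nhds]
  intro ε hε
  obtain ⟨g, A', hgS, hg, h1, h2⟩ := key (ε / 4) (by linarith)
  obtain ⟨hbg, hlim⟩ := hSm α A' g hα hgS
  have i1 : sInf (sphereValues α g) ≤ sInf (sphereValues α f) + ε / 4 := by
    rw [← sub_le_iff_le_add]
    refine le_csInf (sphereValues_nonempty α f) ?_
    rintro v ⟨r, m, q, hq, hq1, rfl⟩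
    linarith [csInf_le hbg ⟨r, m, q, hq, hq1, rfl⟩, (sphereVal_sub_le hα.le hfB hg hq).trans h1]
  have i2 : sInf (sphereValues α f) ≤ sInf (sphereValues α g) + ε / 4 := by
    rw [← sub_le_iff_le_add]
    refine le_csInf (sphereValues_nonempty α g) ?_
    rintro v ⟨r, m, q, hq, hq1, rfl⟩
    linarith [csInf_le hb ⟨r, m, q, hq, hq1, rfl⟩, (sphereVal_sub_le hα.le hg hfB hq).trans h2]
  filter_upwards [Metric.tendsto_nhds.1 hlim (ε / 4) (by linarith)] with N hN
  rw [Real.dist_eq, abs_lt] at hN ⊢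
  have hp := abs_le.1 ((abs_meanPressure_sphere_sub_le hα.le hfB hg N).trans h1)
  constructor <;> linarith [hN.1, hN.2, hp.1, hp.2]

end Vale.Agent.P157.Parisi.Full.Spherical
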