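import Vale.Agent.P157.Full.Sphere.Defs
import Vale.Agent.P157.Full.Statements
import Vale.Agent.P157.Parisi.Sphere.Site.Main
import Vale.Agent.P157.Parisi.Sphere.Upper.Site

/-!
Interfaces between the parts of the proof of the formula on the sphere, as propositions.
-/

noncomputable section

open MeasureTheory ProbabilityTheory Filter
open scoped BigOperators NNReal ENNReal Topology

namespace Vale.Agent.P157.Parisi.Full.Spherical

open Sphere (Pts Conf)

/-! ### Discretisations fine enough for derivatives -/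

/-- A tolerance beating every crude bound on the derivatives of the Hamiltonian. -/
def fineTol (N : ℕ) : ℝ := 1 / ((N : ℝ) + 1) ^ (4 * N + 12)

/-- Families discretising the sphere at the fine tolerance. -/
def IsFine (P : ∀ N, Pts N) : Prop :=
  ∀ N, 0 < N → ∃ π : (Fin N → ℝ) → Fin N → ℝ, Measurable π ∧
    (∀ᵐ x ∂sphereLaw N,
      Real.sqrt (∑ i, (π x i - x i / Real.sqrt N) ^ 2) ≤ fineTol N ∧ ∃ σ, π x = (P N).u σ) ∧
    ∀ φ : (Fin N → ℝ) → ℝ, Measurable φ → (∀ v, 0 ≤ φ v) →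
      (1 - fineTol N) * ∫ x, φ (π x) ∂sphereLaw N ≤ (∑ σ, φ ((P N).u σ)) / (P N).K ∧
        (∑ σ, φ ((P N).u σ)) / (P N).K ≤ (1 + fineTol N) * ∫ x, φ (π x) ∂sphereLaw N

/-- Module R0: fine discretisations exist, and are discretisations. -/
def FineStmt : Prop := ∃ P : ∀ N, Pts N, IsFine P ∧ Sphere.IsNets P

/-! ### The rotation identity -/

/-- Module R1: the uniform law of the sphere is invariant under rotations, differentiated. -/
def RotStmt : Prop :=
  ∀ (N : ℕ) (ψ : (Fin N → ℝ) → ℝ), 0 < N → ContDiff ℝ 1 ψ →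
    ∀ y : Fin N → ℝ, ∑ i, y i ^ 2 = 1 →
      ((N : ℝ) - 1) * ∫ x, dot (fun i => x i / Real.sqrt N) y * ψ (fun i => x i / Real.sqrt N)
          ∂sphereLaw N =
        ∫ x, (fderiv ℝ ψ (fun i => x i / Real.sqrt N) y -
          dot (fun i => x i / Real.sqrt N) y *
            fderiv ℝ ψ (fun i => x i / Real.sqrt N) (fun i => x i / Real.sqrt N)) ∂sphereLaw N

/-- The derivative at `σ` of the Hamiltonian along the tangential part of `τ`. -/
def tangGrad {N L : ℕ} {P : Pts N} (f : ℝ → ℝ) (s : ℝ) (x : Fin L → ℝ) (d : Dis N L)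
    (σ τ : Conf P) : ℝ :=
  (∑ a ∈ Finset.range d.1, deriv f (dot (d.2.1 a) (Sphere.unitVec σ)) *
      (dot (d.2.1 a) (Sphere.unitVec τ) - Sphere.overlap σ τ * dot (d.2.1 a) (Sphere.unitVec σ))) +
    ∑ c : PertIdx N L, d.2.2 c * (s * x c.1 * (1 / 2) ^ (c.1.val + 1) *
      ∑ i, (Sphere.unitVec τ (c.2 i) - Sphere.overlap σ τ * Sphere.unitVec σ (c.2 i)) *
        ∏ j ∈ Finset.univ.erase i, Sphere.unitVec σ (c.2 j))

/-- The mean of `R^k` times that derivative. -/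
def gradMean {N L : ℕ} (P : Pts N) (f : ℝ → ℝ) (s : ℝ) (x : Fin L → ℝ) (μ : ℝ) (k : ℕ) : ℝ :=
  ∫ d, ∑ σ : Conf P, ∑ τ : Conf P, (Sphere.sysState P f s x μ).w d σ * (Sphere.sysState P f s x μ).w d τ *
    (Sphere.overlap σ τ ^ k * tangGrad f s x d σ τ) ∂disLaw N L μ

/-- Module R2: integration by parts on the sphere, on fine discretisations. -/
def ByPartsStmt : Prop :=
  ∀ (α A C : ℝ) (f : ℝ → ℝ), 0 < α → Smooth f A → ∀ P : ∀ N, Pts N, IsFine P → ∀ k : ℕ,
    ∀ ε > 0, ∀ᶠ N : ℕ in atTop, ∀ μ : ℝ, 0 ≤ μ → |μ - α * N| ≤ C →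
      ∀ x : Fin N → ℝ, (∀ i, x i ∈ Set.Icc (1 : ℝ) 2) →
        |(Sphere.sysState (P N) f (scale N) x μ).repMean 2 (fun σ => Sphere.overlap (σ 0) (σ 1) ^ (k + 1)) -
          gradMean (P N) f (scale N) x μ k / N| ≤ ε

/-- The two bracketed Sphere.overlap functions. -/
def pairFun (k : ℕ) (T : Fin 2 → Fin 2 → ℝ) : ℝ := T 0 1 ^ k * (1 - T 0 1 ^ 2)

/-- The Sphere.overlap function of three replicas. -/
def tripleFun (k : ℕ) (T : Fin 3 → Fin 3 → ℝ) : ℝ := T 0 1 ^ k * (T 1 2 - T 0 1 * T 0 2)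

/-- Module R3: Gaussian integration by parts in the patterns and in the perturbation. -/
def PatPartsStmt : Prop :=
  ∀ (α A C : ℝ) (f : ℝ → ℝ), 0 < α → Smooth f A → ∀ P : ∀ N, Pts N, ∀ k : ℕ,
    ∀ ε > 0, ∀ᶠ N : ℕ in atTop, ∀ μ : ℝ, 0 ≤ μ → |μ - α * N| ≤ C →
      ∀ x : Fin N → ℝ, (∀ i, x i ∈ Set.Icc (1 : ℝ) 2) →
        |gradMean (P N) f (scale N) x μ k / N - μ / N *
          ((Sphere.sysState (P N) f (scale N) x μ).patMean f (pairFun k)
              (fun _ : Fin 1 => (⟨0, 1, deriv f, deriv f⟩ : Obs 2)) -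
            2 * (Sphere.sysState (P N) f (scale N) x μ).patMean f (tripleFun k)
              (fun _ : Fin 1 => (⟨0, 2, deriv f, deriv f⟩ : Obs 3)))| ≤ ε

/-! ### The equation of a stationary path -/

/-- The right side of the stationarity equation, without `α`. -/
def statG (f : ℝ → ℝ) (ξ : Path) (p : Fin (ξ.r + 1)) : ℝ :=
  slope f ξ.m ξ.q p * gap ξ.m ξ.q p -
    (1 - ξ.q p) * (∑ l, weight ξ.m l * slope f ξ.m ξ.q l * ξ.q l) +
    ∑ l, if p < l then weight ξ.m l * slope f ξ.m ξ.q l * (ξ.q l - ξ.q p) else 0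

/-- The defect of stationarity. -/
def defect (α : ℝ) (f : ℝ → ℝ) (ξ : Path) : ℝ :=
  ∑ p, weight ξ.m p * |ξ.q p - α * statG f ξ p|

/-- Module T: the limit of the bracket on a cascade. -/
def TreeIdStmt : Prop :=
  ∀ (f : ℝ → ℝ) (A : ℝ), Smooth f A → ∀ (ξ : Path) (k : ℕ),
    ξ.treePat f (pairFun k) (fun _ : Fin 1 => (⟨0, 1, deriv f, deriv f⟩ : Obs 2)) -
        2 * ξ.treePat f (tripleFun k) (fun _ : Fin 1 => (⟨0, 2, deriv f, deriv f⟩ : Obs 3)) =
      ∑ p, weight ξ.m p * (ξ.q p ^ k * statG f ξ p)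

/-- Module C1: near a stationary path, the two functionals agree. -/
def CompareStmt : Prop :=
  ∀ (α A : ℝ) (f : ℝ → ℝ), 0 < α → Smooth f A → ∀ ε > 0, ∃ η > 0, ∀ ξ : Path,
    defect α f ξ ≤ η → ∃ v ∈ sphereValues α f, v ≤ Sphere.parisiSphere α f ξ.m ξ.q + ε

/-- Module C2: the entropy dominates every field path, at a suitable precision. -/
def EntropyStmt : Prop :=
  ∀ (r : ℕ) (m : Fin r → ℝ) (q : Fin (r + 1) → ℝ), IsPath m q → q (Fin.last r) < 1 →
    ∀ ρ : Fin (r + 1) → ℝ, IsFieldPath m ρ → ∃ D : Fin (r + 1) → ℝ, (∀ p, 0 < D p) ∧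
      D (Fin.last r) ≤ 1 / gap m q 0 + ρ (Fin.last r) ∧
      (∀ i : Fin r, D i.succ - D i.castSucc = m i * (ρ i.succ - ρ i.castSucc)) ∧
      (D (Fin.last r) - 1 - Real.log (D (Fin.last r))) / 2 + ρ 0 / (2 * D 0) +
          Sphere.Up.quadConst m D - ρ (Fin.last r) / 2 + 1 / 2 * ∑ p, weight m p * ρ p * q p ≤
        entropy m q

/-- Module U: the slots on the sphere. -/
def InitSphereStmt : Prop :=
  ∀ P : ∀ N, Pts N, Sphere.IsNets P → ∀ (r : ℕ) (m : Fin r → ℝ) (q : Fin (r + 1) → ℝ),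
    IsPath m q → q (Fin.last r) < 1 → Init P m q (entropy m q)

/-- Module L: asymptotic cascades on the sphere are stationary. -/
def SphereFixedStmt : Prop :=
  ∀ (α A C : ℝ) (f : ℝ → ℝ) (P : ∀ N, Pts N), IsFine P →
    ∀ (N : ℕ → ℕ) (x : ∀ j, Fin (N j) → ℝ) (μ : ℕ → ℝ) (ξ : ℕ → Path),
      Sphere.Site.Setup α A C f N (fun j => P (N j)) x μ ξ →
      (∀ j i, x j i ∈ Set.Icc (1 : ℝ) 2) →
      Tendsto (fun j => defect α f (ξ j)) atTop (𝓝 0)

/-- The formula on the sphere for every bounded Borel potential. -/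
def SphereFormulaStmt : Prop :=
  ∀ (α : ℝ) (f : ℝ → ℝ), 0 < α → Measurable f → (∃ A, ∀ z, |f z| ≤ A) →
    BddBelow (sphereValues α f) ∧
      Tendsto (meanPressure sphereLaw α f) atTop (𝓝 (sInf (sphereValues α f)))

end Vale.Agent.P157.Parisi.Full.Spherical
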