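import Vale.Agent.P157.Full.InitCube
import Vale.Agent.P157.Full.Sphere.Statements

/-!
Slots on fine discretisations of the sphere are below the entropy of an overlap path: a Gaussian
comparison of the direction, then the quadratic recursion site by site.
-/

noncomputable section

open MeasureTheory ProbabilityTheory Filter
open scoped BigOperators Topology

namespace Vale.Agent.P157.Parisi.Full.Spherical

open Sphere (Pts Conf)
open Vale.Agent.P168 (genNested)
open Vale.Agent.P168.Cascade (Exps)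
open Vale.Agent.P168.Upper (integral_mp mp_flip measurable_genNested genNested_map genNested_bounds
  genNested_const_mul)
open Vale.Agent.P157.Parisi.Up (Growth clipA measurable_clipA abs_clipA_le abs_clipA_le_abs svar inc)
open Sphere.Up (quadConst gaussCost)

/-! ### The quadratic recursion for clipped variables with coefficients -/

lemma vec_mgf {L : ℕ} {a : ℝ} (ha : 0 ≤ a) (c : Fin L → ℝ) (t : ℝ) :
    ∫ b, Real.exp (t * ∑ k, c k * clipA a (b k)) ∂gam (Fin L) ≤
      Real.exp (t ^ 2 * (∑ k, c k ^ 2) / 2) := by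
  have hg : Growth Real.exp 1 1 := ⟨Real.continuous_exp, zero_le_one, zero_le_one, fun z => by
    rw [one_mul, one_mul, Real.abs_exp]; exact Real.exp_le_exp.2 (le_abs_self z)⟩
  have h := clip_vec_gauss convexOn_exp hg ha (fun k => t * c k) 0
  simp only [zero_add, mul_assoc, ← Finset.mul_sum] at h
  refine h.trans_eq ?_
  set S := ∑ k, (t * c k) ^ 2
  have h2 := (Sphere.Up.integral_exp_lin_sq (Real.sqrt S) (c := 0) (by norm_num)).1
  simp only [zero_mul, add_zero, mul_zero, sub_zero, Real.log_one, zero_div, mul_one] at h2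
  rw [h2, Real.sq_sqrt (Finset.sum_nonneg fun k _ => sq_nonneg _)]
  simp only [S, mul_pow, ← Finset.mul_sum]

/-- The quadratic of a shifted sum, exponentiated. -/
lemma vec_sq {L : ℕ} {a : ℝ} (ha : 0 ≤ a) {q : ℝ} (hq : 0 ≤ q) (x : ℝ) (c : Fin L → ℝ)
    (hqd : q * ∑ k, c k ^ 2 < 1 / 2) :
    Integrable (fun b => Real.exp (q * (x + ∑ k, c k * clipA a (b k)) ^ 2)) (gam (Fin L)) ∧
    ∫ b, Real.exp (q * (x + ∑ k, c k * clipA a (b k)) ^ 2) ∂gam (Fin L) ≤
      Real.exp (q * x ^ 2 / (1 - 2 * (q * ∑ k, c k ^ 2)) -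
        Real.log (1 - 2 * (q * ∑ k, c k ^ 2)) / 2) := by
  set S := ∑ k, c k ^ 2
  set r := Real.sqrt (2 * q)
  set B := |x| + (∑ k, |c k|) * a
  have hB : ∀ b : Fin L → ℝ, |x + ∑ k, c k * clipA a (b k)| ≤ B := fun b => by
    refine (abs_add_le _ _).trans (add_le_add le_rfl ?_)
    rw [Finset.sum_mul]
    refine (Finset.abs_sum_le_sum_abs _ _).trans (Finset.sum_le_sum fun k _ => ?_)
    rw [abs_mul]
    exact mul_le_mul_of_nonneg_left (abs_clipA_le ha _) (abs_nonneg _)
  have hlin : ∀ y, Real.exp (q * y ^ 2) = ∫ g, Real.exp (r * y * g) ∂gaussianReal 0 1 := fun y => by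
    have h := (Sphere.Up.integral_exp_lin_sq (r * y) (c := 0) (by norm_num)).1
    simp only [zero_mul, add_zero, mul_zero, sub_zero, Real.log_one, zero_div, mul_one] at h
    rw [h, mul_pow, Real.sq_sqrt (by linarith)]
    congr 1
    ring
  have hm : Measurable fun z : (Fin L → ℝ) × ℝ =>
      Real.exp (r * (x + ∑ k, c k * clipA a (z.1 k)) * z.2) :=
    (((((measurable_vecSum c (measurable_clipA a)).comp measurable_fst).const_add x).const_mul
      r).mul measurable_snd).exp
  have hb1 : Integrable (fun _ : Fin L → ℝ => (1 : ℝ)) (gam (Fin L)) := integrable_const _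
  have hi : Integrable (fun z : (Fin L → ℝ) × ℝ =>
      Real.exp (r * (x + ∑ k, c k * clipA a (z.1 k)) * z.2))
      ((gam (Fin L)).prod (gaussianReal 0 1)) := by
    refine (hb1.mul_prod (Cavity.integrable_exp_abs (r * B))).mono' hm.aestronglyMeasurable
      (Eventually.of_forall fun z => ?_)
    rw [one_mul, Real.norm_eq_abs, Real.abs_exp]
    refine Real.exp_le_exp.2 ((le_abs_self _).trans ?_)
    rw [abs_mul, abs_mul, abs_of_nonneg (Real.sqrt_nonneg _)]
    exact mul_le_mul_of_nonneg_right (mul_le_mul_of_nonneg_left (hB _) (Real.sqrt_nonneg _))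
      (abs_nonneg _)
  simp only [hlin]
  refine ⟨hi.integral_prod_left, ?_⟩
  rw [integral_integral_swap hi]
  obtain ⟨hval, hint⟩ := Sphere.Up.integral_exp_lin_sq (r * x) hqd
  refine (integral_mono hi.integral_prod_right hint fun g => ?_).trans_eq ?_
  · have e : ∀ b : Fin L → ℝ, Real.exp (r * (x + ∑ k, c k * clipA a (b k)) * g) =
        Real.exp (r * x * g) * Real.exp (r * g * ∑ k, c k * clipA a (b k)) := fun b => by
      rw [← Real.exp_add]; congr 1; ring
    simp only [e]
    rw [integral_const_mul, Real.exp_add]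
    refine mul_le_mul_of_nonneg_left ((vec_mgf ha c _).trans_eq ?_) (Real.exp_pos _).le
    congr 1
    rw [mul_pow, Real.sq_sqrt (by linarith)]
    ring
  · rw [hval, mul_pow, Real.sq_sqrt (by linarith)]
    congr 2
    field_simp

lemma measurable_expSq {r L : ℕ} (a x D : ℝ) (c : Fin r → Fin L → ℝ) :
    Measurable fun η => Real.exp ((x + vecExp a c η) ^ 2 / (2 * D)) :=
  ((((measurable_vecExp a c).const_add x).pow_const 2).div_const _).exp

/-- Layers of clipped variables are below the quadratic recursion. -/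
theorem vec_quad {L : ℕ} {a : ℝ} (ha : 0 ≤ a) : ∀ {r : ℕ} (m : Fin r → ℝ), (∀ i, 0 < m i) →
    ∀ (ρ D : Fin (r + 1) → ℝ) (c : Fin r → Fin L → ℝ), (∀ p, ∑ k, c p k ^ 2 = inc ρ p) →
      (∀ p, 0 < D p) →
      (∀ i : Fin r, D i.succ - D i.castSucc = m i * (ρ i.succ - ρ i.castSucc)) →
      ∀ x, Real.log (genNested (gam (Fin L)) m
          fun η => Real.exp ((x + vecExp a c η) ^ 2 / (2 * D (Fin.last r)))) ≤
        x ^ 2 / (2 * D 0) + quadConst m D
  | 0, _, _, ρ, D, c, _, _, _, x => by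
    simp [genNested, quadConst, vecExp, Real.log_exp]
  | r + 1, m, hm, ρ, D, c, hsq, hD, hstep, x => by
    set I : (Fin L → ℝ) → ℝ := fun b => genNested (gam (Fin L)) (Fin.tail m)
      fun η => Real.exp ((x + vecExp a c (Fin.cons b η)) ^ 2 / (2 * D (Fin.last (r + 1))))
    have hjoint : Measurable fun z : (Fin L → ℝ) × (Fin r → Fin L → ℝ) =>
        Real.exp ((x + vecExp a c (Fin.cons z.1 z.2)) ^ 2 / (2 * D (Fin.last (r + 1)))) :=
      (measurable_expSq a x _ c).comp Vale.Agent.P168.Cascade.measurable_cons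
    have hIm : Measurable I := measurable_genNested (gam (Fin L)) (Fin.tail m) _ hjoint
    have hb : ∀ η : Fin (r + 1) → Fin L → ℝ,
        1 ≤ Real.exp ((x + vecExp a c η) ^ 2 / (2 * D (Fin.last (r + 1)))) ∧
        Real.exp ((x + vecExp a c η) ^ 2 / (2 * D (Fin.last (r + 1)))) ≤
          Real.exp ((|x| + (∑ p, ∑ k, |c p k|) * a) ^ 2 / (2 * D (Fin.last (r + 1)))) := fun η => by
      refine ⟨Real.one_le_exp (by have := hD (Fin.last (r + 1)); positivity), Real.exp_le_exp.2
        (div_le_div_of_nonneg_right ?_ (by have := hD (Fin.last (r + 1)); positivity))⟩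
      rw [← sq_abs (x + vecExp a c η)]
      exact pow_le_pow_left₀ (abs_nonneg _)
        ((abs_add_le _ _).trans (add_le_add le_rfl (abs_vecExp_le ha c η))) 2
    have hI1 : ∀ b, 1 ≤ I b := fun b =>
      (genNested_bounds (gam (Fin L)) (Fin.tail m) (fun i => hm i.succ)
        (fun η => Real.exp ((x + vecExp a c (Fin.cons b η)) ^ 2 / (2 * D (Fin.last (r + 1)))))
        (hjoint.comp (f := fun η : Fin r → Fin L → ℝ => (b, η))
          (measurable_const.prodMk measurable_id))
        one_pos fun η => hb (Fin.cons b η)).1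
    set μ := m 0
    set k := quadConst (Fin.tail m) (Fin.tail D)
    set S := ∑ j, c 0 j ^ 2 with hS_def
    have hμ : 0 < μ := hm 0
    have hD0 := hD 0
    have hD1 := hD 1
    have hS : S = ρ 1 - ρ 0 := by simpa [inc] using hsq 0
    have hgap : D 1 - D 0 = μ * S := by rw [hS]; simpa using hstep 0
    have hI : ∀ b, I b ≤ Real.exp ((x + ∑ j, c 0 j * clipA a (b j)) ^ 2 / (2 * D 1) + k) := fun b => by
      have ih := vec_quad ha (Fin.tail m) (fun i => hm i.succ) (Fin.tail ρ) (Fin.tail D)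
        (Fin.tail c) (fun p => by simpa [inc, Fin.tail] using hsq p.succ) (fun p => hD _)
        (fun i => by
          have := hstep i.succ
          rw [← Fin.succ_castSucc] at this
          exact this)
        (x + ∑ j, c 0 j * clipA a (b j))
      have e : Fin.tail D 0 = D 1 := rfl
      have e' : Fin.tail D (Fin.last r) = D (Fin.last (r + 1)) := by simp [Fin.tail]
      rw [e, e'] at ih
      simp only [add_assoc, ← vecExp_cons] at ih
      exact (Real.log_le_iff_le_exp (one_pos.trans_le (hI1 b))).1 ih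
    set q := μ / (2 * D 1)
    have hqd : q * S < 1 / 2 := by
      rw [div_mul_eq_mul_div, div_lt_iff₀ (by positivity)]
      linarith
    have hq2 : 1 - 2 * (q * S) = D 0 / D 1 := by
      rw [eq_div_iff hD1.ne']
      simp only [q]
      field_simp
      linarith
    obtain ⟨hJi, hJ⟩ := vec_sq ha (by positivity : 0 ≤ q) x (c 0) hqd
    rw [← hS_def, hq2] at hJ
    have hI0 : ∀ b, 0 ≤ I b := fun b => zero_le_one.trans (hI1 b)
    have hpow : ∀ b, I b ^ μ ≤
        Real.exp (μ * k) * Real.exp (q * (x + ∑ j, c 0 j * clipA a (b j)) ^ 2) := fun b => by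
      refine (Real.rpow_le_rpow (hI0 b) (hI b) hμ.le).trans_eq ?_
      rw [← Real.exp_mul, ← Real.exp_add]
      congr 1
      simp only [q]
      ring
    have hIi : Integrable (fun b => I b ^ μ) (gam (Fin L)) :=
      (hJi.const_mul (Real.exp (μ * k))).mono' (hIm.pow_const _).aestronglyMeasurable
        (Eventually.of_forall fun b => by
          rw [Real.norm_eq_abs, abs_of_nonneg (Real.rpow_nonneg (hI0 b) _)]
          exact hpow b)
    have hpos : 0 < ∫ b, I b ^ μ ∂gam (Fin L) := by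
      refine zero_lt_one.trans_le ?_
      simpa using integral_mono (integrable_const _) hIi fun b =>
        Real.one_le_rpow (hI1 b) hμ.le
    have hle : Real.log (∫ b, I b ^ μ ∂gam (Fin L)) ≤
        μ * k + (q * x ^ 2 / (D 0 / D 1) - Real.log (D 0 / D 1) / 2) := by
      rw [Real.log_le_iff_le_exp hpos, Real.exp_add]
      refine (integral_mono hIi (hJi.const_mul _) hpow).trans ?_
      rw [integral_const_mul]
      exact mul_le_mul_of_nonneg_left hJ (Real.exp_pos _).le
    show Real.log ((∫ b, I b ^ μ ∂gam (Fin L)) ^ (1 / μ)) ≤ _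
    rw [Real.log_rpow hpos]
    refine (mul_le_mul_of_nonneg_left hle (one_div_pos.2 hμ).le).trans_eq ?_
    have hk : quadConst m D = Real.log (D 1 / D 0) / (2 * μ) + k := by
      simp only [quadConst, Fin.sum_univ_succ, k, Fin.tail, Fin.succ_castSucc, Fin.castSucc_zero]
      rfl
    rw [hk, ← inv_div (D 0) (D 1), Real.log_inv]
    simp only [q]
    field_simp
    ring

/-! ### The slots at one site -/

variable {r N T : ℕ} {δ a D : ℝ} {m : Fin r → ℝ} {ks : Fin T → Fin (r + 1)}

/-- The log nested mean at one site with a quadratic top. -/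
def slotQuad (δ a : ℝ) (m : Fin r → ℝ) (ks : Fin T → Fin (r + 1)) (D : ℝ) (e : Fin T → ℝ) : ℝ :=
  Real.log (genNested (gam (Fin T)) m fun η => Real.exp (slotArg δ a ks e η ^ 2 / (2 * D)))

lemma measurable_quadArg (δ a : ℝ) (ks : Fin T → Fin (r + 1)) (D : ℝ) :
    Measurable fun z : (Fin T → ℝ) × (Fin r → Fin T → ℝ) =>
      Real.exp (slotArg δ a ks z.1 z.2 ^ 2 / (2 * D)) := by
  simp only [slotArg_eq]
  exact ((((Finset.measurable_sum _ fun t _ => ((measurable_clipA a).comp
      ((measurable_pi_apply t).comp measurable_fst)).const_mul _).add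
    ((measurable_vecExp a _).comp measurable_snd)).pow_const 2).div_const _).exp

lemma quadArg_mem (ha : 0 ≤ a) (ks : Fin T → Fin (r + 1)) (hD : 0 < D) (e : Fin T → ℝ)
    (η : Fin r → Fin T → ℝ) :
    1 ≤ Real.exp (slotArg δ a ks e η ^ 2 / (2 * D)) ∧
      Real.exp (slotArg δ a ks e η ^ 2 / (2 * D)) ≤
        Real.exp ((Real.sqrt δ * (T * a)) ^ 2 / (2 * D)) := by
  refine ⟨Real.one_le_exp (by positivity), Real.exp_le_exp.2 (div_le_div_of_nonneg_right ?_
    (by positivity))⟩
  rw [← sq_abs (slotArg δ a ks e η)]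
  refine pow_le_pow_left₀ (abs_nonneg _) ?_ 2
  rw [slotArg, abs_mul, abs_of_nonneg (Real.sqrt_nonneg δ)]
  refine mul_le_mul_of_nonneg_left ((Finset.abs_sum_le_sum_abs _ _).trans
    ((Finset.sum_le_sum (g := fun _ => a) fun t _ => ?_).trans_eq (by simp))) (Real.sqrt_nonneg δ)
  refine (Up.abs_pathField_le _ (abs_clipA_le ha _) fun p => abs_clipA_le ha _).trans_eq ?_
  exact (congrArg (· * a) (fieldLen_slotDir (ks t))).trans (one_mul a)

lemma slotQuad_mem (ha : 0 ≤ a) (hm : Exps m) (ks : Fin T → Fin (r + 1)) (hD : 0 < D)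
    (e : Fin T → ℝ) :
    1 ≤ genNested (gam (Fin T)) m (fun η => Real.exp (slotArg δ a ks e η ^ 2 / (2 * D))) ∧
    genNested (gam (Fin T)) m (fun η => Real.exp (slotArg δ a ks e η ^ 2 / (2 * D))) ≤
      Real.exp ((Real.sqrt δ * (T * a)) ^ 2 / (2 * D)) :=
  genNested_bounds (gam (Fin T)) m hm.pos _ ((measurable_quadArg δ a ks D).comp
    (f := fun η => (e, η)) (measurable_const.prodMk measurable_id)) one_pos
    fun η => quadArg_mem ha ks hD e η

lemma measurable_slotQuad (δ a : ℝ) (m : Fin r → ℝ) (ks : Fin T → Fin (r + 1)) (D : ℝ) :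
    Measurable (slotQuad δ a m ks D) :=
  (measurable_genNested (gam (Fin T)) m _ (measurable_quadArg δ a ks D)).log

lemma integrable_slotQuad (ha : 0 ≤ a) (hm : Exps m) (ks : Fin T → Fin (r + 1)) (hD : 0 < D)
    {Q : Type} [MeasurableSpace Q] (μ : Measure Q) [IsFiniteMeasure μ] {F : Q → Fin T → ℝ}
    (hF : Measurable F) : Integrable (fun p => slotQuad δ a m ks D (F p)) μ := by
  refine Up.integrable_bdd (C := (Real.sqrt δ * (T * a)) ^ 2 / (2 * D))
    ((measurable_slotQuad δ a m ks D).comp hF) fun p => ?_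
  obtain ⟨h1, h2⟩ := slotQuad_mem (δ := δ) ha hm ks hD (F p)
  simp only [slotQuad]
  rw [abs_of_nonneg (Real.log_nonneg h1)]
  exact (Real.log_le_iff_le_exp (one_pos.trans_le h1)).2 h2

lemma integral_slotQuad_le (hδ : 0 ≤ δ) (ha : 0 ≤ a) (hm : Exps m) (ks : Fin T → Fin (r + 1))
    {Dp : Fin (r + 1) → ℝ} (hD : ∀ p, 0 < Dp p)
    (hstep : ∀ i : Fin r, Dp i.succ - Dp i.castSucc =
      m i * (slotPath δ ks i.succ - slotPath δ ks i.castSucc)) :
    ∫ e, slotQuad δ a m ks (Dp (Fin.last r)) e ∂gam (Fin T) ≤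
      slotPath δ ks 0 / (2 * Dp 0) + quadConst m Dp := by
  set ρ := slotPath δ ks with hρ
  set c₀ : Fin T → ℝ := fun t => Real.sqrt δ * Real.sqrt (slotDir (ks t) 0)
  set X : (Fin T → ℝ) → ℝ := fun e => ∑ t, c₀ t * clipA a (e t)
  have hpt : ∀ e, slotQuad δ a m ks (Dp (Fin.last r)) e ≤
      X e * X e / (2 * Dp 0) + quadConst m Dp := fun e => by
    simp only [slotQuad, slotArg_eq]
    refine (vec_quad ha m hm.pos ρ Dp _ (fun p => ?_) hD hstep _).trans_eq (by simp only [X, c₀, sq])
    simp only [mul_pow, Real.sq_sqrt hδ, Real.sq_sqrt (Up.inc_nonneg (slotDir_mono _) p)]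
    simp only [hρ, slotPath, inc, ← Finset.mul_sum, Finset.sum_sub_distrib, mul_sub]
  have hXb : ∀ e, |X e * X e| ≤ ((∑ t, |c₀ t|) * a) * ((∑ t, |c₀ t|) * a) := fun e => by
    have h : |X e| ≤ (∑ t, |c₀ t|) * a := by
      rw [Finset.sum_mul]
      refine (Finset.abs_sum_le_sum_abs _ _).trans (Finset.sum_le_sum fun t _ => ?_)
      rw [abs_mul]
      exact mul_le_mul_of_nonneg_left (abs_clipA_le ha _) (abs_nonneg _)
    rw [abs_mul]
    exact mul_le_mul h h (abs_nonneg _) ((abs_nonneg _).trans h)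
  have hXm : Measurable X := measurable_vecSum c₀ (measurable_clipA a)
  have hi2 : Integrable (fun e => X e * X e) (gam (Fin T)) :=
    Up.integrable_bdd (hXm.mul hXm) hXb
  refine (integral_mono (integrable_slotQuad ha hm ks (hD _) _ measurable_id)
    ((hi2.div_const _).add (integrable_const _)) hpt).trans ?_
  simp only [Pi.add_apply]
  rw [integral_add (hi2.div_const _) (integrable_const _), integral_div, integral_const,
    probReal_univ, one_smul]
  refine add_le_add (div_le_div_of_nonneg_right ?_ (by have := hD 0; positivity)) le_rfl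
  simp only [X]
  rw [Up.integral_lin_mul (measurable_clipA a) (abs_clipA_le ha) (Up.integral_clipA ha)]
  have e : ∑ t, c₀ t * c₀ t = ρ 0 := by
    simp only [c₀, ← sq, mul_pow, Real.sq_sqrt hδ, Real.sq_sqrt (slotDir_nonneg _ _), hρ,
      slotPath, Finset.mul_sum]
  rw [e]
  exact mul_le_of_le_one_left (mul_nonneg hδ (Finset.sum_nonneg fun t _ => slotDir_nonneg _ _))
    (Up.svar_le_one ha)

/-! ### The sphere -/

lemma nets_laplace {P : Pts N} (hN : 0 < N) {π : (Fin N → ℝ) → Fin N → ℝ} (hπ : Measurable π)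
    (hnear : ∀ᵐ x ∂sphereLaw N,
      Real.sqrt (∑ i, (π x i - x i / Real.sqrt N) ^ 2) ≤ Sphere.netTol N ∧ ∃ σ, π x = P.u σ)
    (hcmp : ∀ φ : (Fin N → ℝ) → ℝ, Measurable φ → (∀ v, 0 ≤ φ v) →
      (1 - Sphere.netTol N) * ∫ x, φ (π x) ∂sphereLaw N ≤ (∑ σ, φ (P.u σ)) / P.K ∧
        (∑ σ, φ (P.u σ)) / P.K ≤ (1 + Sphere.netTol N) * ∫ x, φ (π x) ∂sphereLaw N)
    {ε D : ℝ} (hε : 0 < ε) (hε1 : ε < 1) (hD : 0 < D)
    (hbig : 2 * gaussC * Real.sqrt N ≤ ε * N) (hsmall : Sphere.netTol N * D ≤ ε) (Q : Fin N → ℝ) :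
    (∑ σ : Conf P, Real.exp (∑ i, Sphere.Up.sv σ i * Q i)) / P.K ≤
      Real.exp (2 + gaussCost N ε D) *
        ∏ i, Real.exp (1 / (1 - ε) ^ 2 * Q i ^ 2 / (2 * D)) := by
  have := Sphere.Up.isProb_sphere hN
  have hN' : (0 : ℝ) < N := Nat.cast_pos.2 hN
  have hsN : Real.sqrt (N : ℝ) ≠ 0 := (Real.sqrt_pos.2 hN').ne'
  set t := Sphere.netTol N
  have ht : 0 ≤ t := by simp only [t, Sphere.netTol]; positivity
  have hN1 : (1 : ℝ) ≤ N := by exact_mod_cast hN
  have ht1 : t ≤ 1 := by
    simp only [t, Sphere.netTol]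
    rw [div_le_one (by positivity)]
    exact one_le_pow₀ (by linarith)
  have htN : t * (N * N) ≤ 1 := by
    simp only [t, Sphere.netTol]
    rw [div_mul_eq_mul_div, div_le_one (by positivity)]
    nlinarith
  set W : Fin N → ℝ := fun i => Real.sqrt N * Q i
  have hTm : Measurable fun (y : Fin N → ℝ) i => Real.sqrt N * dir y i :=
    measurable_pi_lambda _ fun i => ((measurable_pi_apply i).comp measurable_dir).const_mul _
  have hGm : Measurable fun x : Fin N → ℝ => Real.exp (∑ i, x i * Q i) :=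
    (Finset.measurable_sum _ fun i _ => (measurable_pi_apply i).mul_const _).exp
  have e2 : ∫ x, Real.exp (∑ i, x i * Q i) ∂sphereLaw N =
      ∫ y, Real.exp (field W y) ∂gam (Fin N) := by
    rw [sphereLaw_eq hN, integral_map hTm.aemeasurable hGm.aestronglyMeasurable]
    refine integral_congr_ae (Eventually.of_forall fun y => ?_)
    show Real.exp _ = Real.exp _
    congr 1
    exact Finset.sum_congr rfl fun i _ => by simp only [W]; ring
  have hWb := integral_exp_mem (π := gam (Fin N)) (measurable_field W) (abs_field_le W)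
  have hJ := lint_field_gauss_le hN hε hε1 hD hbig W
  rw [lint, Real.log_le_iff_le_exp ((Real.exp_pos _).trans_le hWb.1)] at hJ
  have hiL : Integrable (fun x => Real.exp (∑ i, x i * Q i)) (sphereLaw N) := by
    rw [sphereLaw_eq hN, integrable_map_measure hGm.aestronglyMeasurable hTm.aemeasurable]
    refine (integrable_exp_of_abs_le (π := gam (Fin N)) (measurable_field W)
      (abs_field_le W)).congr (Eventually.of_forall fun y => ?_)
    show Real.exp _ = Real.exp _
    congr 1
    exact Finset.sum_congr rfl fun i _ => by simp only [W]; ring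
  set B := t * (N * N) / 2 + t * (∑ i, Q i ^ 2) / 2
  have hpt : ∀ᵐ x ∂sphereLaw N, Real.exp (∑ i, Real.sqrt N * π x i * Q i) ≤
      Real.exp B * Real.exp (∑ i, x i * Q i) := by
    filter_upwards [hnear] with x hx
    rw [← Real.exp_add]
    refine Real.exp_le_exp.2 ?_
    have hb : ∀ i, Real.sqrt N * π x i * Q i ≤ t * (N + Q i ^ 2) / 2 + x i * Q i := fun i => by
      have h1 : |π x i - x i / Real.sqrt N| ≤ t := by
        refine le_trans ?_ hx.1
        rw [← Real.sqrt_sq_eq_abs]
        exact Real.sqrt_le_sqrt (Finset.single_le_sum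
          (f := fun i => (π x i - x i / Real.sqrt N) ^ 2) (fun _ _ => sq_nonneg _)
          (Finset.mem_univ i))
      have h2 : Real.sqrt N * π x i * Q i - x i * Q i ≤ t * (Real.sqrt N * |Q i|) := by
        rw [show Real.sqrt N * π x i * Q i - x i * Q i =
          (π x i - x i / Real.sqrt N) * (Real.sqrt N * Q i) by field_simp]
        refine (le_abs_self _).trans ?_
        rw [abs_mul, abs_mul, abs_of_nonneg (Real.sqrt_nonneg _)]
        exact mul_le_mul_of_nonneg_right h1 (mul_nonneg (Real.sqrt_nonneg _) (abs_nonneg _))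
      have h3 : Real.sqrt N * |Q i| ≤ (N + Q i ^ 2) / 2 := by
        nlinarith [sq_nonneg (Real.sqrt N - |Q i|), Real.sq_sqrt hN'.le, sq_abs (Q i)]
      have := mul_le_mul_of_nonneg_left h3 ht
      linarith
    refine (Finset.sum_le_sum fun i _ => hb i).trans_eq ?_
    rw [Finset.sum_add_distrib, ← Finset.sum_div, ← Finset.mul_sum, Finset.sum_add_distrib]
    simp only [B, Finset.sum_const, Finset.card_univ, Fintype.card_fin, nsmul_eq_mul]
    ring
  have hiπ : Integrable (fun x => Real.exp (∑ i, Real.sqrt N * π x i * Q i)) (sphereLaw N) :=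
    (hiL.const_mul (Real.exp B)).mono'
      (Finset.measurable_sum _ fun i _ =>
        (((measurable_pi_apply i).comp hπ).const_mul _).mul_const _).exp.aestronglyMeasurable
      (hpt.mono fun x hx => by rw [Real.norm_eq_abs, Real.abs_exp]; exact hx)
  have hsum := (hcmp (fun v => Real.exp (∑ i, Real.sqrt N * v i * Q i))
    ((Finset.measurable_sum _ fun i _ =>
      ((measurable_pi_apply i).const_mul _).mul_const _).exp) fun v => (Real.exp_pos _).le).2
  refine hsum.trans ?_
  have hI : ∫ x, Real.exp (∑ i, Real.sqrt N * π x i * Q i) ∂sphereLaw N ≤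
      Real.exp B * ∫ y, Real.exp (field W y) ∂gam (Fin N) := by
    refine (integral_mono_ae hiπ (hiL.const_mul _) hpt).trans_eq ?_
    rw [integral_const_mul, e2]
  refine (mul_le_mul (le_trans (le_of_eq (add_comm 1 t)) (Real.add_one_le_exp t)) hI
    (integral_nonneg fun x => (Real.exp_pos _).le) (Real.exp_pos _).le).trans ?_
  refine (mul_le_mul_of_nonneg_left (mul_le_mul_of_nonneg_left hJ (Real.exp_pos _).le)
    (Real.exp_pos _).le).trans ?_
  rw [← Real.exp_sum, ← Real.exp_add, ← Real.exp_add, ← Real.exp_add]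
  refine Real.exp_le_exp.2 ?_
  have hq : ∑ i, 1 / (1 - ε) ^ 2 * Q i ^ 2 / (2 * D) =
      1 / (1 - ε) ^ 2 * (∑ i, Q i ^ 2) / (2 * D) := by
    rw [← Finset.sum_div, ← Finset.mul_sum]
  have hW : (∑ i, W i ^ 2) / (2 * D * (N * (1 - ε))) = (∑ i, Q i ^ 2) / (2 * D * (1 - ε)) := by
    simp only [W, mul_pow, Real.sq_sqrt hN'.le, ← Finset.mul_sum]
    field_simp
  have hSq : 0 ≤ ∑ i, Q i ^ 2 := Finset.sum_nonneg fun i _ => sq_nonneg _
  have he : 0 < 1 - ε := by linarith
  have hcoef : t * (∑ i, Q i ^ 2) / 2 + (∑ i, Q i ^ 2) / (2 * D * (1 - ε)) ≤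
      1 / (1 - ε) ^ 2 * (∑ i, Q i ^ 2) / (2 * D) := by
    rw [div_add_div _ _ two_ne_zero (by positivity), one_div_mul_eq_div, div_div,
      div_le_div_iff₀ (by positivity) (by positivity)]
    have k1 : t * D * (1 - ε) ^ 2 + (1 - ε) ≤ 1 := by
      have : t * D * (1 - ε) ^ 2 ≤ ε * 1 :=
        mul_le_mul hsmall (pow_le_one₀ he.le (by linarith)) (sq_nonneg _) hε.le
      linarith
    have k2 := mul_le_mul_of_nonneg_left k1 (mul_nonneg hSq (mul_nonneg hD.le he.le))
    linarith
  rw [hq]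
  simp only [B, gaussCost] at *
  rw [hW]
  linarith

lemma slotX_eq {P : Pts N} (δ a : ℝ) (ks : Fin T → Fin (r + 1)) (E : Fin T → Fin N → ℝ)
    (σ : Conf P) (η : Fin r → Fin T → Fin N → ℝ) :
    slotX δ a ks E σ η = ∑ i, Sphere.Up.sv σ i *
      slotArg δ a ks (fun k => E k i) fun p k => η p k i := by
  simp only [slotX, Sphere.Up.fieldX, slotArg, Finset.mul_sum]
  rw [Finset.sum_comm]
  exact Finset.sum_congr rfl fun i _ => Finset.sum_congr rfl fun k _ => by ring

lemma slotFree_nets_le {P : Pts N} (hN : 0 < N) {π : (Fin N → ℝ) → Fin N → ℝ} (hπ : Measurable π)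
    (hnear : ∀ᵐ x ∂sphereLaw N,
      Real.sqrt (∑ i, (π x i - x i / Real.sqrt N) ^ 2) ≤ Sphere.netTol N ∧ ∃ σ, π x = P.u σ)
    (hcmp : ∀ φ : (Fin N → ℝ) → ℝ, Measurable φ → (∀ v, 0 ≤ φ v) →
      (1 - Sphere.netTol N) * ∫ x, φ (π x) ∂sphereLaw N ≤ (∑ σ, φ (P.u σ)) / P.K ∧
        (∑ σ, φ (P.u σ)) / P.K ≤ (1 + Sphere.netTol N) * ∫ x, φ (π x) ∂sphereLaw N)
    {ε : ℝ} (hε : 0 < ε) (hε1 : ε < 1) (hbig : 2 * gaussC * Real.sqrt N ≤ ε * N)
    (hδ : 0 ≤ δ) (ha : 0 ≤ a) (hm : Exps m) (ks : Fin T → Fin (r + 1))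
    {Dp : Fin (r + 1) → ℝ} (hD : ∀ p, 0 < Dp p)
    (hstep : ∀ i : Fin r, Dp i.succ - Dp i.castSucc = m i *
      (slotPath (1 / (1 - ε) ^ 2 * δ) ks i.succ - slotPath (1 / (1 - ε) ^ 2 * δ) ks i.castSucc))
    (hsmall : Sphere.netTol N * Dp (Fin.last r) ≤ ε) :
    slotFree P (fun _ => 0) δ a m ks 0 (fun _ : Fin N => 0) 0 ≤
      2 + gaussCost N ε (Dp (Fin.last r)) +
        N * (slotPath (1 / (1 - ε) ^ 2 * δ) ks 0 / (2 * Dp 0) + quadConst m Dp) := by
  set s := 1 / (1 - ε) ^ 2
  have hs : 0 ≤ s := by positivity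
  set δ' := s * δ with hδ'
  set Dr := Dp (Fin.last r)
  set cst := 2 + gaussCost N ε Dr
  have hH : ∀ d : Dis N N, Sphere.totalH (P := P) (fun _ => (0 : ℝ)) 0
      (fun _ : Fin N => 0) d = fun _ => 0 := fun d => funext fun σ => by
    simp [Sphere.totalH, Sphere.pertH]
  simp only [slotFree, hH]
  rw [integral_const, probReal_univ, one_smul]
  set PL := slotLaw T N
  have hflip : MeasurePreserving (fun (x : Fin T → Fin N → ℝ) (i : Fin N) (k : Fin T) => x k i) PL
      (Measure.pi fun _ : Fin N => gam (Fin T)) :=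
    mp_flip (ι := Fin T) (κ := Fin N) (gaussianReal 0 1)
  let Z : (Fin T → Fin N → ℝ) → Fin N → (Fin r → Fin T → ℝ) → ℝ := fun E i η =>
    Real.exp (slotArg δ' a ks (fun k => E k i) η ^ 2 / (2 * Dr))
  have hZm : ∀ E i, Measurable (Z E i) := fun E i => (measurable_quadArg δ' a ks Dr).comp
    (f := fun η => (fun k => E k i, η)) (measurable_const.prodMk measurable_id)
  have hpt : ∀ E : Fin T → Fin N → ℝ, Sphere.Up.Phi PL m (slotW (P := P) δ a ks (fun _ => 0) E) ≤
      cst + ∑ i, slotQuad δ' a m ks Dr fun k => E k i := fun E => by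
    let S : (Fin r → Fin T → Fin N → ℝ) → ℝ := fun η =>
      ∑ σ, slotW (P := P) δ a ks (fun _ => 0) E σ η
    let H : (Fin r → Fin T → Fin N → ℝ) → ℝ := fun η => ∏ i, Z E i fun p k => η p k i
    have hY : Measurable fun η : Fin r → Fin N → Fin T → ℝ => ∏ i, Z E i fun p => η p i :=
      Finset.measurable_prod _ fun i _ => (hZm E i).comp
        (measurable_pi_lambda _ fun p => (measurable_pi_apply i).comp (measurable_pi_apply p))
    have hfl : Measurable fun (η : Fin r → Fin T → Fin N → ℝ) (p : Fin r) (i : Fin N) (k : Fin T) =>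
        η p k i := measurable_pi_lambda _ fun p => measurable_pi_lambda _ fun i =>
      measurable_pi_lambda _ fun k =>
        (measurable_pi_apply i).comp ((measurable_pi_apply k).comp (measurable_pi_apply p))
    have hHm : Measurable H := hY.comp hfl
    have hHb : ∀ η, 1 ≤ H η ∧
        H η ≤ Real.exp ((Real.sqrt δ' * (T * a)) ^ 2 / (2 * Dr)) ^ N := fun η => by
      simp only [H, Z]
      refine ⟨Finset.one_le_prod fun i _ => (quadArg_mem ha ks (hD _) _ _).1, ?_⟩
      exact (Finset.prod_le_prod (fun i _ => (Real.exp_pos _).le) fun i _ =>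
        (quadArg_mem ha ks (hD _) _ _).2).trans_eq (by simp [Dr])
    have hS : ∀ η, S η = (∑ σ : Conf P, Real.exp (∑ i, Sphere.Up.sv σ i *
        slotArg δ a ks (fun k => E k i) fun p k => η p k i)) / P.K := fun η => by
      simp only [S, slotW, zero_add, slotX_eq, ← Finset.sum_div]
    have hSpos : ∀ η, 0 < S η := fun η => by
      rw [hS]
      exact div_pos (Sphere.Main.sum_exp_pos _) (Sphere.Main.K_pos P)
    have hSm : Measurable S := Finset.measurable_sum _ fun σ _ =>
      (((measurable_slotX δ a ks σ).comp measurable_prodMk_left).const_add _).exp.div_const _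
    have hG : ∀ η, Real.exp (-cst) * S η ≤ H η := fun η => by
      rw [hS, ← le_div_iff₀' (Real.exp_pos _)]
      refine (nets_laplace hN hπ hnear hcmp hε hε1 (hD _) hbig hsmall _).trans_eq ?_
      rw [Real.exp_neg, div_inv_eq_mul, mul_comm]
      congr 1
      refine Finset.prod_congr rfl fun i _ => ?_
      simp only [Z, slotArg, hδ', Real.sqrt_mul hs, mul_assoc, mul_pow (Real.sqrt s),
        Real.sq_sqrt hs]
      rfl
    have h1 : genNested PL m H = ∏ i, genNested (gam (Fin T)) m (Z E i) := by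
      refine (genNested_map PL (Measure.pi fun _ : Fin N => gam (Fin T)) hflip m _ hY).trans ?_
      exact Up.genNested_pi (gam (Fin T)) m hm.pos N (Z E) (hZm E) fun i η => (Real.exp_pos _).le
    have h2 := Sphere.Up.genNested_le PL m hm.pos (fun η => Real.exp (-cst) * S η) H
      (hSm.const_mul _) hHm hHb (fun η => mul_nonneg (Real.exp_pos _).le (hSpos η).le) hG
    rw [genNested_const_mul _ (Real.exp_pos _).le m hm.pos S fun η => (hSpos η).le, h1] at h2
    have hb := Sphere.Up.bdd_sum (wbdd_slotW (P := P) (f := fun _ => (0 : ℝ)) (s := 0)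
      (x := fun _ : Fin N => (0 : ℝ)) (δ := δ) ha ks ((0, fun _ => 0, fun _ => 0) : Dis N N) E)
    have hSg : 0 < genNested PL m S := by
      have h := (inv_pos.2 hb.pos).trans_le
        (Vale.Agent.P168.Cascade.genNested_mem PL hb.pos hm hb.meas hb.mem).1
      simpa only [hH] using h
    have h3 := Real.log_le_log (mul_pos (Real.exp_pos _) hSg) h2
    rw [Real.log_mul (Real.exp_pos _).ne' hSg.ne', Real.log_exp,
      Real.log_prod fun i _ => (one_pos.trans_le (slotQuad_mem ha hm ks (hD _) _).1).ne'] at h3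
    show Real.log (genNested PL m S) ≤ _
    simp only [slotQuad]
    linarith
  have hT : ∀ i : Fin N, Measurable fun E : Fin T → Fin N → ℝ => fun k => E k i := fun i =>
    measurable_pi_lambda _ fun k => (measurable_pi_apply i).comp (measurable_pi_apply k)
  have hisum := integrable_finsetSum Finset.univ fun i (_ : i ∈ Finset.univ) =>
    integrable_slotQuad (δ := δ') ha hm ks (hD (Fin.last r)) PL (hT i)
  have hiL : Integrable (fun E => Sphere.Up.Phi PL m (slotW (P := P) δ a ks (fun _ => 0) E)) PL := by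
    have hs0 : Smooth (fun _ : ℝ => (0 : ℝ)) 0 := ⟨differentiable_const 0, by simp, by simp,
      fun z => by simp, fun z => by simp, fun z => by simp, fun z => by simp⟩
    have hconst : Measurable fun E : Fin T → Fin N → ℝ =>
        (((0, fun _ => 0, fun _ => 0) : Dis N N), E) := measurable_const.prodMk measurable_id
    refine Up.integrable_bdd (C := expBd P (fun _ : ℝ => (0 : ℝ)) δ a T 0 (fun _ : Fin N => (0 : ℝ))
      ((0, fun _ => 0, fun _ => 0) : Dis N N)) ?_ fun E => ?_
    · simpa only [slotPhi, hH, Function.comp_def] using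
        (measurable_slotPhi (P := P) hs0 δ a m ks 0 (fun _ : Fin N => (0 : ℝ))).comp hconst
    · simpa only [slotPhi, hH] using abs_slotPhi_le (P := P) (f := fun _ : ℝ => (0 : ℝ)) (δ := δ)
        (s := 0) (x := fun _ : Fin N => (0 : ℝ)) ha hm ks
        (((0, fun _ => 0, fun _ => 0) : Dis N N), E)
  refine (integral_mono hiL ((integrable_const cst).add hisum) hpt).trans ?_
  simp only [Pi.add_apply]
  rw [integral_add (integrable_const cst) hisum, integral_const, probReal_univ, one_smul,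
    integral_finsetSum _ fun i _ => integrable_slotQuad ha hm ks (hD _) PL (hT i)]
  have hi : ∀ i : Fin N, ∫ E, slotQuad δ' a m ks (Dp (Fin.last r)) (fun k => E k i) ∂PL =
      ∫ e, slotQuad δ' a m ks (Dp (Fin.last r)) e ∂gam (Fin T) := fun i =>
    integral_mp ((measurePreserving_eval (fun _ : Fin N => gam (Fin T)) i).comp hflip)
      (measurable_slotQuad δ' a m ks (Dp (Fin.last r)))
  simp only [hi, Finset.sum_const, Finset.card_univ, Fintype.card_fin, nsmul_eq_mul]
  exact add_le_add le_rfl (mul_le_mul_of_nonneg_left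
    (integral_slotQuad_le (mul_nonneg hs hδ) ha hm ks hD hstep) (Nat.cast_nonneg N))

lemma gap_pos_init {r : ℕ} {m : Fin r → ℝ} {q : Fin (r + 1) → ℝ} (hq : IsPath m q)
    (hlt : q (Fin.last r) < 1) : 0 < gap m q 0 := by
  refine add_pos_of_pos_of_nonneg (sub_pos.2 hlt) (Finset.sum_nonneg fun i _ => ?_)
  exact ite_nonneg (mul_nonneg (hq.pos i).le (sub_nonneg.2 (hq.mono Fin.castSucc_lt_succ.le))) le_rfl

/-- Module U of the sphere. -/
theorem init_sphere (hE : EntropyStmt) : InitSphereStmt := by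
  intro P hP r m q hq hlt η hη R
  have hm : Exps m := ⟨hq.pos, hq.lt_one, hq.strictMono⟩
  have hg := gap_pos_init hq hlt
  set Dmax := 1 / gap m q 0 + 4 * |R|
  have hDmax : 0 < Dmax := by positivity
  set ε := min (1 / 4) (η / (4 * (8 * |R| + 1 + Dmax))) with hε_def
  have hε : 0 < ε := lt_min (by norm_num) (by positivity)
  have hε4 : ε ≤ 1 / 4 := min_le_left _ _
  have hεη : ε * (4 * (8 * |R| + 1 + Dmax)) ≤ η :=
    (le_div_iff₀ (by positivity)).1 (min_le_right _ _)
  obtain ⟨n₀, hn₀⟩ := (Filter.eventually_atTop.1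
    (Up.tendsto_svar.eventually (eventually_gt_nhds (show 1 - η / (2 * (|R| + 1)) < 1 by
      have : 0 < η / (2 * (|R| + 1)) := by positivity
      linarith))))
  refine ⟨n₀, fun a ha' => ?_⟩
  have ha : 0 ≤ a := (Nat.cast_nonneg _).trans ha'
  have hsv : 1 - η / (2 * (|R| + 1)) ≤ svar a :=
    (hn₀ n₀ le_rfl).le.trans (svar_mono (Nat.cast_nonneg _) ha')
  filter_upwards [Filter.eventually_gt_atTop 0,
    eventually_ge_atTop ⌈(2 * gaussC / ε) ^ 2⌉₊, eventually_ge_atTop ⌈Dmax / ε⌉₊,
    eventually_ge_atTop ⌈(2 + Real.log 2) * 4 / η⌉₊] with N hN hN1 hN2 hN3 T ks δ hδ hδT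
  obtain ⟨π, hπ, hnear, hcmp⟩ := hP N hN
  have hNr : (0 : ℝ) < N := Nat.cast_pos.2 hN
  have hbig : 2 * gaussC * Real.sqrt N ≤ ε * N := by
    have h1 : 2 * gaussC / ε ≤ Real.sqrt N := Real.le_sqrt_of_sq_le (Nat.ceil_le.1 hN1)
    rw [div_le_iff₀ hε] at h1
    have := mul_le_mul_of_nonneg_right h1 (Real.sqrt_nonneg (N : ℝ))
    rw [mul_assoc (Real.sqrt N), mul_comm ε, ← mul_assoc, Real.mul_self_sqrt hNr.le] at this
    linarith
  have hND : Dmax ≤ ε * N := by
    have := (div_le_iff₀ hε).1 (Nat.ceil_le.1 hN2)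
    linarith
  have hN4 : (2 + Real.log 2) * 4 ≤ N * η := (div_le_iff₀ hη).1 (Nat.ceil_le.1 hN3)
  set s := 1 / (1 - ε) ^ 2
  have he : 0 < 1 - ε := by linarith
  have hs : s ≤ 1 + 8 * ε := by
    rw [div_le_iff₀ (by positivity)]
    nlinarith [sq_nonneg ε]
  have hs1 : 1 ≤ s := by
    rw [le_div_iff₀ (by positivity), one_mul]
    exact pow_le_one₀ he.le (by linarith)
  have hδ' : 0 ≤ s * δ := mul_nonneg (by linarith) hδ
  set ρ := slotPath (s * δ) ks with hρdef
  have hρ : IsFieldPath m ρ := ⟨hq.pos, hq.lt_one, hq.strictMono,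
    fun p p' hp => mul_le_mul_of_nonneg_left
      (Finset.sum_le_sum fun t _ => slotDir_mono _ hp) hδ',
    mul_nonneg hδ' (Finset.sum_nonneg fun t _ => slotDir_nonneg _ _)⟩
  obtain ⟨D, hD, hDr, hstep, hent⟩ := hE r m q hq hlt ρ hρ
  have hlast : ρ (Fin.last r) = s * δ * T := by simp [hρdef, slotPath, slotDir_last]
  have hδT0 : 0 ≤ δ * T := mul_nonneg hδ (Nat.cast_nonneg T)
  have hRT : δ * T ≤ |R| := hδT.trans (le_abs_self R)
  have hDle : D (Fin.last r) ≤ Dmax := by
    refine hDr.trans (add_le_add le_rfl ?_)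
    rw [hlast, mul_assoc]
    exact mul_le_mul (hs.trans (by linarith)) hRT hδT0 (by norm_num)
  have hsmall : Sphere.netTol N * D (Fin.last r) ≤ ε := by
    have hN1' : (1 : ℝ) ≤ N := by exact_mod_cast hN
    rw [Sphere.netTol, div_mul_eq_mul_div, one_mul, div_le_iff₀ (by positivity)]
    refine (hDle.trans hND).trans (mul_le_mul_of_nonneg_left ?_ hε.le)
    exact le_trans (by linarith) (le_self_pow₀ (show (1 : ℝ) ≤ N + 1 by linarith) three_ne_zero)
  have h1 := slotFree_nets_le (m := m) hN hπ hnear hcmp hε (by linarith) hbig hδ ha hm ks hD hstep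
    hsmall
  have hpair : ∑ p, weight m p * ρ p * q p = s * δ * ∑ t, tailSum m q (ks t) := by
    simp only [tailSum, hρdef, slotPath, Finset.mul_sum, Finset.sum_mul]
    rw [Finset.sum_comm]
    exact Finset.sum_congr rfl fun t _ => Finset.sum_congr rfl fun p _ => by ring
  rw [hpair, hlast] at hent
  set Sq := ∑ t, tailSum m q (ks t)
  have hSq : 0 ≤ Sq := Finset.sum_nonneg fun t _ => Finset.sum_nonneg fun p _ =>
    mul_nonneg (slotDir_nonneg _ _) (mul_nonneg (Up.weight_nonneg hm p)
      (hq.nonneg.trans (hq.mono (Fin.zero_le p))))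
  have hsum : ∑ t, (tailSum m q (ks t) - 1) = Sq - T := by
    simp [Finset.sum_sub_distrib, Sq]
  rw [hsum]
  set Dr := D (Fin.last r)
  have habs : |1 - Dr| ≤ 1 + Dmax := abs_le.2 ⟨by linarith, by linarith [hD (Fin.last r)]⟩
  have hv1 := Up.svar_le_one ha
  have hk1 : (s - svar a) * (δ * T) ≤ (8 * ε + η / (2 * (|R| + 1))) * |R| :=
    mul_le_mul (by linarith) hRT hδT0 (by positivity)
  have hk2 : η / (2 * (|R| + 1)) * |R| ≤ η / 2 := by
    rw [div_mul_eq_mul_div, div_le_div_iff₀ (by positivity) two_pos]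
    nlinarith [abs_nonneg R]
  have hk3 : ε * |1 - Dr| ≤ ε * (1 + Dmax) := mul_le_mul_of_nonneg_left habs hε.le
  have h3 : 0 ≤ (s - svar a) * (δ * Sq) :=
    mul_nonneg (by linarith) (mul_nonneg hδ hSq)
  have h5 : (2 + Real.log 2) / N ≤ η / 4 := by
    rw [div_le_div_iff₀ hNr (by norm_num)]
    linarith
  have h5' : 2 + Real.log 2 = N * ((2 + Real.log 2) / N) := by field_simp
  have key : (Dr - 1 - Real.log Dr) / 2 + ε * |1 - Dr| / 2 + (2 + Real.log 2) / N +
      (ρ 0 / (2 * D 0) + quadConst m D) + svar a * δ / 2 * (Sq - T) ≤ entropy m q + η := by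
    linarith
  have := mul_le_mul_of_nonneg_left key hNr.le
  simp only [gaussCost] at h1
  linarith

end Vale.Agent.P157.Parisi.Full.Spherical
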