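import Vale.Agent.P157.Full.Sphere.PatParts.Fresh
import Vale.Agent.P157.Full.Sphere.PatParts.Pert

/-!
Module R3: Gaussian integration by parts in the patterns and in the perturbation.
-/

noncomputable section

open MeasureTheory ProbabilityTheory Filter
open scoped BigOperators NNReal Topology

namespace Vale.Agent.P157.Parisi.Full.Spherical

namespace PatParts

open Sphere (Pts Conf)
open Vale.Agent.P157.Parisi.Site (measurable_dot_left)
open Sphere.Site (gib rep finH headOf totalH_eq measurable_rep measurable_finH abs_rep_le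
  integrand_eq integral_fin_one measurable_headOf_apply)
open Vale.Agent.P157.Parisi.Site (patLaw abs_integral_le)
open Vale.Agent.P168.Toolkit (integrable_count integral_count_mul)
open Vale.Agent.P168.Limit (rav)

variable {N L : ℕ} {P : Pts N} {f : ℝ → ℝ} {A s : ℝ} {x : Fin L → ℝ}

/-- The disorder law against a dominated function of the patterns present. -/
lemma integral_disLaw_of_l1 {μ : ℝ} {Ψ : (m : ℕ) → (Fin m → Fin N → ℝ) × (PertIdx N L → ℝ) → ℝ}
    (hΨ : ∀ m, Measurable (Ψ m)) (hi : ∀ m, Integrable (Ψ m) (patLaw N L m)) {Bd : ℕ → ℝ}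
    (hB : ∀ m, ∫ q, |Ψ m q| ∂patLaw N L m ≤ Bd m)
    (hBi : Integrable Bd (poissonMeasure μ.toNNReal)) :
    Integrable (fun d : Dis N L => Ψ d.1 (headOf d)) (disLaw N L μ) ∧
      ∫ d : Dis N L, Ψ d.1 (headOf d) ∂disLaw N L μ =
        ∫ m, ∫ q, Ψ m q ∂patLaw N L m ∂poissonMeasure μ.toNNReal := by
  have hmp := fun m : ℕ => (Vale.Agent.P168.Limit.Cavity.measurePreserving_marginal (gam (Fin N))
    (fun i : Fin m => (i : ℕ)) Fin.val_injective).prod
    (MeasurePreserving.id (gam (PertIdx N L)))
  have hin : ∀ m : ℕ, ∀ {H : (Fin m → Fin N → ℝ) × (PertIdx N L → ℝ) → ℝ}, Measurable H →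
      ∫ z : (ℕ → Fin N → ℝ) × (PertIdx N L → ℝ), H (fun i : Fin m => z.1 i.val, z.2)
        ∂(Measure.infinitePi fun _ : ℕ => gam (Fin N)).prod (gam (PertIdx N L)) =
      ∫ q, H q ∂patLaw N L m := fun m H hH => by
    rw [patLaw, ← (hmp m).map_eq, integral_map (hmp m).measurable.aemeasurable
      hH.aestronglyMeasurable]
    rfl
  have hm := (measurable_headOf_apply hΨ).aestronglyMeasurable (μ := disLaw N L μ)
  have hint : Integrable (fun d : Dis N L => Ψ d.1 (headOf d)) (disLaw N L μ) := by
    unfold disLaw at hm ⊢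
    refine (integrable_prod_iff hm).2 ⟨ae_of_all _ fun m => (hmp m).integrable_comp_of_integrable (hi m),
      hBi.mono' hm.norm.integral_prod_right' (ae_of_all _ fun m => ?_)⟩
    rw [Real.norm_eq_abs, abs_of_nonneg (integral_nonneg fun z => norm_nonneg _)]
    exact ((hin m (hΨ m).abs)).trans_le (hB m)
  refine ⟨hint, ?_⟩
  unfold disLaw at hint ⊢
  rw [integral_prod _ hint]
  exact integral_congr_ae (ae_of_all _ fun m => hin m (hΨ m))

/-- The observable summed over the patterns present. -/
def patSum (f : ℝ → ℝ) (s : ℝ) (x : Fin L → ℝ) (P : Pts N) (k : ℕ) (m : ℕ)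
    (q : (Fin m → Fin N → ℝ) × (PertIdx N L → ℝ)) : ℝ :=
  ∑ a, rep 2 (finH f s x q) (tangObs (P := P) f k (q.1 a))

/-- The same for one fresh pattern. -/
def freshMean (f : ℝ → ℝ) (s : ℝ) (x : Fin L → ℝ) (P : Pts N) (k : ℕ) (m : ℕ) : ℝ :=
  ∫ q, tangMean (P := P) f k (finH f s x q) ∂patLaw N L m

lemma abs_patSum_le (hf : Smooth f A) (k m : ℕ) (q : (Fin m → Fin N → ℝ) × (PertIdx N L → ℝ)) :
    |patSum f s x P k m q| ≤ ∑ a, 2 * A * coordAbs (q.1 a) :=
  (Finset.abs_sum_le_sum_abs _ _).trans
    (Finset.sum_le_sum fun a _ => abs_rep_le _ (abs_tangObs_le hf k (q.1 a)))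

lemma measurable_patSum (hf : Smooth f A) (k m : ℕ) :
    Measurable (patSum f s x P k m) :=
  Finset.measurable_sum _ fun a _ => measurable_rep (measurable_finH hf.continuous) fun σ =>
    (measurable_tangObs hf k σ).comp ((measurable_pi_apply a).comp measurable_fst)

lemma integrable_patBound (m : ℕ) (c : ℝ) :
    Integrable (fun q : (Fin m → Fin N → ℝ) × (PertIdx N L → ℝ) => ∑ a, c * coordAbs (q.1 a))
      (patLaw N L m) :=
  integrable_finsetSum _ fun a _ => (((measurePreserving_eval (fun _ : Fin m => gam (Fin N)) a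
    ).integrable_comp_of_integrable integrable_coordAbs).comp_fst _).const_mul _

lemma integral_patBound (m : ℕ) (c : ℝ) :
    ∫ q : (Fin m → Fin N → ℝ) × (PertIdx N L → ℝ), ∑ a, c * coordAbs (q.1 a) ∂patLaw N L m =
      m * (c * ∫ g, coordAbs g ∂gam (Fin N)) := by
  have hi : ∀ a : Fin m, Integrable
      (fun q : (Fin m → Fin N → ℝ) × (PertIdx N L → ℝ) => coordAbs (q.1 a))
      ((Measure.pi fun _ : Fin m => gam (Fin N)).prod (gam (PertIdx N L))) := fun a =>
    ((measurePreserving_eval (fun _ : Fin m => gam (Fin N)) a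
      ).integrable_comp_of_integrable integrable_coordAbs).comp_fst (gam (PertIdx N L))
  rw [patLaw, integral_finsetSum _ fun a _ => (hi a).const_mul c]
  have h : ∀ a : Fin m, ∫ q : (Fin m → Fin N → ℝ) × (PertIdx N L → ℝ), c * coordAbs (q.1 a)
      ∂(Measure.pi fun _ : Fin m => gam (Fin N)).prod (gam (PertIdx N L)) =
      c * ∫ g, coordAbs g ∂gam (Fin N) := fun a => by
    rw [integral_const_mul,
      integral_fun_fst (fun c' : Fin m → Fin N → ℝ => coordAbs (c' a)),
      integral_comp_eval (μ := fun _ : Fin m => gam (Fin N)) (f := coordAbs)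
        measurable_coordAbs.aestronglyMeasurable]
    simp
  simp [h]

/-- Each pattern is a fresh pattern for the others. -/
lemma integral_patSum_succ (hf : Smooth f A) (k m : ℕ) :
    ∫ q, patSum f s x P k (m + 1) q ∂patLaw N L (m + 1) =
      ((m : ℝ) + 1) * freshMean f s x P k m := by
  have hia : ∀ a : Fin (m + 1), Integrable
      (fun q : (Fin (m + 1) → Fin N → ℝ) × (PertIdx N L → ℝ) =>
        rep 2 (finH f s x q) (tangObs (P := P) f k (q.1 a))) (patLaw N L (m + 1)) := fun a => by
    refine ((((measurePreserving_eval (fun _ : Fin (m + 1) => gam (Fin N)) a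
      ).integrable_comp_of_integrable integrable_coordAbs).comp_fst _).const_mul (2 * A)).mono'
      (measurable_rep (measurable_finH hf.continuous) fun σ => (measurable_tangObs hf k σ).comp
        ((measurable_pi_apply a).comp measurable_fst)).aestronglyMeasurable (ae_of_all _ fun q => ?_)
    rw [Real.norm_eq_abs]
    exact abs_rep_le _ (abs_tangObs_le hf k (q.1 a))
  set G : (Fin N → ℝ) × ((Fin m → Fin N → ℝ) × (PertIdx N L → ℝ)) → ℝ := fun z =>
    rep 2 (addPat f (finH (P := P) f s x z.2) z.1) (tangObs f k z.1) with hG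
  have hGm : Measurable G := measurable_rep
    (fun σ => ((measurable_finH hf.continuous σ).comp measurable_snd).add
      (hf.continuous.measurable.comp ((measurable_dot_left _).comp measurable_fst)))
    fun σ => (measurable_tangObs hf k σ).comp measurable_fst
  have hGi : Integrable G ((gam (Fin N)).prod (patLaw N L m)) :=
    ((integrable_coordAbs.comp_fst _).const_mul (2 * A)).mono' hGm.aestronglyMeasurable
      (ae_of_all _ fun z => by
        rw [Real.norm_eq_abs]; exact abs_rep_le _ (abs_tangObs_le hf k z.1))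
  have hone : ∀ a : Fin (m + 1),
      ∫ q, rep 2 (finH f s x q) (tangObs (P := P) f k (q.1 a)) ∂patLaw N L (m + 1) =
        freshMean f s x P k m := by
    intro a
    have h1 := (measurePreserving_piFinSuccAbove (fun _ : Fin (m + 1) => gam (Fin N)) a).prod
      (MeasurePreserving.id (gam (PertIdx N L)))
    have h2 := measurePreserving_prodAssoc (gam (Fin N)) (Measure.pi fun _ : Fin m => gam (Fin N))
      (gam (PertIdx N L))
    have hmp : MeasurePreserving
        (fun q : (Fin (m + 1) → Fin N → ℝ) × (PertIdx N L → ℝ) =>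
          ((q.1 a, ((fun j => q.1 (a.succAbove j)), q.2)) :
            (Fin N → ℝ) × ((Fin m → Fin N → ℝ) × (PertIdx N L → ℝ))))
        (patLaw N L (m + 1)) ((gam (Fin N)).prod (patLaw N L m)) := h2.comp h1
    have e : ∀ q : (Fin (m + 1) → Fin N → ℝ) × (PertIdx N L → ℝ),
        rep 2 (finH f s x q) (tangObs (P := P) f k (q.1 a)) =
          G (q.1 a, ((fun j => q.1 (a.succAbove j)), q.2)) := fun q => by
      simp only [hG]
      congr 1
      funext σ
      simp only [addPat, finH, Fin.sum_univ_succAbove _ a]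
      ring
    simp only [e]
    rw [freshMean]
    refine Eq.trans ?_ ((integral_map hmp.measurable.aemeasurable
      (by rw [hmp.map_eq]; exact hGm.aestronglyMeasurable)).symm.trans
        ((congrArg (fun ν => ∫ y, G y ∂ν) hmp.map_eq).trans (integral_prod_symm _ hGi)))
    rfl
  simp only [patSum]
  rw [integral_finsetSum _ fun a _ => hia a]
  simp [hone]

/-- The pattern part of the mean of the tangential derivative. -/
theorem integral_patSum (hf : Smooth f A) (hN : 0 < N) (k : ℕ) {μ : ℝ} (hμ : 0 ≤ μ) :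
    Integrable (fun d : Dis N L => patSum f s x P k d.1 (headOf d)) (disLaw N L μ) ∧
      ∫ d : Dis N L, patSum f s x P k d.1 (headOf d) ∂disLaw N L μ =
        μ * ∫ m, freshMean f s x P k m ∂poissonMeasure μ.toNNReal := by
  obtain ⟨h1, h2⟩ := integral_disLaw_of_l1 (μ := μ) (measurable_patSum (P := P) (s := s) (x := x) hf k)
    (fun m => (integrable_patBound m (2 * A)).mono' (measurable_patSum hf k m).aestronglyMeasurable
      (ae_of_all _ fun q => abs_patSum_le hf k m q))
    (Bd := fun m => (m : ℝ) * (2 * A * ∫ g, coordAbs g ∂gam (Fin N))) (fun m => by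
      refine (integral_mono_of_nonneg (ae_of_all _ fun q => abs_nonneg _)
        (integrable_patBound m (2 * A)) (ae_of_all _ fun q => abs_patSum_le hf k m q)).trans_eq ?_
      exact integral_patBound m (2 * A))
    ((integrable_count _).mul_const _)
  refine ⟨h1, h2.trans ?_⟩
  set h : ℕ → ℝ := fun m => freshMean f s x P k (m - 1) with hh
  have e : ∀ m, ∫ q, patSum f s x P k m q ∂patLaw N L m = (m : ℝ) * h m := by
    rintro (_ | m)
    · simp [patSum]
    · rw [integral_patSum_succ hf, hh]; push_cast; rfl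
  simp only [e]
  rw [integral_count_mul (f := h) (Integrable.of_bound Measurable.of_discrete.aestronglyMeasurable
    (6 * (A * A)) (ae_of_all _ fun m => abs_integral_le fun q => abs_tangMean_le hf hN k _)),
    Real.coe_toNNReal _ hμ]
  rfl

/-- One fresh pattern of a replica mean. -/
lemma patMean_one_fresh (hf : Continuous f) (μ : ℝ) {n : ℕ} (F : (Fin n → Fin n → ℝ) → ℝ) (a b : Fin n)
    {h h' : ℝ → ℝ} (hh : Continuous h) (hh' : Continuous h') {B : ℝ}
    (hb : ∀ (σ : Fin n → Conf P) (y y' : ℝ), |F (Sphere.overlaps σ) * (h y * h' y')| ≤ B) :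
    (Sphere.sysState P f s x μ).patMean f F (fun _ : Fin 1 => (⟨a, b, h, h'⟩ : Obs n)) =
      ∫ m, ∫ q, (∫ g, rep n (addPat f (finH f s x q) g) (fun σ : Fin n → Conf P =>
          F (Sphere.overlaps σ) * (h (dot g (Sphere.unitVec (σ a))) * h' (dot g (Sphere.unitVec (σ b))))) ∂gam (Fin N))
        ∂patLaw N L m ∂poissonMeasure μ.toNNReal := by
  set Φ : (Fin N → ℝ) → (Fin n → Conf P) → ℝ := fun g σ =>
    F (Sphere.overlaps σ) * (h (dot g (Sphere.unitVec (σ a))) * h' (dot g (Sphere.unitVec (σ b)))) with hΦ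
  set Ψ : (m : ℕ) → (Fin m → Fin N → ℝ) × (PertIdx N L → ℝ) → ℝ := fun m q =>
    ∫ g, rep n (addPat f (finH f s x q) g) (Φ g) ∂gam (Fin N)
  have hΨ : ∀ m, Measurable (Ψ m) := fun m =>
    (StronglyMeasurable.integral_prod_right' (f := fun z :
      ((Fin m → Fin N → ℝ) × (PertIdx N L → ℝ)) × (Fin N → ℝ) =>
        rep n (addPat f (finH f s x z.1) z.2) (Φ z.2))
      (measurable_rep (fun σ => ((measurable_finH hf σ).comp measurable_fst).add
        (hf.measurable.comp ((measurable_dot_left _).comp measurable_snd)))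
        fun σ => ((hh.measurable.comp ((measurable_dot_left _).comp measurable_snd)).mul
          (hh'.measurable.comp ((measurable_dot_left _).comp measurable_snd))).const_mul _
        ).stronglyMeasurable).measurable
  refine Eq.trans ?_ (Sphere.Site.integral_disLaw hΨ (Bd := fun _ => B)
    (fun m q => abs_integral_le fun g => abs_rep_le _ fun σ => hb σ _ _) (integrable_const B)).2
  refine integral_congr_ae (ae_of_all _ fun d => ?_)
  show (∫ g : Fin 1 → Fin N → ℝ, (∑ σ : Fin n → Conf P,
      (∏ l, gib (Sphere.totalH f s x d : Conf P → ℝ) (σ l) *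
        Real.exp (∑ j, f (dot (g j) (Sphere.unitVec (σ l))))) *
          (F (Sphere.overlaps σ) * ∏ j : Fin 1,
            (⟨a, b, h, h'⟩ : Obs n).eval fun l => dot (g j) (Sphere.unitVec (σ l)))) /
      (∑ σ : Conf P, gib (Sphere.totalH f s x d : Conf P → ℝ) σ *
        Real.exp (∑ j, f (dot (g j) (Sphere.unitVec σ)))) ^ n ∂(Measure.pi fun _ => gam (Fin N))) = _
  refine Eq.trans ?_ (integral_fin_one fun g => rep n (addPat f (finH f s x (headOf d)) g) (Φ g))
  refine integral_congr_ae (ae_of_all _ fun g => ?_)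
  beta_reduce
  rw [integrand_eq]
  simp only [Fin.sum_univ_one, Fin.prod_univ_one, Obs.eval, hΦ]
  exact congrArg (fun E : Conf P → ℝ => rep n (addPat f E (g 0)) _) (Sphere.Site.totalH_eq f s x d)

/-- The bracket is the mean of the fresh pattern. -/
theorem bracket_eq (hf : Smooth f A) (hN : 0 < N) (μ : ℝ) (k : ℕ) :
    (Sphere.sysState P f s x μ).patMean f (pairFun k)
        (fun _ : Fin 1 => (⟨0, 1, deriv f, deriv f⟩ : Obs 2)) -
      2 * (Sphere.sysState P f s x μ).patMean f (tripleFun k)
        (fun _ : Fin 1 => (⟨0, 2, deriv f, deriv f⟩ : Obs 3)) =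
      ∫ m, freshMean f s x P k m ∂poissonMeasure μ.toNNReal := by
  have hA : 0 ≤ A := (abs_nonneg _).trans (hf.b1 0)
  have hdd : ∀ y y' : ℝ, |deriv f y * deriv f y'| ≤ A * A := fun y y' => by
    rw [abs_mul]; exact mul_le_mul (hf.b1 _) (hf.b1 _) (abs_nonneg _) hA
  have hR : ∀ {n : ℕ} (σ : Fin n → Conf P) (i j : Fin n), |Sphere.overlaps σ i j| ≤ 1 :=
    fun σ i j => Sphere.Site.abs_overlap_le _ _
  have e2 := patMean_one_fresh (P := P) (s := s) (x := x) hf.continuous μ (pairFun k) 0 1
    hf.d1.continuous hf.d1.continuous (B := (1 * 2) * (A * A)) fun σ y y' => by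
      rw [abs_mul]
      refine mul_le_mul ?_ (hdd y y') (abs_nonneg _) (by norm_num)
      rw [pairFun, abs_mul, abs_pow]
      refine mul_le_mul (pow_le_one₀ (abs_nonneg _) (hR σ 0 1)) ((abs_sub _ _).trans ?_)
        (abs_nonneg _) zero_le_one
      rw [abs_one, abs_pow]
      linarith [pow_le_one₀ (abs_nonneg _) (hR σ 0 1) (n := 2)]
  have e3 := patMean_one_fresh (P := P) (s := s) (x := x) hf.continuous μ (tripleFun k) 0 2
    hf.d1.continuous hf.d1.continuous (B := (1 * 2) * (A * A)) fun σ y y' => by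
      rw [abs_mul]
      refine mul_le_mul ?_ (hdd y y') (abs_nonneg _) (by norm_num)
      rw [tripleFun, abs_mul, abs_pow]
      refine mul_le_mul (pow_le_one₀ (abs_nonneg _) (hR σ 0 1)) ((abs_sub _ _).trans ?_)
        (abs_nonneg _) zero_le_one
      rw [abs_mul]
      linarith [hR σ 1 2, mul_le_one₀ (hR σ 0 1) (abs_nonneg _) (hR σ 0 2)]
  set I2 : (m : ℕ) → (Fin m → Fin N → ℝ) × (PertIdx N L → ℝ) → ℝ := fun m q =>
    ∫ g, rep 2 (addPat f (finH (P := P) f s x q) g) (obsTwo f k g) ∂gam (Fin N)
  set I3 : (m : ℕ) → (Fin m → Fin N → ℝ) × (PertIdx N L → ℝ) → ℝ := fun m q =>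
    ∫ g, rep 3 (addPat f (finH (P := P) f s x q) g) (obsThree f k g) ∂gam (Fin N)
  have b2 : ∀ m q, |I2 m q| ≤ 2 * (A * A) := fun m q =>
    abs_integral_le fun g => abs_rep_le _ (abs_obsTwo_le hf k g)
  have b3 : ∀ m q, |I3 m q| ≤ 2 * (A * A) := fun m q =>
    abs_integral_le fun g => abs_rep_le _ (abs_obsThree_le hf k g)
  have m2 : ∀ m, Measurable (I2 m) := fun m =>
    (StronglyMeasurable.integral_prod_right' (f := fun z :
      ((Fin m → Fin N → ℝ) × (PertIdx N L → ℝ)) × (Fin N → ℝ) =>
        rep 2 (addPat f (finH (P := P) f s x z.1) z.2) (obsTwo f k z.2))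
      (measurable_rep (fun σ => ((measurable_finH hf.continuous σ).comp measurable_fst).add
        (hf.continuous.measurable.comp ((measurable_dot_left _).comp measurable_snd)))
        fun σ => (measurable_obsTwo hf k σ).comp measurable_snd).stronglyMeasurable).measurable
  have m3 : ∀ m, Measurable (I3 m) := fun m =>
    (StronglyMeasurable.integral_prod_right' (f := fun z :
      ((Fin m → Fin N → ℝ) × (PertIdx N L → ℝ)) × (Fin N → ℝ) =>
        rep 3 (addPat f (finH (P := P) f s x z.1) z.2) (obsThree f k z.2))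
      (measurable_rep (fun σ => ((measurable_finH hf.continuous σ).comp measurable_fst).add
        (hf.continuous.measurable.comp ((measurable_dot_left _).comp measurable_snd)))
        fun σ => (measurable_obsThree hf k σ).comp measurable_snd).stronglyMeasurable).measurable
  have j2 : Integrable (fun m => ∫ q, I2 m q ∂patLaw N L m) (poissonMeasure μ.toNNReal) :=
    Integrable.of_bound Measurable.of_discrete.aestronglyMeasurable (2 * (A * A))
      (ae_of_all _ fun m => abs_integral_le (b2 m))
  have j3 : Integrable (fun m => ∫ q, I3 m q ∂patLaw N L m) (poissonMeasure μ.toNNReal) :=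
    Integrable.of_bound Measurable.of_discrete.aestronglyMeasurable (2 * (A * A))
      (ae_of_all _ fun m => abs_integral_le (b3 m))
  rw [e2, e3]
  show (∫ m, ∫ q, I2 m q ∂patLaw N L m ∂poissonMeasure μ.toNNReal) -
    2 * ∫ m, ∫ q, I3 m q ∂patLaw N L m ∂poissonMeasure μ.toNNReal = _
  rw [← integral_const_mul, ← integral_sub j2 (j3.const_mul 2)]
  refine integral_congr_ae (ae_of_all _ fun m => ?_)
  rw [freshMean]
  simp only [tangMean_eq hf hN]
  rw [← integral_const_mul]
  exact (integral_sub (integrable_of_abs_le (m2 m) (b2 m))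
    ((integrable_of_abs_le (m3 m) (b3 m)).const_mul 2)).symm

/-- The mean of the tangential derivative, split. -/
theorem gradMean_eq (hf : Smooth f A) (hN : 0 < N) (k : ℕ) {μ : ℝ} (hμ : 0 ≤ μ) :
    gradMean P f s x μ k =
      μ * ((Sphere.sysState P f s x μ).patMean f (pairFun k)
          (fun _ : Fin 1 => (⟨0, 1, deriv f, deriv f⟩ : Obs 2)) -
        2 * (Sphere.sysState P f s x μ).patMean f (tripleFun k)
          (fun _ : Fin 1 => (⟨0, 2, deriv f, deriv f⟩ : Obs 3))) +
      pertPart P f s μ x k := by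
  obtain ⟨hi, he⟩ := integral_patSum (P := P) (s := s) (x := x) hf hN k hμ
  rw [bracket_eq hf hN, ← he, pertPart, ← integral_add hi
    (integrable_finsetSum _ fun c _ => Sphere.Perturb.integrable_coord_rav hf.continuous c 2 _)]
  refine integral_congr_ae (ae_of_all _ fun d => ?_)
  have hr : ∀ Φ : (Fin 2 → Conf P) → ℝ, rav 2 (Sphere.totalH (P := P) f s x d) Φ =
      ∑ σ, ∑ τ, gib (Sphere.totalH f s x d) σ * gib (Sphere.totalH f s x d) τ * Φ ![σ, τ] := fun Φ =>
    (show rav 2 (Sphere.totalH (P := P) f s x d) Φ = rep 2 (Sphere.totalH f s x d) Φ from rfl).trans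
      (rep_two _ Φ)
  simp only [patSum, rep_two, ← totalH_eq, hr]
  show ∑ σ, ∑ τ, gib (Sphere.totalH f s x d : Conf P → ℝ) σ * gib (Sphere.totalH f s x d) τ *
    (Sphere.overlap σ τ ^ k * tangGrad f s x d σ τ) = _
  conv_rhs => rw [Finset.sum_comm]
  simp only [Finset.mul_sum]
  conv_rhs => arg 2; rw [Finset.sum_comm]
  simp only [← Finset.sum_add_distrib]
  refine Finset.sum_congr rfl fun σ _ => ?_
  conv_rhs => arg 1; rw [Finset.sum_comm]
  conv_rhs => arg 2; rw [Finset.sum_comm]
  rw [← Finset.sum_add_distrib]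
  refine Finset.sum_congr rfl fun τ _ => ?_
  simp only [tangGrad, tangObs, pertObs, headOf, Finset.sum_range, Matrix.cons_val_zero,
    Matrix.cons_val_one, mul_add, Finset.mul_sum]
  congr 1
  exact Finset.sum_congr rfl fun a _ => by ring_nf

end PatParts

open PatParts in
/-- Module R3. -/
theorem patParts_stmt : PatPartsStmt := by
  intro α A C f _ hf P k ε hε
  have hlim : Tendsto (fun N : ℕ => 32 * (N : ℝ) ^ (-(1 / 4 : ℝ))) atTop (𝓝 0) := by
    simpa using ((tendsto_rpow_neg_atTop (by norm_num : (0 : ℝ) < 1 / 4)).comp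
      tendsto_natCast_atTop_atTop).const_mul 32
  filter_upwards [hlim.eventually (eventually_le_nhds hε), eventually_gt_atTop 0]
    with N h1 hN μ hμ0 _ x hx
  have hN0 : (0 : ℝ) < N := Nat.cast_pos.2 hN
  set b := (Sphere.sysState (P N) f (scale N) x μ).patMean f (pairFun k)
      (fun _ : Fin 1 => (⟨0, 1, deriv f, deriv f⟩ : Obs 2)) -
    2 * (Sphere.sysState (P N) f (scale N) x μ).patMean f (tripleFun k)
      (fun _ : Fin 1 => (⟨0, 2, deriv f, deriv f⟩ : Obs 3))
  have hg := gradMean_eq (P := P N) (s := scale N) (x := x) hf hN k hμ0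
  rw [hg]
  have e : (μ * b + pertPart (P N) f (scale N) μ x k) / N - μ / N * b =
      pertPart (P N) f (scale N) μ x k / N := by ring
  rw [e, abs_div, abs_of_pos hN0]
  refine le_trans ?_ h1
  refine (div_le_div_of_nonneg_right (abs_pertPart_le hf.continuous hx k) hN0.le).trans_eq ?_
  rw [show scale N ^ 2 = (N : ℝ) ^ (3 / 4 : ℝ) by
    rw [scale, ← Real.rpow_natCast, ← Real.rpow_mul N.cast_nonneg]; norm_num, show -(1 / 4 : ℝ) = 3 / 4 - 1 by norm_num, Real.rpow_sub_one hN0.ne']
  ring

end Vale.Agent.P157.Parisi.Full.Spherical
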