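import Vale.Agent.P157.Full.Sphere.Gap
import Vale.Agent.P157.Parisi.ModA.Slope

/-!
The bracket of the stationarity equation on a cascade: the law of three replicas.
-/

noncomputable section

open MeasureTheory ProbabilityTheory Finset
open scoped BigOperators

namespace Vale.Agent.P157.Parisi.Full.Spherical

open Vale.Agent.P168 (Shape shapeProb padded shapeClass shapeRep)
open Vale.Agent.P168.Cascade (IsTree attach reps kids coef mem_class isTree_of_prob)

variable {r : ℕ}

lemma class_two {u : Shape r 2} (hu : IsTree u) (l : ℕ) (a : Fin 2) :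
    shapeClass u l a = if l ≤ (u 0 1).val then univ else {a} := by
  ext b
  rw [mem_class]
  have hr : (u 0 1).val ≤ r := Nat.le_of_lt_succ (u 0 1).isLt
  by_cases hl : l ≤ (u 0 1).val
  · rw [if_pos (hl.trans hr), if_pos hl]
    fin_cases a <;> fin_cases b <;>
      simp only [Fin.zero_eta, Fin.mk_one, Finset.mem_univ, iff_true, hu.diag, hu.symm 1 0,
        Fin.val_last] <;> omega
  · rw [if_neg hl]
    by_cases hlr : l ≤ r
    · rw [if_pos hlr]
      fin_cases a <;> fin_cases b <;>
        simp [hu.diag, hu.symm 1 0, Fin.val_last, hl, hlr]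
    · rw [if_neg hlr, Finset.mem_singleton]

lemma reps_two {u : Shape r 2} (hu : IsTree u) (l : ℕ) :
    reps u l = if l ≤ (u 0 1).val then {0} else univ := by
  ext b
  simp only [reps, mem_filter, mem_univ, true_and]
  by_cases hl : l ≤ (u 0 1).val
  · rw [if_pos hl, mem_singleton,
      hu.rep_eq_iff (x := 0) (by rw [class_two hu, if_pos hl]; exact mem_univ _) fun y _ => Fin.zero_le y]
    exact eq_comm
  · rw [if_neg hl]
    simp only [mem_univ, iff_true]
    refine hu.rep_eq_iff (hu.self_mem l b) fun y hy => ?_
    rw [class_two hu, if_neg hl, mem_singleton] at hy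
    rw [hy]

lemma coef_two {u : Shape r 2} (hu : IsTree u) (m : Fin r → ℝ) (q : Fin (r + 1)) (a : Fin 2) :
    coef m u q.val a =
      weight m q + if q = u 0 1 then padded m (q.val + 1) else 0 := by
  have hk : kids u q.val a = if q = u 0 1 then 2 else 1 := by
    unfold kids
    rw [class_two hu]
    rcases lt_trichotomy q (u 0 1) with h | h | h
    · rw [if_pos (Fin.le_def.1 h.le), if_neg h.ne, show shapeClass u (q.val + 1) = fun _ => univ from
        funext fun b => by rw [class_two hu, if_pos (Nat.succ_le_of_lt (Fin.lt_def.1 h))]]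
      rw [Finset.image_const univ_nonempty, Finset.card_singleton]
    · rw [if_pos (Fin.le_def.1 h.le), if_pos h, show shapeClass u (q.val + 1) = fun b => {b} from
        funext fun b => by rw [class_two hu, if_neg (by rw [h]; omega)]]
      rw [Finset.card_image_of_injective _ (fun x y h => Finset.singleton_inj.1 h)]
      rfl
    · rw [if_neg (not_le.2 (Fin.lt_def.1 h)), if_neg h.ne', Finset.image_singleton,
        Finset.card_singleton]
  rw [coef, hk, Site.weight_eq]
  split_ifs <;> push_cast <;> ring

/-- The law of three replicas. -/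
lemma sum_shape_three (m : Fin r → ℝ) (F : Fin (r + 1) → Fin (r + 1) → Fin (r + 1) → ℝ) :
    ∑ v : Shape r 3, shapeProb m 3 v * F (v 0 1) (v 0 2) (v 1 2) =
      ∑ p, weight m p * (1 / 2 * ∑ q, if q < p then weight m q * F p q q else if q = p then
        (weight m p + padded m (p.val + 1)) * F p p p else weight m q * (F p q p + F p p q)) := by
  rw [← Finset.sum_fiberwise (Finset.univ) Vale.Agent.P168.shapeInit,
    ← Site.sum_shape_two m fun p => 1 / 2 * ∑ q, if q < p then weight m q * F p q q else
      if q = p then (weight m p + padded m (p.val + 1)) * F p p p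
      else weight m q * (F p q p + F p p q)]
  refine Finset.sum_congr rfl fun u _ => ?_
  have h : ∀ v ∈ univ.filter (fun v => Vale.Agent.P168.shapeInit v = u),
      shapeProb m 3 v * F (v 0 1) (v 0 2) (v 1 2) =
        shapeProb m 2 u * (Vale.Agent.P168.extProb m v * F (v 0 1) (v 0 2) (v 1 2)) := fun v hv => by
    show shapeProb m 2 (Vale.Agent.P168.shapeInit v) * Vale.Agent.P168.extProb m v * _ = _
    rw [(Finset.mem_filter.1 hv).2, mul_assoc]
  rw [Finset.sum_congr rfl h, ← Finset.mul_sum]
  rcases eq_or_ne (shapeProb m 2 u) 0 with hz | hz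
  · rw [hz, zero_mul, zero_mul]
  have hu : IsTree u := isTree_of_prob hz
  congr 1
  rw [hu.sum_extend two_ne_zero m fun v => F (v 0 1) (v 0 2) (v 1 2), Finset.mul_sum]
  refine Finset.sum_congr rfl fun q _ => ?_
  have e : ∀ b : Fin 2, attach u q b 0 1 = u 0 1 ∧ attach u q b 0 2 = min q (u b 0) ∧
      attach u q b 1 2 = min q (u b 1) := fun b =>
    ⟨Vale.Agent.P168.Cascade.attach_old u q b 0 1, Vale.Agent.P168.Cascade.attach_new' u q b 0,
      Vale.Agent.P168.Cascade.attach_new' u q b 1⟩
  simp only [e, coef_two hu]
  rw [reps_two hu]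
  push_cast
  rcases lt_trichotomy q (u 0 1) with h | h | h
  · rw [if_pos (Fin.le_def.1 h.le), Finset.sum_singleton, if_neg h.ne, if_pos h, hu.diag,
      min_eq_left (Fin.le_last q), min_eq_left h.le, add_zero]
    ring
  · rw [if_pos (Fin.le_def.1 h.le), Finset.sum_singleton, if_pos h, if_neg (not_lt.2 h.ge), if_pos h,
      hu.diag, min_eq_left (Fin.le_last q), h, min_self]
    ring
  · rw [if_neg (not_le.2 (Fin.lt_def.1 h)), Fin.sum_univ_two, if_neg h.ne', if_neg (not_lt.2 h.le),
      if_neg h.ne', hu.diag, hu.diag, hu.symm 1 0, min_eq_left (Fin.le_last q), min_eq_right h.le,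
      add_zero]
    ring

theorem treeId_spec : TreeIdStmt := by
  intro f A hf ξ k
  obtain ⟨r, m, q, hP⟩ := ξ
  set c := slope f m q
  have hval : ∀ p, Path.pairVal ⟨r, m, q, hP⟩ f p (deriv f) (deriv f) = c p := fun p =>
    (((slope_spec f A hf ⟨r, m, q, hP⟩).2 p).2.1).symm
  have h01 : (0 : Fin 2) ≠ 1 := by decide
  have h01' : (0 : Fin 3) ≠ 1 := by decide
  have h02 : (0 : Fin 3) ≠ 2 := by decide
  have h12 : (1 : Fin 3) ≠ 2 := by decide
  simp only [Path.treePat, Fin.prod_univ_one, Obs.val, if_neg h01, if_neg h02, pairFun, tripleFun,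
    Path.gram, if_neg h01', if_neg h12, hval]
  rw [Site.sum_shape_two m fun p => q p ^ k * (1 - q p ^ 2) * c p,
    sum_shape_three m fun p j l => q p ^ k * (q l - q p * q j) * c j, Finset.mul_sum,
    ← Finset.sum_sub_distrib]
  refine Finset.sum_congr rfl fun p _ => ?_
  set S := ∑ l, weight m l * c l * q l with hS
  set T := ∑ l, if p < l then weight m l * c l * (q l - q p) else 0 with hT
  have e : ∀ l : Fin (r + 1), (if l < p then weight m l * (q p ^ k * (q l - q p * q l) * c l) else
      if l = p then (weight m p + padded m (p.val + 1)) * (q p ^ k * (q p - q p * q p) * c p)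
      else weight m l * (q p ^ k * (q p - q p * q l) * c l + q p ^ k * (q l - q p * q p) * c p)) =
      q p ^ k * ((1 - q p) * (weight m l * c l * q l) -
        (if p < l then weight m l * c l * (q l - q p) else 0) +
        c p * (if p < l then weight m l * (q l - q p) else 0) +
        c p * q p * (1 - q p) * (if p < l then weight m l else 0) +
        if l = p then padded m (p.val + 1) * (c p * q p * (1 - q p)) else 0) := fun l => by
    rcases lt_trichotomy l p with h | h | h
    · simp only [if_pos h, if_neg (not_lt.2 h.le), if_neg h.ne]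
      ring
    · subst h
      simp only [lt_irrefl, if_false, if_true]
      ring
    · simp only [if_pos h, if_neg (lt_asymm h), if_neg h.ne']
      ring
  rw [Finset.sum_congr rfl fun l _ => e l, ← Finset.mul_sum, Finset.sum_add_distrib,
    Finset.sum_add_distrib, Finset.sum_add_distrib, Finset.sum_sub_distrib, ← Finset.mul_sum,
    ← Finset.mul_sum, ← Finset.mul_sum, Finset.sum_ite_eq' univ p, if_pos (mem_univ p),
    ← hS, ← hT, tail_weight]
  have hG := gap_eq m q p
  simp only [statG]
  change _ = weight m p * (q p ^ k * (c p * gap m q p - (1 - q p) * S + T))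
  rw [hG]
  ring

end Vale.Agent.P157.Parisi.Full.Spherical
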