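import Vale.Agent.P157.Full.Sphere.Formula
import Vale.Agent.P157.Full.Sphere.Fine
import Vale.Agent.P157.Full.Sphere.ByParts
import Vale.Agent.P157.Full.Sphere.Rot
import Vale.Agent.P157.Full.Sphere.PatParts
import Vale.Agent.P157.Full.Sphere.Entropy
import Vale.Agent.P157.Full.Sphere.TreeId
import Vale.Agent.P157.Full.Sphere.Compare
import Vale.Agent.P157.Full.Sphere.InitSphere

/-!
The formula on the sphere, with no hypotheses left.
-/

noncomputable section

namespace Vale.Agent.P157.Parisi.Full.Spherical

theorem sphere_formula_mod (hB : ByPartsStmt) : SphereFormulaStmt :=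
  sphere_formula_of fine hB patParts_stmt treeId_spec compare_spec (init_sphere entropy_spec)

theorem sphere_formula : SphereFormulaStmt := sphere_formula_mod byParts

end Vale.Agent.P157.Parisi.Full.Spherical
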