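import Vale.Agent.P157.Full.Sphere.Statements
import Vale.Agent.P157.Full.Fixed
import Vale.Agent.P157.Parisi.Sphere.Cont.Main
import Vale.Agent.P157.Parisi.ModA.TreeShape
import Vale.Agent.P157.Parisi.ModA.TiltFactor

/-!
Asymptotic cascades on the sphere are stationary.
-/

noncomputable section

open MeasureTheory ProbabilityTheory Filter Polynomial
open scoped BigOperators NNReal ENNReal Topology

namespace Vale.Agent.P157.Parisi.Full.Spherical

open Vale.Agent.P168.Cascade (Exps)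

variable {α A C : ℝ} {f : ℝ → ℝ}

lemma exps_path (ξ : Path) : Exps ξ.m := ⟨ξ.isPath.pos, ξ.isPath.lt_one, ξ.isPath.strictMono⟩

lemma slope_mem (hf : Smooth f A) (ξ : Path) (p : Fin (ξ.r + 1)) :
    0 ≤ slope f ξ.m ξ.q p ∧ slope f ξ.m ξ.q p ≤ A ^ 2 :=
  let h := (slope_spec f A hf ξ).2 p
  ⟨h.1, h.2.2.1.trans h.2.2.2⟩

lemma gap_castSucc (ξ : Path) (i : Fin ξ.r) :
    gap ξ.m ξ.q i.castSucc = gap ξ.m ξ.q i.succ + ξ.m i * (ξ.q i.succ - ξ.q i.castSucc) := by
  set T : Fin ξ.r → ℝ := fun l => ξ.m l * (ξ.q l.succ - ξ.q l.castSucc)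
  have e : ∀ l : Fin ξ.r, (if i.val ≤ l.val then T l else 0) =
      (if i.val + 1 ≤ l.val then T l else 0) + if l = i then T l else 0 := fun l => by
    rcases lt_trichotomy l.val i.val with h | h | h
    · simp [not_le.2 h, Fin.ext_iff, h.ne, show ¬(i.val + 1 ≤ l.val) by omega]
    · simp [Fin.ext_iff, h]
    · simp [h.le, Fin.ext_iff, h.ne', show i.val + 1 ≤ l.val by omega]
  simp only [gap, Fin.val_castSucc, Fin.val_succ]
  rw [Finset.sum_congr rfl fun l _ => e l, Finset.sum_add_distrib,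
    Finset.sum_ite_eq' Finset.univ i T, if_pos (Finset.mem_univ i)]
  simp only [T]
  ring

lemma gap_lip (ξ : Path) (p p' : Fin (ξ.r + 1)) :
    |gap ξ.m ξ.q p - gap ξ.m ξ.q p'| ≤ |ξ.q p - ξ.q p'| := by
  have h := Lip.diff_le_of_step (c := fun p => -gap ξ.m ξ.q p) (C := 1) (fun i => by
    have h0 := mul_nonneg (ξ.isPath.pos i).le
      (sub_nonneg.2 (ξ.isPath.mono (Fin.castSucc_le_succ i)))
    have h1 := mul_le_of_le_one_left
      (sub_nonneg.2 (ξ.isPath.mono (Fin.castSucc_le_succ i))) (ξ.isPath.lt_one i).le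
    rw [gap_castSucc]
    constructor <;> linarith) ξ.isPath.mono p p'
  rw [one_mul, show -gap ξ.m ξ.q p - -gap ξ.m ξ.q p' = -(gap ξ.m ξ.q p - gap ξ.m ξ.q p') by ring,
    abs_neg] at h
  exact h

lemma gap_mem (ξ : Path) (p : Fin (ξ.r + 1)) : |gap ξ.m ξ.q p| ≤ 2 := by
  have h1 := abs_le.1 (gap_lip ξ p (Fin.last ξ.r))
  have e : gap ξ.m ξ.q (Fin.last ξ.r) = 1 - ξ.q (Fin.last ξ.r) := by
    have : ∑ i : Fin ξ.r, (if (Fin.last ξ.r).val ≤ i.val then
        ξ.m i * (ξ.q i.succ - ξ.q i.castSucc) else 0) = 0 :=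
      Finset.sum_eq_zero fun i _ => if_neg (by simp)
    simp only [gap]
    rw [this, add_zero]
  have hq := CutLimit.path_mem ξ p
  have hr := CutLimit.path_mem ξ (Fin.last ξ.r)
  have h2 : |ξ.q p - ξ.q (Fin.last ξ.r)| ≤ 1 := by rw [abs_le]; constructor <;> linarith
  rw [abs_le]
  constructor <;> linarith

lemma tail_term (ξ : Path) (p l : Fin (ξ.r + 1)) (c : ℝ) :
    (if p < l then c * (ξ.q l - ξ.q p) else 0) = c * max (ξ.q l - ξ.q p) 0 := by
  split_ifs with h
  · rw [max_eq_left (sub_nonneg.2 (ξ.isPath.mono h.le))]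
  · rw [max_eq_right (sub_nonpos.2 (ξ.isPath.mono (not_lt.1 h))), mul_zero]

/-- The right side of the equation is bounded and Lipschitz in the overlap. -/
lemma statG_facts (hf : Smooth f A) : ∃ L : ℝ, 0 ≤ L ∧ ∀ ξ : Path, ∀ p p',
    |statG f ξ p| ≤ 4 * A ^ 2 ∧ |statG f ξ p - statG f ξ p'| ≤ L * |ξ.q p - ξ.q p'| := by
  obtain ⟨C₁, hC0, hC⟩ := slopeLip f A hf
  refine ⟨2 * C₁ + 3 * A ^ 2, by positivity, fun ξ p p' => ?_⟩
  set s := slope f ξ.m ξ.q
  set S := ∑ l, weight ξ.m l * s l * ξ.q l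
  have hw := fun l => Up.weight_nonneg (exps_path ξ) l
  have hs := slope_mem hf ξ
  have hq := CutLimit.path_mem ξ
  have hS0 : 0 ≤ S := Finset.sum_nonneg fun l _ => mul_nonneg (mul_nonneg (hw l) (hs l).1) (hq l).1
  have hS1 : S ≤ A ^ 2 := by
    refine (Finset.sum_le_sum (g := fun l => weight ξ.m l * A ^ 2) fun l _ => ?_).trans_eq
      (by rw [← Finset.sum_mul, Up.sum_weight, one_mul])
    exact (mul_le_of_le_one_right (mul_nonneg (hw l) (hs l).1) (hq l).2).trans
      (mul_le_mul_of_nonneg_left (hs l).2 (hw l))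
  set U : ℝ → ℝ := fun a => ∑ l, weight ξ.m l * s l * max (ξ.q l - a) 0
  have hU : ∀ a b, |U a - U b| ≤ A ^ 2 * |a - b| := by
    intro a b
    simp only [U, ← Finset.sum_sub_distrib, ← mul_sub]
    refine (Finset.abs_sum_le_sum_abs _ _).trans ((Finset.sum_le_sum
      (g := fun l => weight ξ.m l * (A ^ 2 * |a - b|)) fun l _ => ?_).trans_eq
        (by rw [← Finset.sum_mul, Up.sum_weight, one_mul]))
    rw [abs_mul, abs_of_nonneg (mul_nonneg (hw l) (hs l).1), mul_assoc]
    refine mul_le_mul_of_nonneg_left (mul_le_mul (hs l).2 ?_ (abs_nonneg _) (sq_nonneg A)) (hw l)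
    refine (abs_max_sub_max_le_abs _ _ _).trans_eq ?_
    rw [sub_sub_sub_cancel_left, abs_sub_comm]
  have hU0 : ∀ l, |U (ξ.q l)| ≤ A ^ 2 := fun l => by
    have h1 : U 1 = 0 := Finset.sum_eq_zero fun i _ => by
      rw [max_eq_right (sub_nonpos.2 (hq i).2), mul_zero]
    have h2 := hU (ξ.q l) 1
    rw [h1, sub_zero] at h2
    refine h2.trans (mul_le_of_le_one_right (sq_nonneg A) ?_)
    rw [abs_le]; have := hq l; constructor <;> linarith
  have e : ∀ l, statG f ξ l = s l * gap ξ.m ξ.q l - (1 - ξ.q l) * S + U (ξ.q l) := fun l => by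
    simp only [statG, tail_term ξ l]; rfl
  refine ⟨?_, ?_⟩
  · rw [e]
    have h1 : |s p * gap ξ.m ξ.q p| ≤ A ^ 2 * 2 := by
      rw [abs_mul, abs_of_nonneg (hs p).1]
      exact mul_le_mul (hs p).2 (gap_mem ξ p) (abs_nonneg _) (sq_nonneg A)
    have h2 : |(1 - ξ.q p) * S| ≤ A ^ 2 := by
      rw [abs_mul, abs_of_nonneg (sub_nonneg.2 (hq p).2), abs_of_nonneg hS0]
      exact (mul_le_of_le_one_left hS0 (by linarith [(hq p).1])).trans hS1
    linarith [abs_add_le (s p * gap ξ.m ξ.q p - (1 - ξ.q p) * S) (U (ξ.q p)),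
      abs_sub (s p * gap ξ.m ξ.q p) ((1 - ξ.q p) * S), hU0 p]
  · rw [e, e]
    set Q := |ξ.q p - ξ.q p'| with hQ
    have h1 : |s p * gap ξ.m ξ.q p - s p' * gap ξ.m ξ.q p'| ≤ 2 * C₁ * Q + A ^ 2 * Q := by
      rw [show s p * gap ξ.m ξ.q p - s p' * gap ξ.m ξ.q p' = (s p - s p') * gap ξ.m ξ.q p +
        s p' * (gap ξ.m ξ.q p - gap ξ.m ξ.q p') by ring]
      refine (abs_add_le _ _).trans (add_le_add ?_ ?_)
      · rw [abs_mul, mul_comm 2 C₁, mul_right_comm]
        exact mul_le_mul (hC ξ p p') (gap_mem ξ p) (abs_nonneg _) (by positivity)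
      · rw [abs_mul, abs_of_nonneg (hs p').1]
        exact mul_le_mul (hs p').2 (gap_lip ξ p p') (abs_nonneg _) (sq_nonneg A)
    have h2 : |(1 - ξ.q p') * S - (1 - ξ.q p) * S| ≤ A ^ 2 * Q := by
      rw [← sub_mul, sub_sub_sub_cancel_left, abs_mul, abs_of_nonneg hS0, mul_comm (A ^ 2)]
      exact mul_le_mul_of_nonneg_left hS1 (abs_nonneg _)
    rw [show s p * gap ξ.m ξ.q p - (1 - ξ.q p) * S + U (ξ.q p) -
        (s p' * gap ξ.m ξ.q p' - (1 - ξ.q p') * S + U (ξ.q p')) =
        (s p * gap ξ.m ξ.q p - s p' * gap ξ.m ξ.q p') +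
          ((1 - ξ.q p') * S - (1 - ξ.q p) * S) + (U (ξ.q p) - U (ξ.q p')) by ring]
    linarith [abs_add_three (s p * gap ξ.m ξ.q p - s p' * gap ξ.m ξ.q p')
      ((1 - ξ.q p') * S - (1 - ξ.q p) * S) (U (ξ.q p) - U (ξ.q p')), hU (ξ.q p) (ξ.q p')]

variable {P : ∀ N, Sphere.Pts N} {Nj : ℕ → ℕ} {xj : ∀ j, Fin (Nj j) → ℝ} {μj : ℕ → ℝ}
  {ξ : ℕ → Path}

/-- The moments of the defect vanish. -/
lemma moment_defect (hB : ByPartsStmt) (hP : PatPartsStmt) (hT : TreeIdStmt) (hPf : IsFine P)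
    (h : Sphere.Site.Setup α A C f Nj (fun j => P (Nj j)) xj μj ξ)
    (hx : ∀ j i, xj j i ∈ Set.Icc (1 : ℝ) 2) (k : ℕ) :
    Tendsto (fun j => ∑ p, weight (ξ j).m p * ((ξ j).q p ^ k *
      ((ξ j).q p - α * statG f (ξ j) p))) atTop (𝓝 0) := by
  set S := fun j => Sphere.sysState (P (Nj j)) f (scale (Nj j)) (xj j) (μj j)
  have hgood : ∀ j, (S j).IsGood := fun j =>
    Sphere.Site.sysState_isGood h.smooth.continuous _
  have hcont : Sphere.ContS := Sphere.Cont.contS tilt_factor tree_shape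
  set o2 : Fin 1 → Obs 2 := fun _ => ⟨0, 1, deriv f, deriv f⟩
  set o3 : Fin 1 → Obs 3 := fun _ => ⟨0, 2, deriv f, deriv f⟩
  set B : ℕ → ℝ := fun j => (S j).patMean f (pairFun k) o2 - 2 * (S j).patMean f (tripleFun k) o3
  set G : ℕ → ℝ := fun j => ∑ p, weight (ξ j).m p * ((ξ j).q p ^ k * statG f (ξ j) p)
  have hb := h.smooth.b1
  have hBG : Tendsto (fun j => B j - G j) atTop (𝓝 0) := by
    have c1 := hcont A f h.smooth Nj _ S ξ h.pos hgood h.approx 1 2 (pairFun k) o2
      (by unfold pairFun; fun_prop)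
      fun _ => ⟨h.smooth.d1.continuous, h.smooth.d1.continuous, A, fun z => ⟨hb z, hb z⟩⟩
    have c2 := hcont A f h.smooth Nj _ S ξ h.pos hgood h.approx 1 3 (tripleFun k) o3
      (by unfold tripleFun; fun_prop)
      fun _ => ⟨h.smooth.d1.continuous, h.smooth.d1.continuous, A, fun z => ⟨hb z, hb z⟩⟩
    have := c1.sub (c2.const_mul 2)
    rw [mul_zero, sub_zero] at this
    refine this.congr fun j => ?_
    simp only [B, G, o2, o3, ← hT f A h.smooth (ξ j) k]
    ring
  obtain ⟨L, -, hL⟩ := statG_facts h.smooth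
  have hG : ∀ j, |G j| ≤ 4 * A ^ 2 := fun j => by
    refine (Finset.abs_sum_le_sum_abs _ _).trans ((Finset.sum_le_sum
      (g := fun p => weight (ξ j).m p * (4 * A ^ 2)) fun p _ => ?_).trans_eq
        (by rw [← Finset.sum_mul, Up.sum_weight, one_mul]))
    have hq := CutLimit.path_mem (ξ j) p
    rw [abs_mul, abs_mul, abs_of_nonneg (Up.weight_nonneg (exps_path _) p),
      abs_of_nonneg (pow_nonneg hq.1 k)]
    exact mul_le_mul_of_nonneg_left ((mul_le_of_le_one_left (abs_nonneg _)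
      (pow_le_one₀ hq.1 hq.2)).trans (hL (ξ j) p p).1) (Up.weight_nonneg (exps_path _) p)
  have hratio := h.tendsto_ratio
  have hpat : Tendsto (fun j => μj j / (Nj j : ℝ) * B j - α * G j) atTop (𝓝 0) := by
    have h1 := hratio.mul hBG
    rw [mul_zero] at h1
    have h2 : Tendsto (fun j => (μj j / (Nj j : ℝ) - α) * G j) atTop (𝓝 0) := by
      refine squeeze_zero_norm (fun j => ?_) (a := fun j => |μj j / (Nj j : ℝ) - α| * (4 * A ^ 2)) ?_
      · rw [Real.norm_eq_abs, abs_mul]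
        exact mul_le_mul_of_nonneg_left (hG j) (abs_nonneg _)
      · simpa using ((hratio.sub_const α).abs).mul_const (4 * A ^ 2)
    have := h1.add h2
    rw [add_zero] at this
    exact this.congr fun j => by ring
  have hmom := h.approx 2 (fun T => T 0 1 ^ (k + 1)) (by fun_prop)
  rw [Metric.tendsto_nhds]
  intro ε hε
  have he : 0 < ε / 5 := by linarith
  filter_upwards [h.large.eventually (hB α A C f h.alpha h.smooth P hPf k (ε / 5) he),
    h.large.eventually (hP α A C f h.alpha h.smooth P k (ε / 5) he),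
    Metric.tendsto_nhds.1 hpat (ε / 5) he, Metric.tendsto_nhds.1 hmom (ε / 5) he] with j h1 h2 h3 h4
  have g1 := abs_le.1 (h1 (μj j) (h.mu_nonneg j) (h.mu_near j) (xj j) (hx j))
  have g2 := abs_le.1 (h2 (μj j) (h.mu_nonneg j) (h.mu_near j) (xj j) (hx j))
  rw [Real.dist_eq, sub_zero] at h3 h4 ⊢
  have g3 := abs_lt.1 h3
  have g4 := abs_lt.1 h4
  have e1 : (ξ j).treeExp 2 (fun T => T 0 1 ^ (k + 1)) =
      ∑ p, weight (ξ j).m p * (ξ j).q p ^ (k + 1) := by
    rw [Path.treeExp]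
    simpa [Path.gram] using Site.sum_shape_two (ξ j).m fun p => (ξ j).q p ^ (k + 1)
  have e2 : ∑ p, weight (ξ j).m p * ((ξ j).q p ^ k * ((ξ j).q p - α * statG f (ξ j) p)) =
      ∑ p, weight (ξ j).m p * (ξ j).q p ^ (k + 1) - α * G j := by
    simp only [G, Finset.mul_sum, ← Finset.sum_sub_distrib]
    exact Finset.sum_congr rfl fun p _ => by ring
  rw [e1] at g4
  simp only [Sphere.overlaps] at g4
  simp only [B, S, o2, o3] at g3
  rw [e2, abs_lt]
  constructor <;> linarith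

/-- Asymptotic cascades on the sphere are stationary. -/
theorem sphere_fixed (hB : ByPartsStmt) (hP : PatPartsStmt) (hT : TreeIdStmt) :
    SphereFixedStmt := by
  intro α A C f P hPf Nj xj μj ξ h hx
  obtain ⟨L₁, hL₁0, hL₁⟩ := statG_facts h.smooth
  have hα := h.alpha.le
  set L := α * L₁ + 1
  have hL : 0 ≤ L := by positivity
  set M := 1 + 4 * (α * A ^ 2)
  have hM : 0 < M := by positivity
  set φ : ∀ j, Fin ((ξ j).r + 1) → ℝ := fun j p => (ξ j).q p - α * statG f (ξ j) p with hφ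
  have hw : ∀ j p, 0 ≤ weight (ξ j).m p := fun j p => Up.weight_nonneg (exps_path _) p
  have hq : ∀ j p, (ξ j).q p ∈ Set.Icc (0 : ℝ) 1 := fun j p => CutLimit.path_mem (ξ j) p
  have hφ1 : ∀ j p, |φ j p| ≤ M := fun j p => by
    have h1 := mul_le_mul_of_nonneg_left (hL₁ (ξ j) p p).1 hα
    rw [← abs_of_nonneg hα, ← abs_mul, abs_of_nonneg hα] at h1
    have h2 := CutLimit.path_mem (ξ j) p
    have h3 := abs_sub ((ξ j).q p) (α * statG f (ξ j) p)
    rw [abs_of_nonneg h2.1] at h3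
    simp only [hφ, M]
    linarith
  have hlip : ∀ j p p', |φ j p - φ j p'| ≤ L * |(ξ j).q p - (ξ j).q p'| := by
    intro j p p'
    rw [show φ j p - φ j p' = ((ξ j).q p - (ξ j).q p') -
      α * (statG f (ξ j) p - statG f (ξ j) p') by simp only [hφ]; ring]
    refine (abs_sub _ _).trans ?_
    rw [abs_mul, abs_of_nonneg hα]
    simp only [L]
    linarith [mul_le_mul_of_nonneg_left (hL₁ (ξ j) p p').2 hα]
  choose Φ hΦq hΦl using fun j => exists_lip_extend (ξ j).q (φ j) hL (hlip j)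
  have hΦb : ∀ j, ∀ t ∈ Set.Icc (0 : ℝ) 1, |Φ j t| ≤ M + L := by
    intro j t ht
    have h1 := hΦl j t ((ξ j).q 0)
    rw [hΦq] at h1
    have h2 : |t - (ξ j).q 0| ≤ 1 := by
      have := hq j 0
      rw [Set.mem_Icc] at this ht
      rw [abs_le]; constructor <;> linarith
    linarith [abs_sub_abs_le_abs_sub (Φ j t) (φ j 0), hφ1 j 0, mul_le_mul_of_nonneg_left h2 hL]
  have hsq : Tendsto (fun j => ∑ p, weight (ξ j).m p * φ j p ^ 2) atTop (𝓝 0) := by
    rw [Metric.tendsto_nhds]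
    intro ε hε
    obtain ⟨n, hn0, hn⟩ : ∃ n : ℕ, 0 < n ∧ L / Real.sqrt n ≤ ε / (4 * M) := by
      have h1 := (tendsto_const_nhds (x := L)).div_atTop
        (Real.tendsto_sqrt_atTop.comp (tendsto_natCast_atTop_atTop (R := ℝ)))
      exact ((eventually_gt_atTop 0).and (h1.eventually (eventually_le_nhds (by positivity)))).exists
    set S : ℕ → ℕ → ℝ := fun j i =>
      ∑ p, weight (ξ j).m p * ((bernsteinPolynomial ℝ n i).eval ((ξ j).q p) * φ j p) with hS
    have hSlim : ∀ i, Tendsto (fun j => S j i) atTop (𝓝 0) := by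
      intro i
      set B := bernsteinPolynomial ℝ n i
      have h1 := tendsto_finsetSum (Finset.range (B.natDegree + 1)) fun d _ =>
        (moment_defect hB hP hT hPf h hx d).const_mul (B.coeff d)
      simp only [mul_zero, Finset.sum_const_zero] at h1
      refine h1.congr fun j => ?_
      simp only [hS, Finset.mul_sum]
      rw [Finset.sum_comm]
      refine Finset.sum_congr rfl fun p _ => ?_
      rw [eval_eq_sum_range, Finset.sum_mul, Finset.mul_sum]
      exact Finset.sum_congr rfl fun d _ => by simp only [hφ]; ring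
    have hS' : Tendsto (fun j => (M + L) * ∑ i ∈ Finset.range (n + 1), |S j i|) atTop (𝓝 0) := by
      simpa using (tendsto_finsetSum (Finset.range (n + 1)) fun i _ => (hSlim i).abs).const_mul
        (M + L)
    filter_upwards [hS'.eventually (eventually_le_nhds (show 0 < ε / 4 by linarith))] with j hj
    rw [Real.dist_eq, sub_zero, abs_of_nonneg
      (Finset.sum_nonneg fun p _ => mul_nonneg (hw j p) (sq_nonneg _))]
    set D : Fin ((ξ j).r + 1) → ℝ := fun p => Φ j ((ξ j).q p) -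
      ∑ i ∈ Finset.range (n + 1), Φ j (i / n) * (bernsteinPolynomial ℝ n i).eval ((ξ j).q p)
    have hD : ∀ p, |φ j p * D p| ≤ ε / 4 := fun p => by
      rw [abs_mul]
      refine (mul_le_mul (hφ1 j p) ((bern_approx hL (hΦl j) hn0 (hq j p)).trans hn) (abs_nonneg _)
        hM.le).trans_eq ?_
      field_simp
    have e : ∑ p, weight (ξ j).m p * φ j p ^ 2 = ∑ p, weight (ξ j).m p * (φ j p * D p) +
        ∑ i ∈ Finset.range (n + 1), Φ j (i / n) * S j i := by
      simp only [hS, Finset.mul_sum]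
      rw [Finset.sum_comm (s := Finset.range (n + 1)), ← Finset.sum_add_distrib]
      refine Finset.sum_congr rfl fun p _ => ?_
      simp only [D, hΦq, mul_sub, Finset.mul_sum]
      rw [sub_add, ← Finset.sum_sub_distrib]
      rw [Finset.sum_eq_zero fun i _ => by ring]
      ring
    rw [e]
    have g1 : ∑ p, weight (ξ j).m p * (φ j p * D p) ≤ ε / 4 :=
      (Finset.sum_le_sum fun p _ =>
        mul_le_mul_of_nonneg_left ((le_abs_self _).trans (hD p)) (hw j p)).trans_eq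
        (by rw [← Finset.sum_mul, Up.sum_weight, one_mul])
    have g2 : ∑ i ∈ Finset.range (n + 1), Φ j (i / n) * S j i ≤ ε / 4 := by
      refine le_trans ?_ hj
      rw [Finset.mul_sum]
      refine Finset.sum_le_sum fun i hi => (le_abs_self _).trans ?_
      rw [abs_mul]
      refine mul_le_mul_of_nonneg_right (hΦb j _ ⟨by positivity, ?_⟩) (abs_nonneg _)
      rw [div_le_one (Nat.cast_pos.2 hn0)]
      exact_mod_cast Nat.lt_succ_iff.1 (Finset.mem_range.1 hi)
    linarith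
  rw [Metric.tendsto_nhds]
  intro ε hε
  filter_upwards [hsq.eventually (eventually_lt_nhds (show 0 < ε ^ 2 / 4 by positivity))] with j hj
  rw [Real.dist_eq, sub_zero, abs_of_nonneg (show 0 ≤ defect α f (ξ j) from
    Finset.sum_nonneg fun p _ => mul_nonneg (hw j p) (abs_nonneg _))]
  have h1 : ∑ p, weight (ξ j).m p * |φ j p| ≤
      ∑ p, weight (ξ j).m p * (φ j p ^ 2 / ε + ε / 4) := Finset.sum_le_sum fun p _ => by
    refine mul_le_mul_of_nonneg_left ?_ (hw j p)
    rw [div_add' _ _ _ hε.ne', le_div_iff₀ hε]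
    nlinarith [sq_nonneg (|φ j p| - ε / 2), sq_abs (φ j p)]
  simp only [mul_add, mul_div_assoc', Finset.sum_add_distrib, ← Finset.sum_div, ← Finset.sum_mul,
    Up.sum_weight, one_mul] at h1
  have h2 : (∑ p, weight (ξ j).m p * φ j p ^ 2) / ε < ε / 4 := by
    rw [div_lt_iff₀ hε]; nlinarith
  simp only [hφ] at h1 h2
  simp only [defect]
  linarith

end Vale.Agent.P157.Parisi.Full.Spherical
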