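import Vale.Agent.P157.Parisi.Sphere.Main.Lower
import Vale.Agent.P157.Full.Sphere.Statements

/-!
The lower bound on the sphere for an arbitrary smooth potential.
-/

noncomputable section

open MeasureTheory ProbabilityTheory Filter
open scoped BigOperators NNReal ENNReal Topology

namespace Vale.Agent.P157.Parisi.Full.Spherical

open Sphere (Pts Conf siteSphere PerturbS TreeApproxS ContS LogS CavityS PertChangeS SiteS parisiSphere netTol)
open Sphere.Main
open Main (ae_xLaw smooth_nonneg smooth_meas)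

variable {f : ℝ → ℝ} {A α : ℝ}

/-- The lower bound on the sphere. -/
def LowerSphereStmt : Prop :=
  ∀ (α A : ℝ) (f : ℝ → ℝ), 0 < α → Smooth f A → ∀ ε > 0,
    ∀ᶠ N : ℕ in atTop, ∃ v ∈ sphereValues α f, v ≤ meanPressure sphereLaw α f N + ε

lemma step_ge (hD : PerturbS) (hE : TreeApproxS) (hC : ContS) (hL : LogS)
    (hG : CavityS) (hP : PertChangeS) (hH : SiteS) (hF : SphereFixedStmt) (hCmp : CompareStmt) {Q : ∀ N, Pts N}
    (hQf : IsFine Q) (hQ : Sphere.IsNets Q) (hα : 0 < α) (hf : Smooth f A)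
    {ε : ℝ} (hε : 0 < ε) :
    ∀ᶠ N : ℕ in atTop, ∃ v ∈ sphereValues α f, v - ε ≤ avgPart Q α f (N + 1) - avgPart Q α f N := by
  by_contra hcon
  rw [not_eventually] at hcon
  obtain ⟨B, hB, hlow⟩ := exists_step_lower hG hQ hα hf
  obtain ⟨δ, hδm, hδb, hδgg, hδ0⟩ := hD α A 0 f hα hf Q (fun N => α * N)
    (fun N => by positivity) fun N => by simp
  -- the weighted defect
  set e : (N : ℕ) → (Fin N → ℝ) → ℝ := fun N x => ∑ p ∈ Finset.range N, (1 / 2) ^ p * δ N p x
  set E : ℕ → ℝ := fun N => ∫ x, e N x ∂xLaw N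
  have hδi : ∀ N p, Integrable (δ N p) (xLaw N) := fun N p =>
    integrable_of_abs_le (hδm N p) fun x => abs_le.2 ⟨by linarith [(hδb N p x).1], (hδb N p x).2⟩
  have he0 : ∀ N x, 0 ≤ e N x := fun N x =>
    Finset.sum_nonneg fun p _ => mul_nonneg (by positivity) (hδb N p x).1
  have hei : ∀ N, Integrable (e N) (xLaw N) := fun N =>
    integrable_finsetSum _ fun p _ => (hδi N p).const_mul _
  have hE0 : ∀ N, 0 ≤ E N := fun N => integral_nonneg (he0 N)
  have hElim : Tendsto E atTop (𝓝 0) := by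
    have h := tendsto_tsum_of_dominated_convergence
      (f := fun N p => if p < N then (1 / 2 : ℝ) ^ p * ∫ x, δ N p x ∂xLaw N else 0)
      (g := fun _ => (0 : ℝ)) (bound := fun p => (1 / 2 : ℝ) ^ p * 2)
      ((summable_geometric_of_lt_one (by norm_num) (by norm_num)).mul_right 2)
      (fun p => by
        refine squeeze_zero_norm (a := fun N => (1 / 2 : ℝ) ^ p * ∫ x, δ N p x ∂xLaw N) (fun N => ?_)
          (by simpa using (hδ0 p).const_mul ((1 / 2 : ℝ) ^ p))
        have h0 : 0 ≤ (1 / 2 : ℝ) ^ p * ∫ x, δ N p x ∂xLaw N :=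
          mul_nonneg (by positivity) (integral_nonneg fun x => (hδb N p x).1)
        by_cases hp : p < N
        · simp only [if_pos hp, Real.norm_eq_abs, abs_of_nonneg h0, le_refl]
        · simpa only [if_neg hp, norm_zero] using h0)
      (Eventually.of_forall fun N p => by
        split_ifs
        · rw [Real.norm_eq_abs, abs_mul, abs_of_nonneg (by positivity : (0 : ℝ) ≤ (1 / 2) ^ p)]
          refine mul_le_mul_of_nonneg_left ?_ (by positivity)
          simpa using norm_integral_le_of_norm_le_const (μ := xLaw N)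
            (Eventually.of_forall fun x => show ‖δ N p x‖ ≤ 2 from
              abs_le.2 ⟨by linarith [(hδb N p x).1], (hδb N p x).2⟩)
        · simp)
    rw [tsum_zero] at h
    refine h.congr fun N => ?_
    rw [tsum_eq_sum (s := Finset.range N) fun p hp => if_neg (by simpa using hp)]
    simp only [E, e]
    rw [integral_finsetSum _ fun p _ => (hδi N p).const_mul _]
    exact Finset.sum_congr rfl fun p hp => by
      rw [if_pos (by simpa using hp), integral_const_mul]
  set R : ℕ → ℝ := fun N => 1 / Real.sqrt (E N + 1 / ((N : ℝ) + 1))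
  have hR : ∀ N, 0 < R N := fun N => by
    have := hE0 N
    positivity
  have hREz : Tendsto (fun N => Real.sqrt (E N + 1 / ((N : ℝ) + 1))) atTop (𝓝 0) := by
    simpa using (hElim.add (tendsto_one_div_add_atTop_nhds_zero_nat)).sqrt
  -- good parameters
  have hsel : ∀ N, ∃ x : Fin N → ℝ, (∀ i, x i ∈ Set.Icc (1 : ℝ) 2) ∧
      stepPart Q α f N x + R N * e N x ≤ ∫ y, (stepPart Q α f N y + R N * e N y) ∂xLaw N := by
    intro N
    have hint := (integrable_stepPart (Q := Q) (α := α) hf N).add ((hei N).const_mul (R N))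
    obtain ⟨x, hx1, hx2⟩ := exists_notMem_null_le_integral hint
      (ae_iff.1 (ae_xLaw N))
    exact ⟨x, not_not.1 hx1, hx2⟩
  choose x hx hsel using hsel
  obtain ⟨Ns, hNs, hbad⟩ := extraction_of_frequently_atTop
    (hcon.and_eventually ((eventually_gt_atTop 0).and hlow))
  have hNt : Tendsto Ns atTop atTop := hNs.tendsto_atTop
  -- the selected defects vanish
  have hsel' : ∀ j, R (Ns j) * e (Ns j) (x (Ns j)) ≤
      (avgPart Q α f (Ns j + 1) - avgPart Q α f (Ns j)) + R (Ns j) * E (Ns j) + B +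
        |(∫ y, Sphere.logPartS (Q (Ns j + 1)) f (scale (Ns j + 1)) y (α * Ns j + α) ∂xLaw (Ns j + 1)) -
          ∫ y, Sphere.logPartS (Q (Ns j + 1)) f (scale (Ns j)) y (α * Ns j + α) ∂xLaw (Ns j)| ∧
      stepPart Q α f (Ns j) (x (Ns j)) ≤
      (avgPart Q α f (Ns j + 1) - avgPart Q α f (Ns j)) + R (Ns j) * E (Ns j) +
        |(∫ y, Sphere.logPartS (Q (Ns j + 1)) f (scale (Ns j + 1)) y (α * Ns j + α) ∂xLaw (Ns j + 1)) -
          ∫ y, Sphere.logPartS (Q (Ns j + 1)) f (scale (Ns j)) y (α * Ns j + α) ∂xLaw (Ns j)| := by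
    intro j
    have h1 := hsel (Ns j)
    rw [integral_add (integrable_stepPart hf _) ((hei _).const_mul _), integral_const_mul] at h1
    have h2 : ∫ y, stepPart Q α f (Ns j) y ∂xLaw (Ns j) =
        (∫ y, Sphere.logPartS (Q (Ns j + 1)) f (scale (Ns j)) y (α * Ns j + α) ∂xLaw (Ns j)) -
          avgPart Q α f (Ns j) := integral_sub (integrable_logPartS hf) (integrable_logPartS hf)
    have h3 : avgPart Q α f (Ns j + 1) =
        ∫ y, Sphere.logPartS (Q (Ns j + 1)) f (scale (Ns j + 1)) y (α * Ns j + α) ∂xLaw (Ns j + 1) := by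
      simp only [avgPart]
      push_cast
      ring_nf
    have h4 := (hbad j).2.2 (x (Ns j)) (hx _)
    have h5 := mul_nonneg (hR (Ns j)).le (he0 (Ns j) (x (Ns j)))
    have h6 : E (Ns j) = ∫ y, e (Ns j) y ∂xLaw (Ns j) := rfl
    set Q1 := ∫ y, Sphere.logPartS (Q (Ns j + 1)) f (scale (Ns j + 1)) y (α * Ns j + α) ∂xLaw (Ns j + 1)
    set Q2 := ∫ y, Sphere.logPartS (Q (Ns j + 1)) f (scale (Ns j)) y (α * Ns j + α) ∂xLaw (Ns j)
    constructor <;> linarith [neg_abs_le (Q1 - Q2)]
  have hPz : Tendsto (fun N : ℕ => |(∫ y, Sphere.logPartS (Q (N + 1)) f (scale (N + 1)) y (α * N + α) ∂xLaw (N + 1)) -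
      ∫ y, Sphere.logPartS (Q (N + 1)) f (scale N) y (α * N + α) ∂xLaw N|) atTop (𝓝 0) := by
    simpa using (hP α A α f hα hf Q (fun N => α * N + α) (fun N => by positivity)
      fun N => by rw [add_sub_cancel_left, abs_of_pos hα]).abs
  have hRE : Tendsto (fun N => R N * E N) atTop (𝓝 0) := by
    refine squeeze_zero (fun N => mul_nonneg (hR N).le (hE0 N)) (fun N => ?_) hREz
    simp only [R]
    have h1 : 0 < E N + 1 / ((N : ℝ) + 1) := add_pos_of_nonneg_of_pos (hE0 N) (by positivity)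
    rw [div_mul_eq_mul_div, one_mul, div_le_iff₀ (Real.sqrt_pos.2 h1), Real.mul_self_sqrt h1.le]
    have : (0 : ℝ) ≤ 1 / ((N : ℝ) + 1) := by positivity
    linarith
  -- an upper bound for the increments along the sequence
  obtain ⟨v₀, hv₀⟩ : (sphereValues α f).Nonempty :=
    ⟨_, 0, Fin.elim0, fun _ => 0, ⟨fun i => i.elim0, fun i => i.elim0, fun i => i.elim0,
      monotone_const, le_rfl, zero_le_one⟩, zero_lt_one, rfl⟩
  have hinc : ∀ j, avgPart Q α f (Ns j + 1) - avgPart Q α f (Ns j) < v₀ - ε := fun j => by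
    have := (hbad j).1
    push_neg at this
    exact this v₀ hv₀
  have hez : Tendsto (fun j => e (Ns j) (x (Ns j))) atTop (𝓝 0) := by
    set C := |v₀| + ε + B + 2 with hC'
    have hev : ∀ᶠ j in atTop, e (Ns j) (x (Ns j)) ≤ C * Real.sqrt (E (Ns j) + 1 / ((Ns j : ℝ) + 1)) := by
      filter_upwards [hNt.eventually ((Metric.tendsto_nhds.1 hPz) 1 one_pos),
        hNt.eventually ((Metric.tendsto_nhds.1 hRE) 1 one_pos)] with j h1 h2
      simp only [Real.dist_eq, sub_zero, abs_abs] at h1 h2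
      have h3 := (hsel' j).1
      have h4 : R (Ns j) * e (Ns j) (x (Ns j)) ≤ C := by
        linarith [hinc j, le_abs_self v₀, le_abs_self (R (Ns j) * E (Ns j))]
      have h5 : 0 < E (Ns j) + 1 / ((Ns j : ℝ) + 1) :=
        add_pos_of_nonneg_of_pos (hE0 _) (by positivity)
      simp only [R] at h4
      rwa [div_mul_eq_mul_div, one_mul, div_le_iff₀ (Real.sqrt_pos.2 h5)] at h4
    refine squeeze_zero' (Eventually.of_forall fun j => he0 _ _) hev ?_
    simpa using (hREz.comp hNt).const_mul C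
  set dl : ℕ → ℕ → ℝ := fun j p => δ (Ns j) p (x (Ns j))
  have hdl : ∀ p, Tendsto (fun j => dl j p) atTop (𝓝 0) := fun p => by
    refine squeeze_zero' (Eventually.of_forall fun j => (hδb _ _ _).1)
      (g := fun j => 2 ^ p * e (Ns j) (x (Ns j))) ?_ (by simpa using hez.const_mul ((2 : ℝ) ^ p))
    filter_upwards [hNt.eventually (eventually_gt_atTop p)] with j hj
    have h := Finset.single_le_sum (f := fun i => (1 / 2 : ℝ) ^ i * δ (Ns j) i (x (Ns j)))
      (fun i _ => mul_nonneg (by positivity) (hδb _ _ _).1) (Finset.mem_range.2 hj)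
    calc dl j p = 2 ^ p * ((1 / 2 : ℝ) ^ p * δ (Ns j) p (x (Ns j))) := by
          rw [← mul_assoc, ← mul_pow]; norm_num [dl]
      _ ≤ _ := mul_le_mul_of_nonneg_left h (by positivity)
  obtain ⟨φ, ξ, hφ, hap⟩ := hE Ns (fun j => Q (Ns j)) (fun j => Sphere.sysState (Q (Ns j)) f (scale (Ns j)) (x (Ns j)) (α * Ns j))
    hNt (fun j => sysState_good hf _) dl hdl fun j p => hδgg _ _ _ (hx _)
  set M : ℕ → ℕ := fun j => Ns (φ j) with hMdef
  have hMt : Tendsto M atTop atTop := hNt.comp hφ.tendsto_atTop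
  have hM0 : ∀ j, 0 < M j := fun j => (hbad (φ j)).2.1
  have hμ : ∀ j, 0 ≤ α * (M j : ℝ) := fun j => by positivity
  have hap' := approx_shift (Ps := fun j => Q (M j)) (s := fun j => scale (M j)) (x := fun j => x (M j))
    (μ := fun j => α * (M j : ℝ)) hC hf hM0 hμ hα.le hap
  have hpat := pattern_step (Ps := fun j => Q (M j)) (s := fun j => scale (M j)) (x := fun j => x (M j))
    (μ := fun j => α * (M j : ℝ)) hL hf hM0 hμ hα.le (fun j => hx _) hap
  have hε4 : 0 < ε / 4 := by linarith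
  obtain ⟨R₀, hR₀⟩ := hH α A α f hα hf M (fun j => Q (M j)) (fun j => x (M j))
    (fun j => α * (M j : ℝ) + α) ξ hMt hM0 (fun j => by positivity)
    (fun j => by rw [add_sub_cancel_left, abs_of_pos hα]) hap' (ε / 4) hε4
  set K := max R₀ 1
  obtain ⟨m₁, hm₁⟩ := hR₀ K (le_max_left _ _)
  obtain ⟨m₂, hm₂⟩ := hG α A α f hα hf Q hQ (ε / 4) hε4 K (lt_of_lt_of_le one_pos (le_max_right _ _))
  obtain ⟨T₁, hT₁⟩ := hm₁ (max m₁ m₂) (le_max_left _ _)
  obtain ⟨T₂, hT₂⟩ := hm₂ (max m₁ m₂) (le_max_right _ _)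
  set T := max T₁ T₂
  have hfix := hF α A α f Q hQf M (fun j => x (M j)) (fun j => α * (M j : ℝ) + α) ξ
    ⟨hα, hf, hMt, hM0, fun j => by positivity,
      fun j => by rw [add_sub_cancel_left, abs_of_pos hα], hap'⟩ (fun j i => hx _ i)
  obtain ⟨η, hη, hcmp⟩ := hCmp α A f hα hf (ε / 8) (by linarith)
  have hfix' := hfix.eventually (eventually_le_nhds hη)
  obtain ⟨j, hj, h1, h2, h3, h4, h5⟩ := (hfix'.and <| (hT₁ T (le_max_left _ _)).and
    ((hMt.eventually (hT₂ T (le_max_right _ _))).and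
      (((Metric.tendsto_nhds.1 hpat) (ε / 4) hε4).and
        ((hMt.eventually ((Metric.tendsto_nhds.1 hRE) (ε / 16) (by linarith))).and
          (hMt.eventually ((Metric.tendsto_nhds.1 hPz) (ε / 16) (by linarith))))))).exists
  simp only [Real.dist_eq, sub_zero, abs_abs] at h3 h4 h5
  have h2' := h2 (α * (M j : ℝ) + α) (by positivity)
    (by rw [add_sub_cancel_left, abs_of_pos hα]) (x (M j)) (hx _)
  have h6 := (hsel' (φ j)).2
  have h7 := (hbad (φ j)).1
  push_neg at h7
  obtain ⟨v, hv, hvle⟩ := hcmp (ξ j) hj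
  have h8 := h7 v hv
  have h9 : parisiSphere α f (ξ j).m (ξ j).q = α * patValue f (ξ j).m (ξ j).q +
      siteSphere α f (ξ j).m (ξ j).q := rfl
  simp only [stepPart] at h6
  simp only [hMdef] at h1 h2' h3 h4 h5
  linarith [abs_le.1 h3.le, le_abs_self (R (Ns (φ j)) * E (Ns (φ j)))]

theorem lower_sphere_of (hD : PerturbS) (hE : TreeApproxS) (hC : ContS) (hL : LogS)
    (hG : CavityS) (hP : PertChangeS) (hH : SiteS) (hF : SphereFixedStmt) (hCmp : CompareStmt) {Q : ∀ N, Pts N} (hQf : IsFine Q) (hQ : Sphere.IsNets Q) :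
    LowerSphereStmt := by
  intro α A f hα hf ε hε
  obtain ⟨N₀, hN₀⟩ := eventually_atTop.1
    (step_ge hD hE hC hL hG hP hH hF hCmp hQf hQ hα hf (show 0 < ε / 4 by linarith))
  have hA := smooth_nonneg hf
  -- the averaged partition against the pressure
  have hclose : ∀ N : ℕ, 0 < N → |avgPart Q α f N - N * meanPressure sphereLaw α f N| ≤
      scale N ^ 2 + A * (Real.sqrt (α * N) + 1) + (2 + A * α) := by
    intro N hN
    have hN' : (1 : ℝ) ≤ N := by exact_mod_cast hN
    have hp := pressure_close (P := Q N) (α := α) hf hN ⌊α * N⌋₊ rfl (hQ N hN)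
    have hnet : 2 * netTol N + A * netTol N * N * ⌊α * N⌋₊ ≤ 2 + A * α := by
      have hfl : (⌊α * N⌋₊ : ℝ) ≤ α * N := Nat.floor_le (by positivity)
      have h3 : ((N : ℝ) + 1) ^ 3 ≥ N ^ 2 := by nlinarith [pow_nonneg (Nat.cast_nonneg (α := ℝ) N) 3]
      have h4 : netTol N * N ^ 2 ≤ 1 := by
        rw [netTol, div_mul_eq_mul_div, one_mul, div_le_one (by positivity)]; exact h3
      have h5 : netTol N ≤ 1 := by
        rw [netTol, div_le_one (by positivity)]; exact one_le_pow₀ (by linarith)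
      have h0 : 0 ≤ netTol N := by unfold netTol; positivity
      have h6 : A * netTol N * N * ⌊α * N⌋₊ ≤ A * α * (netTol N * N ^ 2) := by
        calc A * netTol N * N * ⌊α * N⌋₊ ≤ A * netTol N * N * (α * N) :=
              mul_le_mul_of_nonneg_left hfl (by positivity)
          _ = _ := by ring
      linarith [mul_le_mul_of_nonneg_left h4 (show 0 ≤ A * α by positivity)]
    rw [avgPart, ← show ∫ _x : Fin N → ℝ, (N : ℝ) * meanPressure sphereLaw α f N ∂xLaw N =
      N * meanPressure sphereLaw α f N by simp, ← integral_sub (integrable_logPartS hf) (integrable_const _)]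
    simpa using norm_integral_le_of_norm_le_const (μ := xLaw N) ((ae_xLaw N).mono fun x hx =>
      show ‖Sphere.logPartS (Q N) f (scale N) x (α * N) - N * meanPressure sphereLaw α f N‖ ≤
          scale N ^ 2 + A * (Real.sqrt (α * N) + 1) + (2 + A * α) by
        rw [Real.norm_eq_abs]
        have h1 := logPartS_close (P := Q N) (s := scale N) hf hα.le hN hx
        rw [abs_sub_comm] at hp
        exact (abs_sub_le _ (patLog f (Q N) ⌊α * N⌋₊) _).trans (by linarith))
  have herr : Tendsto (fun N : ℕ => (scale N ^ 2 + A * (Real.sqrt (α * N) + 1) + (2 + A * α) + |avgPart Q α f N₀|) / N)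
      atTop (𝓝 0) := by
    have h1 : Tendsto (fun N : ℕ => (N : ℝ) ^ (-(1 / 4) : ℝ)) atTop (𝓝 0) :=
      (tendsto_rpow_neg_atTop (by norm_num)).comp tendsto_natCast_atTop_atTop
    have h2 : Tendsto (fun N : ℕ => A * Real.sqrt α * (N : ℝ) ^ (-(1 / 2) : ℝ)) atTop (𝓝 0) := by
      simpa using ((tendsto_rpow_neg_atTop (by norm_num)).comp tendsto_natCast_atTop_atTop).const_mul
        (A * Real.sqrt α)
    have h3 : Tendsto (fun N : ℕ => (A + (2 + A * α) + |avgPart Q α f N₀|) / (N : ℝ)) atTop (𝓝 0) :=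
      tendsto_const_nhds.div_atTop tendsto_natCast_atTop_atTop
    have h := (h1.add h2).add h3
    simp only [add_zero] at h
    refine h.congr' ((eventually_gt_atTop 0).mono fun N hN => ?_)
    have hNR : (0 : ℝ) < N := by exact_mod_cast hN
    have e1 : scale N ^ 2 = (N : ℝ) ^ (-(1 / 4) : ℝ) * N := by
      rw [scale, ← Real.rpow_natCast ((N : ℝ) ^ (3 / 8 : ℝ)) 2, ← Real.rpow_mul hNR.le,
        ← Real.rpow_add_one hNR.ne']
      norm_num
    have e2 : Real.sqrt (α * N) = Real.sqrt α * (N : ℝ) ^ (-(1 / 2) : ℝ) * N := by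
      rw [Real.sqrt_mul hα.le, mul_assoc, ← Real.rpow_add_one hNR.ne', Real.sqrt_eq_rpow (N : ℝ)]
      norm_num
    dsimp only
    rw [e1, e2]
    field_simp
    ring
  have hstep : ∀ N, N₀ < N → ∃ v ∈ sphereValues α f,
      ((N : ℝ) - N₀) * (v - ε / 4) ≤ avgPart Q α f N - avgPart Q α f N₀ := by
    intro N hN
    induction N, hN using Nat.le_induction with
    | base =>
      obtain ⟨v, hv, h⟩ := hN₀ N₀ le_rfl
      exact ⟨v, hv, by push_cast; simpa using h⟩
    | succ N hN ih =>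
      obtain ⟨v, hv, h⟩ := ih
      obtain ⟨w, hw, h'⟩ := hN₀ N (by omega)
      have hNN : (N₀ : ℝ) ≤ N := by exact_mod_cast (by omega : N₀ ≤ N)
      rcases le_total v w with hvw | hvw
      · exact ⟨v, hv, by push_cast; linarith⟩
      · have := mul_le_mul_of_nonneg_left (sub_le_sub_right hvw (ε / 4)) (sub_nonneg.2 hNN)
        exact ⟨w, hw, by push_cast; linarith⟩
  filter_upwards [eventually_gt_atTop N₀, eventually_gt_atTop 0,
    (Metric.tendsto_nhds.1 herr) (ε / 8) (by linarith),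
    eventually_ge_atTop (2 * N₀), tendsto_natCast_atTop_atTop.eventually
      (eventually_gt_atTop (4 * ((N₀ : ℝ) * (α * A)) / ε))] with N hN hN1 hN2 hN3 hN4
  obtain ⟨v, hv, h⟩ := hstep N hN
  refine ⟨v, hv, ?_⟩
  rw [Real.dist_eq, sub_zero] at hN2
  have hNR : (0 : ℝ) < N := by exact_mod_cast hN1
  have hh := (abs_lt.1 hN2).2
  rw [div_lt_iff₀ hNR] at hh
  have hc := abs_le.1 (hclose N hN1)
  have h2 : 2 * (N₀ : ℝ) ≤ N := by exact_mod_cast hN3
  by_contra hv2
  push_neg at hv2
  have h3 := mul_le_mul_of_nonneg_left (hv2.le) (show (0 : ℝ) ≤ (N : ℝ) - N₀ by linarith)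
  have h4 : |meanPressure sphereLaw α f N| ≤ α * A := by
    have := isProb_sphereLaw hN1
    set M := ⌊α * (N : ℝ)⌋₊
    have hb : ∀ g : Fin M → Fin N → ℝ, ∀ y : Fin N → ℝ,
        |∑ a, f ((∑ i, g a i * y i) / Real.sqrt N)| ≤ M * A := fun g y =>
      (Finset.abs_sum_le_sum_abs _ _).trans ((Finset.sum_le_sum fun a _ => hf.b0 _).trans_eq (by simp))
    have hfm := smooth_meas hf
    have hp : |∫ g, (1 / (N : ℝ)) * Real.log (∫ y, Real.exp (∑ a : Fin M,
        f ((∑ i, g a i * y i) / Real.sqrt N)) ∂sphereLaw N) ∂patterns M N| ≤ 1 / N * (M * A) := by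
      have : IsProbabilityMeasure (patterns M N) := by unfold patterns; infer_instance
      simpa using norm_integral_le_of_norm_le_const (μ := patterns M N) (Eventually.of_forall fun g =>
        show ‖(1 / (N : ℝ)) * Real.log (∫ y, Real.exp (∑ a : Fin M,
            f ((∑ i, g a i * y i) / Real.sqrt N)) ∂sphereLaw N)‖ ≤ 1 / N * (M * A) by
          rw [Real.norm_eq_abs, abs_mul, abs_of_nonneg (by positivity : (0 : ℝ) ≤ 1 / N)]
          exact mul_le_mul_of_nonneg_left
            (abs_lint_le (by fun_prop) (hb g)) (by positivity))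
    refine hp.trans ?_
    rw [one_div, inv_mul_le_iff₀ hNR]
    have := mul_le_mul_of_nonneg_right (Nat.floor_le (show 0 ≤ α * N by positivity)) hA
    linarith
  have h5 : (N₀ : ℝ) * |meanPressure sphereLaw α f N| ≤ N₀ * (α * A) :=
    mul_le_mul_of_nonneg_left h4 (Nat.cast_nonneg _)
  rw [div_lt_iff₀ hε] at hN4
  have h7 : (N : ℝ) / 2 * (3 * ε / 4) ≤ ((N : ℝ) - N₀) * (3 * ε / 4) :=
    mul_le_mul_of_nonneg_right (by linarith) (by linarith)
  have h8 : (N₀ : ℝ) * meanPressure sphereLaw α f N ≤ N₀ * |meanPressure sphereLaw α f N| :=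
    mul_le_mul_of_nonneg_left (le_abs_self _) (Nat.cast_nonneg _)
  linarith [neg_abs_le (avgPart Q α f N₀)]

end Vale.Agent.P157.Parisi.Full.Spherical
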