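import Vale.Agent.P157.Full.Sphere.Statements
import Vale.Agent.P157.Parisi.Sphere.Main.Energy

/-!
The upper bound on the sphere from the upper bound on any configurations.
-/

noncomputable section

open MeasureTheory ProbabilityTheory Filter
open scoped BigOperators NNReal ENNReal Topology

namespace Vale.Agent.P157.Parisi.Full.Spherical

/-- The upper bound on the sphere. -/
def UpperSphereStmt : Prop :=
  ∀ (α A : ℝ) (f : ℝ → ℝ), 0 < α → Smooth f A →
    ∀ (r : ℕ) (m : Fin r → ℝ) (q : Fin (r + 1) → ℝ), IsPath m q → q (Fin.last r) < 1 →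
      ∀ ε > 0, ∀ᶠ N : ℕ in atTop, meanPressure sphereLaw α f N ≤ sphereVal α f m q + ε

lemma logPartS_zero {N : ℕ} (P : Sphere.Pts N) (f : ℝ → ℝ) (μ : ℝ) (x y : Fin N → ℝ) :
    Sphere.logPartS P f 0 x μ = Sphere.logPartS P f 0 y μ := by
  have e : ∀ (z : Fin N → ℝ) (d : Dis N N) (σ : Sphere.Conf P),
      Sphere.totalH f 0 z d σ = ∑ a ∈ Finset.range d.1, f (dot (d.2.1 a) (Sphere.unitVec σ)) :=
    fun z d σ => by simp [Sphere.totalH, Sphere.pertH]
  simp only [Sphere.logPartS, e]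

theorem upper_sphere_of (hU : UpperGenStmt) (hI : InitSphereStmt) {Q : ∀ N, Sphere.Pts N}
    (hQ : Sphere.IsNets Q) : UpperSphereStmt := by
  intro α A f hα hf r m q hq hq1 ε hε
  have hA : 0 ≤ A := (abs_nonneg _).trans (hf.b0 0)
  have h0 : Tendsto (fun N : ℕ => A * (Real.sqrt α / Real.sqrt N + 1 / N) + (2 + A * α) / N)
      atTop (𝓝 0) := by
    have h1 := (tendsto_const_nhds (x := Real.sqrt α)).div_atTop
      (Real.tendsto_sqrt_atTop.comp (tendsto_natCast_atTop_atTop (R := ℝ)))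
    simpa [Function.comp_def] using ((h1.add tendsto_one_div_atTop_nhds_zero_nat).const_mul A).add
      (tendsto_const_div_atTop_nhds_zero_nat (2 + A * α))
  filter_upwards [hU Q α A f hα hf r m q hq _ (hI Q hQ r m q hq hq1) (ε / 2) (half_pos hε),
    h0.eventually (eventually_le_nhds (half_pos hε)), eventually_gt_atTop 0] with N h1 h2 hN
  have hNR : (0 : ℝ) < N := Nat.cast_pos.2 hN
  have hN1 : (1 : ℝ) ≤ N := by exact_mod_cast hN
  have h3 := (abs_le.1 (Sphere.Main.logPartS_close (P := Q N) (s := 0)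
    (x := fun _ : Fin N => (1 : ℝ)) hf hα.le hN fun _ => ⟨le_rfl, one_le_two⟩)).1
  rw [logPartS_zero (Q N) f _ _ (fun _ : Fin N => 0)] at h3
  have h4 := (abs_le.1 (Sphere.Main.pressure_close (P := Q N) (α := α) hf hN ⌊α * N⌋₊ rfl
    (hQ N hN))).2
  have hnet : 2 * Sphere.netTol N + A * Sphere.netTol N * N * ⌊α * N⌋₊ ≤ 2 + A * α := by
    have hfl : (⌊α * N⌋₊ : ℝ) ≤ α * N := Nat.floor_le (by positivity)
    have g3 : ((N : ℝ) + 1) ^ 3 ≥ N ^ 2 := by nlinarith [pow_nonneg (Nat.cast_nonneg (α := ℝ) N) 3]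
    have g4 : Sphere.netTol N * N ^ 2 ≤ 1 := by
      rw [Sphere.netTol, div_mul_eq_mul_div, one_mul, div_le_one (by positivity)]; exact g3
    have g5 : Sphere.netTol N ≤ 1 := by
      rw [Sphere.netTol, div_le_one (by positivity)]; exact one_le_pow₀ (by linarith)
    have g0 : 0 ≤ Sphere.netTol N := by unfold Sphere.netTol; positivity
    have g6 : A * Sphere.netTol N * N * ⌊α * N⌋₊ ≤ A * α * (Sphere.netTol N * N ^ 2) := by
      calc A * Sphere.netTol N * N * ⌊α * N⌋₊ ≤ A * Sphere.netTol N * N * (α * N) :=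
            mul_le_mul_of_nonneg_left hfl (by positivity)
        _ = _ := by ring
    linarith [mul_le_mul_of_nonneg_left g4 (show 0 ≤ A * α by positivity)]
  have h5 : A * (Real.sqrt (α * N) + 1) + (2 + A * α) ≤ N * (ε / 2) := by
    refine le_trans (le_of_eq ?_) (mul_le_mul_of_nonneg_left h2 hNR.le)
    calc A * (Real.sqrt (α * N) + 1) + (2 + A * α)
        = A * (Real.sqrt α * ((N : ℝ) / Real.sqrt N) + (N : ℝ) / N) +
          (2 + A * α) * ((N : ℝ) / N) := by
          rw [Real.sqrt_mul hα.le, Real.div_sqrt, div_self hNR.ne', mul_one]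
      _ = _ := by ring
  refine le_of_mul_le_mul_left ?_ hNR
  simp only [sphereVal]
  simp only [zero_pow two_ne_zero, zero_add] at h3
  linarith

end Vale.Agent.P157.Parisi.Full.Spherical
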