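import Vale.Agent.P157.Full.Sphere.Fixed
import Vale.Agent.P157.Full.Sphere.Lower
import Vale.Agent.P157.Full.Sphere.Upper
import Vale.Agent.P157.Full.Sphere.Extend
import Vale.Agent.P157.Full.Formula
import Vale.Agent.P157.Parisi.Sphere.Perturb.Main
import Vale.Agent.P157.Parisi.Sphere.Cavity.Change
import Vale.Agent.P157.Parisi.Sphere.Cavity.Main
import Vale.Agent.P157.Parisi.Sphere.Site.Main

/-!
The variational formula for every bounded Borel potential on the sphere.
-/

noncomputable section

open MeasureTheory ProbabilityTheory Filter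
open scoped BigOperators NNReal ENNReal Topology

namespace Vale.Agent.P157.Parisi.Full.Spherical

lemma abs_meanPressure_sphere_le {α A : ℝ} {f : ℝ → ℝ} (hα : 0 ≤ α) (hf : Extend.Bd A f)
    {N : ℕ} (hN : 0 < N) :
    |meanPressure sphereLaw α f N| ≤ α * (Real.exp (2 * A) * A) := by
  have := Sphere.Up.isProb_sphere hN
  have hA : 0 ≤ A := (abs_nonneg _).trans (hf.bound 0)
  have h0 : Extend.Bd A (fun _ : ℝ => (0 : ℝ)) := ⟨measurable_const, fun _ => by simpa using hA⟩
  have e : meanPressure sphereLaw α (fun _ : ℝ => (0 : ℝ)) N = 0 := by simp [meanPressure]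
  have h := abs_meanPressure_sphere_sub_le hα hf h0 N
  rw [e, sub_zero] at h
  refine h.trans (mul_le_mul_of_nonneg_left (mul_le_mul_of_nonneg_left ?_ (Real.exp_pos _).le) hα)
  simp only [sub_zero]
  refine (integral_mono (hf.integrable _).abs (integrable_const A) hf.bound).trans_eq ?_
  simp

/-- The formula on the sphere from the remaining modules. -/
theorem sphere_formula_of (hFine : FineStmt) (hB : ByPartsStmt) (hP : PatPartsStmt)
    (hT : TreeIdStmt) (hC : CompareStmt) (hI : InitSphereStmt) : SphereFormulaStmt := by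
  obtain ⟨Q, hQf, hQ⟩ := hFine
  have hU : UpperSphereStmt := upper_sphere_of
    (upper_gen slot_step trunc_stmt addStmt pertShapeStmt ggStmt Conc.concStmt
      Sphere.TreeApprox.treeApproxS (Sphere.Cont.logS bridge) (dom patDeriv_spec)) hI hQ
  have hL : LowerSphereStmt := lower_sphere_of Sphere.Perturb.perturbS
    Sphere.TreeApprox.treeApproxS (Sphere.Cont.contS tilt_factor tree_shape)
    (Sphere.Cont.logS bridge) Sphere.cavityS Sphere.pertChangeS
    (Sphere.site_stmt (Sphere.Cont.contS tilt_factor tree_shape) slope_spec)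
    (sphere_fixed hB hP hT) hC hQf hQ
  refine extend_sphere fun α A f hα hf => ?_
  have hfB : Extend.Bd A f := ⟨hf.d0.continuous.measurable, hf.b0⟩
  have hb : BddBelow (sphereValues α f) := by
    refine ⟨-(α * (Real.exp (2 * A) * A)) - 1, ?_⟩
    rintro v ⟨r, m, q, hq, hq1, rfl⟩
    obtain ⟨N, h, hN⟩ := ((hU α A f hα hf r m q hq hq1 1 one_pos).and
      (eventually_gt_atTop 0)).exists
    linarith [(abs_le.1 (abs_meanPressure_sphere_le hα.le hfB hN)).1]
  refine ⟨hb, ?_⟩
  rw [Metric.tendsto_nhds]
  intro ε hε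
  obtain ⟨v, ⟨r, m, q, hq, hq1, rfl⟩, hv⟩ := exists_lt_of_csInf_lt (sphereValues_nonempty α f)
    (show sInf (sphereValues α f) < sInf (sphereValues α f) + ε / 4 by linarith)
  filter_upwards [hU α A f hα hf r m q hq hq1 (ε / 4) (by linarith),
    hL α A f hα hf (ε / 2) (by linarith)] with N h1 h2
  obtain ⟨w, hw, h2⟩ := h2
  have h3 := csInf_le hb hw
  rw [Real.dist_eq, abs_lt]
  constructor <;> linarith

end Vale.Agent.P157.Parisi.Full.Spherical
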