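import Vale.Agent.P157.Full.Sphere.Statements
import Vale.Agent.P157.Parisi.Sphere.Main.Top
import Vale.Agent.P157.Parisi.Site.Casc

/-!
Sums over the levels of a path: tails of the weights and the gap.
-/

noncomputable section

open MeasureTheory ProbabilityTheory
open scoped BigOperators

namespace Vale.Agent.P157.Parisi.Full.Spherical

open Sphere.Main (sum_weight_mul)
open Vale.Agent.P168 (padded)

variable {r : ℕ}

lemma sum_weight_one (m : Fin r → ℝ) : ∑ p, weight m p = 1 := by
  have h := sum_weight_mul m fun _ => 1
  simpa using h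

lemma dc_tail (q : Fin (r + 1) → ℝ) (p : Fin (r + 1)) (i : Fin r) :
    (if p < i.succ then q i.succ - q p else 0) - (if p < i.castSucc then q i.castSucc - q p else 0) =
      if p.val ≤ i.val then q i.succ - q i.castSucc else 0 := by
  simp only [Fin.lt_def, Fin.val_succ, Fin.val_castSucc]
  rcases lt_trichotomy p.val i.val with h | h | h
  · rw [if_pos (by omega), if_pos h, if_pos h.le]; ring
  · rw [if_pos (by omega), if_neg (by omega), if_pos h.le,
      show p = i.castSucc from Fin.ext h]
    ring
  · rw [if_neg (by omega), if_neg (by omega), if_neg (by omega)]; ring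

/-- A tail sum of increments of `c` against the exponents, through the weights. -/
lemma tail_inc (m : Fin r → ℝ) (c : Fin (r + 1) → ℝ) (p : Fin (r + 1)) :
    (∑ i : Fin r, if p.val ≤ i.val then m i * (c i.succ - c i.castSucc) else 0) =
      c (Fin.last r) - c p - ∑ l, if p < l then weight m l * (c l - c p) else 0 := by
  have h := sum_weight_mul m fun l => if p < l then c l - c p else 0
  simp only [mul_ite, mul_zero, dc_tail] at h
  rw [h]
  rcases (Fin.le_last p).eq_or_lt with hp | hp
  · subst hp
    simp
  · rw [if_pos hp]; ring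

lemma gap_eq (m : Fin r → ℝ) (q : Fin (r + 1) → ℝ) (p : Fin (r + 1)) :
    gap m q p = 1 - q p - ∑ l, if p < l then weight m l * (q l - q p) else 0 := by
  rw [gap, tail_inc]; ring

lemma tail_weight (m : Fin r → ℝ) (p : Fin (r + 1)) :
    (∑ l, if p < l then weight m l else 0) = 1 - padded m (p.val + 1) := by
  induction p using Fin.lastCases with
  | last =>
    rw [Fin.val_last, Vale.Agent.P168.Cascade.padded_top, sub_self]
    exact Finset.sum_eq_zero fun l _ => if_neg (not_lt.2 (Fin.le_last l))
  | cast i =>
    have h := sum_weight_mul m fun l => if i.castSucc < l then (1 : ℝ) else 0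
    simp only [mul_ite, mul_one, mul_zero, Fin.castSucc_lt_last, if_true] at h
    rw [h, Fin.val_castSucc, Vale.Agent.P168.Cascade.padded_succ,
      Finset.sum_eq_single i (fun j _ hj => ?_) (fun h => absurd (Finset.mem_univ i) h)]
    · simp
    · have : j.val ≠ i.val := fun e => hj (Fin.ext e)
      simp only [Fin.lt_def, Fin.val_succ, Fin.val_castSucc]
      rcases lt_or_gt_of_ne this with h' | h'
      · rw [if_neg (by omega), if_neg (by omega)]; simp
      · rw [if_pos (by omega), if_pos h']; simp

lemma gap_last (m : Fin r → ℝ) (q : Fin (r + 1) → ℝ) : gap m q (Fin.last r) = 1 - q (Fin.last r) := by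
  rw [gap, Finset.sum_eq_zero fun i _ => if_neg (by simp [i.isLt]), add_zero]

lemma gap_step (m : Fin r → ℝ) (q : Fin (r + 1) → ℝ) (i : Fin r) :
    gap m q i.castSucc = gap m q i.succ + m i * (q i.succ - q i.castSucc) := by
  have e : ∀ j : Fin r, (if i.castSucc.val ≤ j.val then m j * (q j.succ - q j.castSucc) else 0) =
      (if i.succ.val ≤ j.val then m j * (q j.succ - q j.castSucc) else 0) +
        if j = i then m i * (q i.succ - q i.castSucc) else 0 := fun j => by
    simp only [Fin.val_succ, Fin.val_castSucc]
    rcases lt_trichotomy i.val j.val with h | h | h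
    · rw [if_pos h.le, if_pos (by omega), if_neg (fun e => by subst e; omega), add_zero]
    · rw [if_pos h.le, if_neg (by omega), if_pos (Fin.ext h.symm), zero_add, Fin.ext h.symm]
    · rw [if_neg (by omega), if_neg (by omega), if_neg (fun e => by subst e; omega), add_zero]
  rw [gap, gap, Finset.sum_congr rfl fun j _ => e j, Finset.sum_add_distrib,
    Finset.sum_ite_eq' Finset.univ i, if_pos (Finset.mem_univ i)]
  ring

lemma gap_pos_of_lt {m : Fin r → ℝ} {q : Fin (r + 1) → ℝ} (h : IsPath m q) (hlt : q (Fin.last r) < 1)
    (p : Fin (r + 1)) : 0 < gap m q p := by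
  refine add_pos_of_pos_of_nonneg (by linarith) (Finset.sum_nonneg fun i _ => ?_)
  split_ifs
  · exact mul_nonneg (h.pos i).le (sub_nonneg.2 (h.mono (Fin.castSucc_lt_succ (i := i)).le))
  · exact le_rfl

end Vale.Agent.P157.Parisi.Full.Spherical
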